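import Vale.Agent.P290Z.BR.SpecA

/-! P290Z, block BR: COL, a good circle by the pigeonhole principle -/

open Set Filter Metric MeasureTheory
open scoped Topology

namespace Vale.Agent.P290Z.BR

namespace Col

theorem pigeon {κ : Type} [Fintype κ] [Nonempty κ] {φ : V2 → ℝ} {Q : Set V2}
    (hQ : IntegrableOn φ Q) (hm : MeasurableSet Q) (h0 : ∀ x ∈ Q, 0 ≤ φ x) {T : κ → Set V2}
    (hT : ∀ k, MeasurableSet (T k)) (hd : Pairwise (Function.onFun Disjoint T))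
    (hTQ : ∀ k, T k ⊆ Q) {c : ℝ} (hc : ∫ x in Q, φ x ≤ Fintype.card κ * c) :
    ∃ k, ∀ A ⊆ T k, ∫ x in A, φ x ≤ c := by
  have hmono : ∀ A B, A ⊆ B → B ⊆ Q → MeasurableSet B → ∫ x in A, φ x ≤ ∫ x in B, φ x :=
    fun A B h1 h2 h3 => setIntegral_mono_set (hQ.mono_set h2)
      ((ae_restrict_mem h3).mono fun x hx => h0 x (h2 hx)) h1.eventuallyLE
  have h1 := (hmono _ Q (iUnion_subset hTQ) subset_rfl hm).trans hc
  rw [integral_iUnion_fintype hT hd fun k => hQ.mono_set (hTQ k)] at h1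
  obtain ⟨k, -, hk⟩ := Finset.exists_le_of_sum_le (f := fun k => ∫ x in T k, φ x)
    (g := fun _ => c) Finset.univ_nonempty (by simpa using h1)
  exact ⟨k, fun A hA => (hmono A _ hA (hTQ k) (hT k)).trans hk⟩

theorem fin_eq {N : ℕ} {i j : Fin N} (h : |((i : ℕ) : ℝ) - (j : ℕ)| < 1) : i = j := by
  rw [abs_lt] at h
  have h1 : ((i : ℕ) : ℝ) < (j : ℕ) + 1 := by linarith [h.2]
  have h2 : ((j : ℕ) : ℝ) < (i : ℕ) + 1 := by linarith [h.1]
  norm_cast at h1 h2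
  exact Fin.ext (by omega)

/-- the family of solid tori -/
theorem tori (N : ℕ) (ρ : ℝ) (hρ : 0 < ρ) (hN : 200 * N * ρ = 1) :
    ∃ (a : Fin N × Fin N × Fin N → ℂ) (r : Fin N × Fin N × Fin N → ℝ)
      (T : Fin N × Fin N × Fin N → Set V2), (∀ k, ‖a k‖ ≤ 1 / 2 ∧ 1 / 2 ≤ r k ∧ r k ≤ 3 / 4) ∧
      (∀ k, MeasurableSet (T k)) ∧ Pairwise (Function.onFun Disjoint T) ∧
      (∀ k, T k ⊆ closedBall 0 2) ∧
      ∀ k w, ‖w‖ = r k → ball (a k * w, w) (2 * ρ) ⊆ T k := by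
  have hi : ∀ i : Fin N, 0 ≤ 50 * ρ * (i : ℕ) ∧ 50 * ρ * (i : ℕ) ≤ 1 / 4 ∧ ρ ≤ 1 / 200 := fun i => by
    have h1 : ((i : ℕ) : ℝ) + 1 ≤ N := by exact_mod_cast i.2
    have h2 : (0 : ℝ) ≤ (i : ℕ) := Nat.cast_nonneg _
    exact ⟨by positivity, by nlinarith, by nlinarith⟩
  let a : Fin N × Fin N × Fin N → ℂ := fun k => ⟨50 * ρ * (k.1 : ℕ), 50 * ρ * (k.2.1 : ℕ)⟩
  let r : Fin N × Fin N × Fin N → ℝ := fun k => 1 / 2 + 50 * ρ * (k.2.2 : ℕ)
  have ha : ∀ k, ‖a k‖ ≤ 1 / 2 := fun k => (Complex.norm_le_abs_re_add_abs_im _).trans (by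
    simp only [a]
    rw [abs_of_nonneg (hi _).1, abs_of_nonneg (hi _).1]
    linarith [(hi k.1).2.1, (hi k.2.1).2.1])
  have hr : ∀ k, 1 / 2 ≤ r k ∧ r k ≤ 3 / 4 := fun k => by
    simp only [r]
    exact ⟨by linarith [(hi k.2.2).1], by linarith [(hi k.2.2).2.1]⟩
  refine ⟨a, r, fun k => {x | |‖x.2‖ - r k| < 2 * ρ ∧ ‖x.1 - a k * x.2‖ < 3 * ρ},
    fun k => ⟨ha k, hr k⟩, fun k => ?_, fun k l hkl => Set.disjoint_left.2 fun x hk hl => hkl ?_,
    fun k x hx => ?_, fun k w hw x hx => ?_⟩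
  · exact ((isOpen_lt (f := fun x : V2 => |‖x.2‖ - r k|) (by fun_prop) continuous_const).inter
      (isOpen_lt (f := fun x : V2 => ‖x.1 - a k * x.2‖) (by fun_prop)
        continuous_const)).measurableSet
  · have h1 := abs_lt.1 hk.1
    have h2 := abs_lt.1 hl.1
    have h3 : ‖a k - a l‖ * ‖x.2‖ < 6 * ρ := by
      have : (a k - a l) * x.2 = (x.1 - a l * x.2) - (x.1 - a k * x.2) := by ring
      rw [← norm_mul, this]
      linarith [norm_sub_le (x.1 - a l * x.2) (x.1 - a k * x.2), hk.2, hl.2]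
    have h4 : ‖a k - a l‖ < 50 * ρ := by
      by_contra h5
      have h6 : 1 / 4 ≤ ‖x.2‖ := by linarith [(hr k).1, (hi k.1).2.2, h1.1]
      nlinarith [mul_le_mul (not_lt.1 h5) h6 (by norm_num) (norm_nonneg _)]
    have key : ∀ i j : Fin N, |50 * ρ * (i : ℕ) - 50 * ρ * (j : ℕ)| < 50 * ρ → i = j :=
      fun i j h => fin_eq (by
        rw [← mul_sub, abs_mul, abs_of_pos (by positivity : 0 < 50 * ρ)] at h
        exact (mul_lt_iff_lt_one_right (by positivity)).1 h)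
    refine Prod.ext (key _ _ ((Complex.abs_re_le_norm (a k - a l)).trans_lt h4))
      (Prod.ext (key _ _ ((Complex.abs_im_le_norm (a k - a l)).trans_lt h4)) (key _ _ ?_))
    simp only [r] at h1 h2
    rw [abs_lt]
    constructor <;> linarith [h1.1, h1.2, h2.1, h2.2]
  · have h1 : ‖x.2‖ ≤ 1 := by linarith [(abs_lt.1 hx.1).2, (hr k).2, (hi k.1).2.2]
    have h2 : ‖a k * x.2‖ ≤ 1 / 2 * 1 := by
      rw [norm_mul]
      exact mul_le_mul (ha k) h1 (norm_nonneg _) (by norm_num)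
    have h3 := norm_le_insert' x.1 (a k * x.2)
    rw [mem_closedBall_zero_iff, Prod.norm_def, max_le_iff]
    exact ⟨by linarith [hx.2, (hi k.1).2.2], by linarith⟩
  · rw [← ball_prod_same] at hx
    have h1 : ‖x.1 - a k * w‖ < 2 * ρ := mem_ball_iff_norm.1 hx.1
    have h2 : ‖x.2 - w‖ < 2 * ρ := mem_ball_iff_norm.1 hx.2
    refine ⟨hw ▸ (abs_norm_sub_norm_le _ _).trans_lt h2, ?_⟩
    have h3 : x.1 - a k * x.2 = (x.1 - a k * w) - a k * (x.2 - w) := by ring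
    have h4 : ‖a k * (x.2 - w)‖ ≤ 1 / 2 * (2 * ρ) := by
      rw [norm_mul]
      exact mul_le_mul (ha k) h2.le (norm_nonneg _) (by norm_num)
    rw [h3]
    linarith [norm_sub_le (x.1 - a k * w) (a k * (x.2 - w))]

end Col

open Col in
theorem col (hP : StPull) (h2 : StE2) : StCol := by
  intro ι _ 𝒰 K δ Λ U O h η C hδ hΛ hS
  obtain ⟨ε, hε, hE⟩ := h2 δ Λ hδ hΛ
  obtain ⟨N, hN⟩ := exists_nat_gt (max 0 (40000 * C / ε))
  have hN0 : (0 : ℝ) < N := (le_max_left _ _).trans_lt hN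
  have hN1 : 40000 * C < N * ε := (div_lt_iff₀ hε).1 ((le_max_right _ _).trans_lt hN)
  have : NeZero N := ⟨by exact_mod_cast hN0.ne'⟩
  have hN2 : (1 : ℝ) ≤ N := by exact_mod_cast NeZero.one_le
  set ρ : ℝ := 1 / (200 * N) with hρdef
  have hρ : 0 < ρ := by positivity
  have hρN : 200 * N * ρ = 1 := by
    rw [hρdef]
    field_simp
  obtain ⟨a, r, T, har, hT, hd, hTQ, hb⟩ := tori N ρ hρ hρN
  have h3 : ∀ᶠ n in (𝒰 : Filter ℕ), ∃ k, ∀ w, ‖w‖ = r k → ∃ j,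
      ∀ x ∈ ball (a k * w, w) (ρ / 4), x ∈ O n j ∧ h n j x ∈ K j := by
    filter_upwards [hS] with n hn
    obtain ⟨-, -, hc, hpos⟩ := hP ι K δ Λ _ _ _ _ hδ hΛ hn.1
    obtain ⟨k, hk⟩ := pigeon (c := ε * ρ ^ 2)
      ((hc.mono hn.2.1).integrableOn_compact (isCompact_closedBall _ _)) measurableSet_closedBall
      (fun x hx => by
        have h4 := hpos x (hn.2.1 hx) (1, 0) 0
        have h5 := h4.1.trans h4.2.1
        simpa [Prod.norm_def] using h5) hT hd hTQ (hn.2.2.trans (by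
        have h4 : (N : ℝ) * (N * N) * (ε * ρ ^ 2) = N * ε * (N * ρ) ^ 2 := by ring
        have h5 : N * ρ = 1 / 200 := by linarith
        simp only [Fintype.card_prod, Fintype.card_fin]
        push_cast
        rw [h4, h5]
        linarith))
    refine ⟨k, fun w hw => hE ι K _ _ _ _ hn.1 _ ρ hρ (Subset.trans ?_ hn.2.1) (hk _ (hb k w hw))⟩
    refine closedBall_subset_closedBall' ?_
    have h4 : ‖a k * w‖ ≤ 1 / 2 * (3 / 4) := by
      rw [norm_mul, hw]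
      exact mul_le_mul (har k).1 (har k).2.2 (by linarith [(har k).2.1]) (by norm_num)
    have h5 : ‖(a k * w, w)‖ ≤ 1 := by
      rw [Prod.norm_def, max_le_iff]
      exact ⟨by linarith, by linarith [(har k).2.2]⟩
    rw [dist_zero_right]
    nlinarith
  obtain ⟨k, hk⟩ := Ultrafilter.eventually_exists_iff.1 h3
  refine ⟨a k, r k, (har k).1, (har k).2.1, by linarith [(har k).2.2], fun w hw => ?_⟩
  obtain ⟨j, hj⟩ := Ultrafilter.eventually_exists_iff.1 (hk.mono fun n hn => hn w hw)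
  exact ⟨j, ρ / 4, by positivity, hj⟩

end Vale.Agent.P290Z.BR
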