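import Vale.Agent.P290Z.BR.SpecA

/-! P290Z, part III, block BR, step CORE: the limit of isomorphisms of bounded energy is an
isomorphism, from the steps GOOD, LAW, DIR and FIN. -/

open Set Filter Metric MeasureTheory
open scoped Topology Manifold ContDiff

namespace Vale.Agent.P290Z.BR

open Vale.Agent.P290 Vale.Agent.P290.H805

namespace CoreAux

section one

variable {T E : Type} [TopologicalSpace T] [TopologicalSpace E]

theorem t2_fib [T2Space E] (F : Family T E) (s : T) : T2Space (Fib F s) :=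
  (Topology.IsEmbedding.mk isInducing_val (fun _ _ h => Fib.ext h)).t2Space

theorem ctr_src (F : Family T E) (s : T) (x : Fib F s) : x ∈ (fibChart F s x).source :=
  F.mem x.val

theorem ctr_mem (F : Family T E) (s : T) (x : Fib F s) :
    (s, (F.triv x.val x.val).2) ∈ (F.triv x.val).target :=
  (fibChart F s x).map_source (ctr_src F s x)

theorem ctr_symm (F : Family T E) (s : T) (x : Fib F s) :
    (fibChart F s x).symm (F.triv x.val x.val).2 = x :=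
  (fibChart F s x).left_inv (ctr_src F s x)

theorem exists_rad (F : Family T E) (s : T) (x : Fib F s) :
    ∃ R₀ > (0 : ℝ), ∀ R : ℝ, R ≤ R₀ → ∀ v ∈ closedBall (F.triv x.val x.val).2 (4 * R),
      (s, v) ∈ (F.triv x.val).target := by
  have h1 : (fibChart F s x).target ∈ 𝓝 (F.triv x.val x.val).2 :=
    (fibChart F s x).open_target.mem_nhds (ctr_mem F s x)
  obtain ⟨ε, hε, h2⟩ := Metric.nhds_basis_closedBall.mem_iff.1 h1
  refine ⟨ε / 4, by positivity, fun R hR v hv => ?_⟩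
  exact h2 (closedBall_subset_closedBall (by linarith) hv)

/-- the points `(triv x).symm (a n, v₀)` converge to `x` -/
theorem tendsto_ctr (F : Family T E) (s : T) (x : Fib F s) {a : ℕ → T} {𝓕 : Filter ℕ}
    (ha : Tendsto a 𝓕 (𝓝 s)) :
    (∀ᶠ n in 𝓕, (a n, (F.triv x.val x.val).2) ∈ (F.triv x.val).target) ∧
      Tendsto (fun n => (F.triv x.val).symm (a n, (F.triv x.val x.val).2)) 𝓕 (𝓝 x.val) := by
  have h1 : Tendsto (fun n => ((a n, (F.triv x.val x.val).2) : T × V2)) 𝓕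
      (𝓝 (s, (F.triv x.val x.val).2)) := ha.prodMk_nhds tendsto_const_nhds
  refine ⟨h1.eventually ((F.triv x.val).open_target.mem_nhds (ctr_mem F s x)), ?_⟩
  have h2 := ((F.triv x.val).continuousAt_symm (ctr_mem F s x)).tendsto.comp h1
  have h3 : (F.triv x.val).symm (s, (F.triv x.val x.val).2) = x.val := by
    rw [← fibChart_symm_val F s x (ctr_mem F s x), ctr_symm]
  rw [h3] at h2
  exact h2

end one

/-- two transversal families of slices determine the point -/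
theorem slices_inj {α β : ℂ} (hα : ‖α‖ ≤ 1 / 2) (hβ : ‖β‖ ≤ 1 / 2) {u u' : V2}
    (h1 : u.1 - α * u.2 = u'.1 - α * u'.2) (h2 : u.2 - β * u.1 = u'.2 - β * u'.1) : u = u' := by
  have h3 : (1 : ℂ) - α * β ≠ 0 := by
    intro h
    have h4 : α * β = 1 := by linear_combination -h
    have h5 : ‖α * β‖ ≤ 1 / 2 * (1 / 2) := by
      rw [norm_mul]
      exact mul_le_mul hα hβ (norm_nonneg _) (by norm_num)
    rw [h4, norm_one] at h5
    norm_num at h5
  have h6 : (1 - α * β) * (u.1 - u'.1) = 0 := by linear_combination h1 + α * h2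
  have h7 : u.1 = u'.1 := sub_eq_zero.1 ((mul_eq_zero.1 h6).resolve_left h3)
  have h8 : u.2 = u'.2 := by linear_combination h2 + β * h7
  exact Prod.ext h7 h8

theorem slice_small {α p q : ℂ} {τ ρ : ℝ} (hα : ‖α‖ ≤ 1 / 2) (hp : ‖p‖ < τ) (hq : ‖q‖ < τ)
    (hτ : 2 * τ ≤ ρ) : ‖p - α * q‖ < ρ := by
  have h1 : ‖p - α * q‖ ≤ ‖p‖ + ‖α‖ * ‖q‖ := by
    rw [← norm_mul]; exact norm_sub_le _ _
  have h2 : ‖α‖ * ‖q‖ ≤ 1 / 2 * ‖q‖ := mul_le_mul_of_nonneg_right hα (norm_nonneg _)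
  have h3 := norm_nonneg q
  linarith

section two

variable {T E T' E' : Type} [TopologicalSpace T] [TopologicalSpace E] [TopologicalSpace T']
  [TopologicalSpace E'] {F : Family T E} {F' : Family T' E'} {s : T} {s' : T'} {a : ℕ → T}
  {b : ℕ → T'} {f : ℕ → E → E'}

theorem exists_lim (hG : StGood) [T2Space E'] (H : Half F F' s s' a b f) (𝒰 : Ultrafilter ℕ)
    (h𝒰 : (𝒰 : Filter ℕ) ≤ atTop) : ∃ l : Fib F s → Fib F' s', IsLim F F' s s' a f 𝒰 l := by
  have h := (hG T E T' E' F F' s s' a b f H 𝒰 h𝒰).1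
  choose l hl using fun x : Fib F s => h x.val (F.triv x.val x.val).2 (ctr_mem F s x)
  exact ⟨l, hl⟩

theorem dense_gd (hD : StDir) [T2Space E'] [CompactSpace (Fib F' s')] (H : Half F F' s s' a b f)
    (𝒰 : Ultrafilter ℕ) (h𝒰 : (𝒰 : Filter ℕ) ≤ atTop) (l : Fib F s → Fib F' s')
    (hl : IsLim F F' s s' a f 𝒰 l) : Dense (H.Gd 𝒰) := by
  intro x
  rw [mem_closure_iff_nhds]
  intro W hW
  obtain ⟨R₀, hR₀, h0⟩ := exists_rad F s x
  have h1 : ContinuousAt (fibChart F s x).symm (F.triv x.val x.val).2 :=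
    (fibChart F s x).continuousAt_symm (ctr_mem F s x)
  have h2 : (fibChart F s x).symm ⁻¹' W ∈ 𝓝 (F.triv x.val x.val).2 := by
    apply h1.preimage_mem_nhds
    rw [ctr_symm]
    exact hW
  obtain ⟨ε, hε, h3⟩ := Metric.nhds_basis_closedBall.mem_iff.1 h2
  obtain ⟨α, -, ⟨v, hv, hv'⟩, -⟩ := hD T E T' E' F F' s s' a b f H 𝒰 h𝒰 l hl x
    (F.triv x.val x.val).2 (min R₀ ε) (ContinuousLinearEquiv.refl ℂ V2) (lt_min hR₀ hε)
    (fun v => le_rfl) (h0 _ (min_le_left _ _))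
  exact ⟨_, h3 (closedBall_subset_closedBall (min_le_right _ _) hv), hv'⟩

theorem local_countable (hD : StDir) [T2Space E'] [CompactSpace (Fib F' s')]
    (H : Half F F' s s' a b f) (𝒰 : Ultrafilter ℕ) (h𝒰 : (𝒰 : Filter ℕ) ≤ atTop)
    (l : Fib F s → Fib F' s') (hl : IsLim F F' s s' a f 𝒰 l) (x : Fib F s) :
    ∃ N ∈ 𝓝 x, (N ∩ (ExtS l (H.Gd 𝒰))ᶜ).Countable := by
  obtain ⟨R, hR, h0⟩ := exists_rad F s x
  have hRc : (R : ℂ) ≠ 0 := Complex.ofReal_ne_zero.2 hR.ne'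
  obtain ⟨α, hα, -, ρ, hρ, B, hB, h1⟩ := hD T E T' E' F F' s s' a b f H 𝒰 h𝒰 l hl x
    (F.triv x.val x.val).2 R (ContinuousLinearEquiv.refl ℂ V2) hR (fun v => le_rfl)
    (h0 R le_rfl)
  obtain ⟨β, hβ, -, ρ', hρ', B', hB', h2⟩ := hD T E T' E' F F' s s' a b f H 𝒰 h𝒰 l hl x
    (F.triv x.val x.val).2 R (ContinuousLinearEquiv.prodComm ℂ ℂ ℂ) hR
    (fun v => by
      rw [ContinuousLinearEquiv.prodComm_apply, Prod.norm_def, Prod.norm_def, max_comm]
      exact le_rfl)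
    (h0 R le_rfl)
  obtain ⟨τ, hτ, hτ1, hτ2, hτ3⟩ : ∃ τ > (0 : ℝ), 2 * τ ≤ ρ ∧ 2 * τ ≤ ρ' ∧ τ ≤ 1 / 2 := by
    refine ⟨min (min ρ ρ') 1 / 2, by positivity, ?_, ?_, ?_⟩
    · have := (min_le_left (min ρ ρ') 1).trans (min_le_left ρ ρ')
      linarith
    · have := (min_le_left (min ρ ρ') 1).trans (min_le_right ρ ρ')
      linarith
    · have := min_le_right (min ρ ρ') 1
      linarith
  set v₀ : V2 := (F.triv x.val x.val).2 with hv₀
  let u : Fib F s → V2 := fun y => (R : ℂ)⁻¹ • (fibChart F s x y - v₀)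
  have hu : ∀ y, v₀ + (R : ℂ) • u y = fibChart F s x y := by
    intro y
    simp only [u, smul_smul, mul_inv_cancel₀ hRc, one_smul]
    abel
  refine ⟨(fibChart F s x).source ∩ fibChart F s x ⁻¹' ball v₀ (R * τ), ?_, ?_⟩
  · refine inter_mem ((fibChart F s x).open_source.mem_nhds (ctr_src F s x)) ?_
    exact ((fibChart F s x).continuousAt (ctr_src F s x)).preimage_mem_nhds
      (ball_mem_nhds _ (mul_pos hR hτ))
  have hs : ∀ y, fibChart F s x y ∈ ball v₀ (R * τ) → ‖(u y).1‖ < τ ∧ ‖(u y).2‖ < τ := by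
    intro y hy
    rw [mem_ball_iff_norm, ← hu y, add_sub_cancel_left, norm_smul, Complex.norm_real,
      Real.norm_of_nonneg hR.le] at hy
    have h3 : ‖u y‖ < τ := lt_of_mul_lt_mul_left hy hR.le
    exact ⟨(norm_fst_le _).trans_lt h3, (norm_snd_le _).trans_lt h3⟩
  refine MapsTo.countable_of_injOn
    (f := fun y => (((u y).1 - α * (u y).2, (u y).2 - β * (u y).1) : ℂ × ℂ)) (t := B ×ˢ B')
    ?_ ?_ (hB.prod hB')
  · rintro y ⟨⟨hy1, hy2⟩, hy3⟩
    obtain ⟨hp, hq⟩ := hs y hy2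
    constructor
    · by_contra hz
      have h4 := h1 _ _ (slice_small hα hp hq hτ1) (hq.trans_le hτ3) hz
      have h5 : (ContinuousLinearEquiv.refl ℂ V2)
          ((u y).1 - α * (u y).2 + α * (u y).2, (u y).2) = u y := by
        rw [sub_add_cancel]; rfl
      rw [h5, hu, (fibChart F s x).left_inv hy1] at h4
      exact hy3 h4
    · by_contra hz
      have h4 := h2 _ _ (slice_small hβ hq hp hτ2) (hp.trans_le hτ3) hz
      have h5 : (ContinuousLinearEquiv.prodComm ℂ ℂ ℂ)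
          ((u y).2 - β * (u y).1 + β * (u y).1, (u y).1) = u y := by
        rw [sub_add_cancel]; rfl
      rw [h5, hu, (fibChart F s x).left_inv hy1] at h4
      exact hy3 h4
  · rintro y ⟨⟨hy1, -⟩, -⟩ y' ⟨⟨hy1', -⟩, -⟩ h
    have h6 : u y = u y' := slices_inj hα hβ (congrArg Prod.fst h) (congrArg Prod.snd h)
    apply (fibChart F s x).injOn hy1 hy1'
    rw [← hu y, ← hu y', h6]

theorem countable_ext (hD : StDir) [T2Space E'] [CompactSpace (Fib F s)]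
    [CompactSpace (Fib F' s')] (H : Half F F' s s' a b f) (𝒰 : Ultrafilter ℕ)
    (h𝒰 : (𝒰 : Filter ℕ) ≤ atTop) (l : Fib F s → Fib F' s') (hl : IsLim F F' s s' a f 𝒰 l) :
    (ExtS l (H.Gd 𝒰))ᶜ.Countable := by
  have h : (univ ∩ (ExtS l (H.Gd 𝒰))ᶜ).Countable := by
    refine isCompact_univ.induction_on
      (p := fun A : Set (Fib F s) => (A ∩ (ExtS l (H.Gd 𝒰))ᶜ).Countable) ?_ ?_ ?_ ?_
    · rw [empty_inter]; exact countable_empty
    · intro A A' hA h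
      exact h.mono (inter_subset_inter_left _ hA)
    · intro A A' h h'
      rw [union_inter_distrib_right]
      exact h.union h'
    · intro x _
      obtain ⟨N, hN, h⟩ := local_countable hD H 𝒰 h𝒰 l hl x
      exact ⟨N, mem_nhdsWithin_of_mem_nhds hN, h⟩
  rwa [univ_inter] at h

theorem lim_inv (hG : StGood) [T2Space E] {g : ℕ → E' → E} (H : Half F F' s s' a b f)
    (H' : Half F' F s' s b a g) (hgf : ∀ n q, F.p q = a n → g n (f n q) = q) (𝒰 : Ultrafilter ℕ)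
    (h𝒰 : (𝒰 : Filter ℕ) ≤ atTop) (l : Fib F s → Fib F' s') (hl : IsLim F F' s s' a f 𝒰 l)
    (l' : Fib F' s' → Fib F s) (hl' : IsLim F' F s' s b g 𝒰 l') (x : Fib F s)
    (hx : l x ∈ H'.Gd 𝒰) : l' (l x) = x := by
  obtain ⟨h1, h2⟩ := tendsto_ctr F s x (H.lima.mono_left h𝒰)
  have h3 : ∀ᶠ n in (𝒰 : Filter ℕ), F'.p (uu F a f x.val n (F.triv x.val x.val).2) = b n := by
    filter_upwards [h1] with n hn
    exact (H.hol n x.val _ hn).1.self_of_nhds
  have h4 := ((hG T' E' T E F' F s' s b a g H' 𝒰 h𝒰).2.2.2 l' hl' (l x) hx).2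
    (fun n => uu F a f x.val n (F.triv x.val x.val).2) h3 (hl x)
  have h5 : Tendsto (fun n => g n (uu F a f x.val n (F.triv x.val x.val).2)) 𝒰 (𝓝 x.val) := by
    refine h2.congr' ?_
    filter_upwards [h1] with n hn
    exact (hgf n _ (F.p_symm x.val hn)).symm
  exact Fib.ext (tendsto_nhds_unique h4 h5)

end two

end CoreAux

open CoreAux in
/-- CORE from GOOD, LAW, DIR and FIN -/
theorem core (hG : StGood) (hL : StLaw) (hD : StDir) (hF : StFin) : StCore := by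
  intro T E T' E' _ _ _ _ _ _ F F' s s' _ _ hne hne' a b f g ⟨H⟩ ⟨H'⟩ hgf hfg vol vol' c hv hv'
    hc hlaw hlaw'
  obtain ⟨𝒰, h𝒰⟩ : ∃ 𝒰 : Ultrafilter ℕ, (𝒰 : Filter ℕ) ≤ atTop :=
    ⟨Ultrafilter.of atTop, Ultrafilter.of_le _⟩
  obtain ⟨l, hl⟩ := exists_lim hG H 𝒰 h𝒰
  obtain ⟨l', hl'⟩ := exists_lim hG H' 𝒰 h𝒰
  have hd := dense_gd hD H 𝒰 h𝒰 l hl
  have hd' := dense_gd hD H' 𝒰 h𝒰 l' hl'
  obtain ⟨-, -, ho, hh1⟩ := hG T E T' E' F F' s s' a b f H 𝒰 h𝒰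
  obtain ⟨-, -, ho', hh1'⟩ := hG T' E' T E F' F s' s b a g H' 𝒰 h𝒰
  obtain ⟨hc1, hc2⟩ := hL T E T' E' F F' s s' a b f H 𝒰 h𝒰 vol vol' c hv hv' hlaw l hl hd
  obtain ⟨hc1', hc2'⟩ := hL T' E' T E F' F s' s b a g H' 𝒰 h𝒰 vol' vol (fun n => (c n)⁻¹) hv' hv
    hlaw' l' hl' hd'
  obtain ⟨c₀, hc₀⟩ := hc1 hne
  obtain ⟨c₁, hc₁⟩ := hc1' hne'
  have hmul : c₀ * c₁ = 1 := by
    have h1 := hc₀.mul hc₁
    have h2 : (fun n => c n * (c n)⁻¹) = fun _ : ℕ => (1 : ℂ) :=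
      funext fun n => mul_inv_cancel₀ (hc n)
    rw [h2] at h1
    exact tendsto_nhds_unique h1 tendsto_const_nhds
  have := t2_fib F s
  have := t2_fib F' s'
  exact hF (Fib F s) (Fib F' s') l l' (H.Gd 𝒰) (H'.Gd 𝒰) ho hd ho' hd'
    (fun x hx => (hh1 l hl x hx).1) (fun y hy => (hh1' l' hl' y hy).1)
    (fun x _ hx => lim_inv hG H H' hgf 𝒰 h𝒰 l hl l' hl' x hx)
    (fun y _ hy => lim_inv hG H' H hfg 𝒰 h𝒰 l' hl' l hl y hy)
    (countable_ext hD H 𝒰 h𝒰 l hl) (countable_ext hD H' 𝒰 h𝒰 l' hl')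
    (hc2 c₀ (left_ne_zero_of_mul_eq_one hmul) hc₀) (hc2' c₁ (right_ne_zero_of_mul_eq_one hmul) hc₁)

end Vale.Agent.P290Z.BR
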