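import Vale.Agent.P290Z.BR.SpecA

/-! P290Z, block BR: extension along the slices of one direction. -/

open Set Filter Metric MeasureTheory
open scoped Topology Manifold ContDiff

namespace Vale.Agent.P290Z.BR

open Vale.Agent.P290 Vale.Agent.P290.H805

namespace Dir

theorem lgood_of {ι : Type} {𝒰 : Ultrafilter ℕ} {K : ι → Set V2} {O O' : ℕ → ι → Set V2}
    {h h' : ℕ → ι → V2 → V2} {φ : V2 → V2} {y y' : V2} (hφ : ContinuousAt φ y') (e : φ y' = y)
    (hO : ∀ n j z, φ z ∈ O n j → z ∈ O' n j) (hh : ∀ n j z, h' n j z = h n j (φ z))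
    (H : LGood 𝒰 K O h y) : LGood 𝒰 K O' h' y' := by
  subst e
  obtain ⟨j, ε, hε, H⟩ := H
  obtain ⟨ε', hε', h1⟩ := Metric.mem_nhds_iff.1 (hφ.preimage_mem_nhds (ball_mem_nhds _ hε))
  refine ⟨j, ε', hε', H.mono fun n hn z hz => ?_⟩
  obtain ⟨h2, h3⟩ := hn _ (h1 hz)
  exact ⟨hO n j z h2, by rw [hh]; exact h3⟩

theorem exists_shear (L : V2 ≃L[ℂ] V2) {R : ℝ} (hR : 0 < R) (α : ℂ) :
    ∃ M : V2 ≃L[ℂ] V2, ∀ z w, M (z, w) = (R : ℂ) • L (z + α * w, w) := by
  have h0 : (R : ℂ) ≠ 0 := Complex.ofReal_ne_zero.2 hR.ne'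
  let S : ℂ → V2 →L[ℂ] V2 := fun β =>
    (ContinuousLinearMap.fst ℂ ℂ ℂ + β • ContinuousLinearMap.snd ℂ ℂ ℂ).prod
      (ContinuousLinearMap.snd ℂ ℂ ℂ)
  have hS : ∀ β v, S β v = (v.1 + β * v.2, v.2) := fun _ _ => rfl
  refine ⟨ContinuousLinearEquiv.equivOfInverse ((R : ℂ) • (L : V2 →L[ℂ] V2) ∘L S α)
    ((R : ℂ)⁻¹ • S (-α) ∘L (L.symm : V2 →L[ℂ] V2)) (fun v => ?_) (fun v => ?_), fun z w => rfl⟩
  · change (R : ℂ)⁻¹ • S (-α) (L.symm ((R : ℂ) • L (S α v))) = v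
    rw [map_smul, map_smul, inv_smul_smul₀ h0, L.symm_apply_apply, hS, hS]
    simp
  · change (R : ℂ) • L (S α ((R : ℂ)⁻¹ • S (-α) (L.symm v))) = v
    rw [map_smul, map_smul, smul_inv_smul₀ h0, hS, hS]
    simp

theorem en_nonneg (hP : StPull) {ι : Type} {K : ι → Set V2} {δ Λ : ℝ} {U : Set V2}
    {O : ι → Set V2} {h : ι → V2 → V2} {η : V2 → B2} (hδ : 0 < δ) (hΛ : 0 < Λ)
    (H : Tm K δ Λ U O h η) : ∀ x ∈ U, 0 ≤ En η x := by
  intro x hx
  have h1 := ((hP ι K δ Λ U O h η hδ hΛ H).2.2.2 x hx (1, 0) 0).1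
  have h2 := ((hP ι K δ Λ U O h η hδ hΛ H).2.2.2 x hx (0, 1) 0).1
  simp only [Prod.smul_mk, smul_eq_mul, mul_one, mul_zero] at h1 h2
  exact add_nonneg h1 h2

theorem sq_pull (hP : StPull) (hC : StChg) {ι : Type} {𝒰 : Ultrafilter ℕ} {K : ι → Set V2}
    {δ Λ : ℝ} {U : ℕ → Set V2} {O : ℕ → ι → Set V2} {h : ℕ → ι → V2 → V2} {η : ℕ → V2 → B2}
    {C : ℝ} (hδ : 0 < δ) (hΛ : 0 < Λ) {Q : Set V2} (hQ : IsCompact Q)
    (H : ∀ᶠ n in (𝒰 : Filter ℕ), Tm K δ Λ (U n) (O n) (h n) (η n) ∧ Q ⊆ U n ∧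
      ∫ v in Q, En (η n) v ≤ C) (p : V2) (M : V2 ≃L[ℂ] V2)
    (hM : ∀ y ∈ closedBall (0 : V2) 2, p + M y ∈ Q) :
    ∃ C' η', Sq 𝒰 K δ Λ (fun n => {y | p + M y ∈ U n}) (fun n j => {y | p + M y ∈ O n j})
      (fun n j y => h n j (p + M y)) η' C' := by
  obtain ⟨c, hc, h1⟩ := hC M
  refine ⟨4 * ‖(M : V2 →L[ℂ] V2)‖ ^ 2 * (c * C), fun n => pull (η n) p M,
    H.mono fun n ⟨h2, h3, h4⟩ => ?_⟩
  obtain ⟨h5, -, h6, -⟩ := hP ι K δ Λ _ _ _ _ hδ hΛ h2
  obtain ⟨h7, h8⟩ := h5 p M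
  have h9 : closedBall (0 : V2) 2 ⊆ {y | p + M y ∈ U n} := fun y hy => h3 (hM y hy)
  refine ⟨h7, h9, ?_⟩
  have k := isCompact_closedBall (0 : V2) 2
  have c1 : ContinuousOn (fun y => En (η n) (p + M y)) (closedBall (0 : V2) 2) :=
    h6.comp (by fun_prop) h9
  calc ∫ y in closedBall (0 : V2) 2, En (pull (η n) p M) y
      ≤ ∫ y in closedBall (0 : V2) 2, 4 * ‖(M : V2 →L[ℂ] V2)‖ ^ 2 * En (η n) (p + M y) :=
        setIntegral_mono_on
          (((hP ι K δ Λ _ _ _ _ hδ hΛ h7).2.2.1.mono h9).integrableOn_compact k)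
          ((continuousOn_const.mul c1).integrableOn_compact k) measurableSet_closedBall
          fun y hy => h8 y (h9 hy)
    _ = 4 * ‖(M : V2 →L[ℂ] V2)‖ ^ 2 * ∫ y in closedBall (0 : V2) 2, En (η n) (p + M y) :=
        integral_const_mul _ _
    _ ≤ _ := mul_le_mul_of_nonneg_left ((h1 _ p _ Q k hQ hM (h6.mono h3)
        fun x hx => en_nonneg hP hδ hΛ h2 x (h3 hx)).trans
          (mul_le_mul_of_nonneg_left h4 hc.le)) (by positivity)

theorem hol_of_md {X Y : Type} [TopologicalSpace X] [ChartedSpace V2 X] [TopologicalSpace Y]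
    [ChartedSpace V2 Y] {f : X → Y} {x : X} (h : MDifferentiableAt 𝓘(ℂ, V2) 𝓘(ℂ, V2) f x) :
    All.Hol f x := by
  obtain ⟨h1, h2⟩ := (mdifferentiableAt_iff f x).1 h
  refine ⟨h1, ?_⟩
  simpa only [writtenInExtChartAt, mfld_simps, differentiableWithinAt_univ, Function.comp_def]
    using h2

end Dir

open Dir in
theorem dir_ (hP : StPull) (hC : StChg) (hc : StCol) (hF : StPhi) (hG : StGood) : StDir := by
  intro T E T' E' _ _ _ _ _ F F' s s' _ a b f H 𝒰 h𝒰 l hl x v₀ R L hR hL hQ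
  classical
  have := H.fin
  obtain ⟨g1, g2, g3, g4⟩ := hG T E T' E' F F' s s' a b f H 𝒰 h𝒰
  obtain ⟨C, η, hη⟩ := H.tm x.val _ (isCompact_closedBall v₀ (4 * R)) hQ
  have hη' := hη.filter_mono h𝒰
  have nrm : ∀ (α : ℂ) (z w : ℂ), ‖(R : ℂ) • L (z + α * w, w)‖ ≤ R * ‖(z + α * w, w)‖ :=
    fun α z w => by
      rw [norm_smul, Complex.norm_real, Real.norm_of_nonneg hR.le]
      exact mul_le_mul_of_nonneg_left (hL _) hR.le
  have inQ : ∀ (α : ℂ) (M : V2 ≃L[ℂ] V2), ‖α‖ ≤ 1 / 2 →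
      (∀ z w, M (z, w) = (R : ℂ) • L (z + α * w, w)) →
      ∀ y ∈ closedBall (0 : V2) 2, v₀ + M y ∈ closedBall v₀ (4 * R) := by
    rintro α M hα hM ⟨z, w⟩ hy
    rw [mem_closedBall_zero_iff, Prod.norm_def, max_le_iff] at hy
    rw [mem_closedBall_iff_norm, add_sub_cancel_left, hM]
    refine (nrm α z w).trans ?_
    rw [mul_comm 4]
    refine mul_le_mul_of_nonneg_left ?_ hR.le
    have h1 := norm_add_le z (α * w)
    have h2 : ‖α * w‖ ≤ 1 / 2 * 2 := by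
      rw [norm_mul]
      exact mul_le_mul hα hy.2 (norm_nonneg _) (by norm_num)
    rw [Prod.norm_def, max_le_iff]
    constructor <;> linarith [hy.1, hy.2]
  obtain ⟨M₁, hM₁⟩ := exists_shear L hR 0
  obtain ⟨C₁, η₁, S₁⟩ := sq_pull hP hC H.δ_pos H.Λ_pos (isCompact_closedBall _ _) hη' v₀ M₁
    (inQ 0 M₁ (by simp) hM₁)
  obtain ⟨α, r, hα, hr, hr1, hw⟩ := hc _ 𝒰 _ _ _ _ _ _ _ _ H.δ_pos H.Λ_pos S₁
  obtain ⟨M, hM⟩ := exists_shear L hR α
  have hMQ := inQ α M hα hM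
  obtain ⟨C₂, η₂, S₂⟩ := sq_pull hP hC H.δ_pos H.Λ_pos (isCompact_closedBall _ _) hη' v₀ M hMQ
  have e1 : ∀ y : V2, M₁ (y.1 + α * y.2, y.2) = M y := fun y => by
    rw [hM₁, zero_mul, add_zero, ← hM]
  refine ⟨α, hα, ⟨v₀ + M₁ (α * r, r), ?_, ?_⟩, ?_⟩
  · rw [mem_closedBall_iff_norm, add_sub_cancel_left, hM₁]
    refine (nrm 0 _ _).trans (mul_le_of_le_one_right hR.le ?_)
    have h1 : ‖(r : ℂ)‖ = r := by rw [Complex.norm_real, Real.norm_of_nonneg (by linarith)]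
    rw [zero_mul, add_zero, Prod.norm_def, max_le_iff, norm_mul, h1]
    constructor
    · nlinarith [norm_nonneg α]
    · exact hr1
  · have h1 : ‖(r : ℂ)‖ = r := by rw [Complex.norm_real, Real.norm_of_nonneg (by linarith)]
    refine (g2 x _ (hQ _ (inQ 0 M₁ (by simp) hM₁ _ ?_))).1
      (lgood_of (φ := fun v => M₁.symm (v - v₀)) (by fun_prop) (by simp)
        (fun n j z hz => by simpa using hz) (fun n j z => by simp) (hw r h1))
    rw [mem_closedBall_zero_iff, Prod.norm_def, max_le_iff, norm_mul, h1]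
    constructor
    · nlinarith [norm_nonneg α]
    · linarith
  have t2 : T2Space (Fib F' s') :=
    (Topology.IsEmbedding.mk isInducing_val fun _ _ h => Fib.ext h).t2Space
  have : SecondCountableTopology (Fib F' s') :=
    ChartedSpace.secondCountable_of_sigmaCompact V2 (Fib F' s')
  let _ : MetricSpace (Fib F' s') := TopologicalSpace.metrizableSpaceMetric (Fib F' s')
  obtain ⟨G, hG⟩ : ∃ G : V2 → Fib F' s', ∀ y ∈ closedBall (0 : V2) 2,
      Tendsto (fun n => uu F a f x.val n (v₀ + M y)) 𝒰 (𝓝 (G y).val) := by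
    choose G hG using fun y hy => g1 x.val (v₀ + M y) (hQ _ (hMQ y hy))
    exact ⟨fun y => if h : y ∈ closedBall (0 : V2) 2 then G y h else l x, fun y hy => by
      simpa only [dif_pos hy] using hG y hy⟩
  obtain ⟨ρ, hρ, B, Φ, hB, p1, p2⟩ := hF (Fib F' s') H.ι (fun j => fibChart F' s' (H.y j)) 𝒰
    H.K H.δ H.Λ _ _ _ η₂ C₂ G H.δ_pos H.Λ_pos (fun j => mem_range_self _) H.cpt H.tgt S₂
    (fun y hy j hj => by
      obtain ⟨k, hk, h1⟩ := (H.cpt j).ultrafilter_le_nhds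
        (𝒰.map fun n => hh F F' a f x.val n (H.y j).val (v₀ + M y))
        (le_principal_iff.2 (hj.mono fun n hn => hn.2))
      have h2 : Tendsto (fun n => hh F F' a f x.val n (H.y j).val (v₀ + M y)) 𝒰 (𝓝 k) := h1
      have h3 := ((F'.triv (H.y j).val).continuousAt_symm (H.tgt j k hk)).tendsto.comp
        ((H.limb.mono_left h𝒰).prodMk_nhds h2)
      have h4 : (G y).val = (F'.triv (H.y j).val).symm (s', k) := by
        refine tendsto_nhds_unique (hG y hy) (h3.congr' (hj.mono fun n hn => ?_))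
        have h5 := (F'.mk_eq _ hn.1.2).symm
        rw [(H.hol n _ _ hn.1.1).1.self_of_nhds] at h5
        exact (congrArg (F'.triv (H.y j).val).symm h5).trans
          ((F'.triv (H.y j).val).left_inv hn.1.2)
      refine ⟨?_, ?_⟩
      · change (G y).val ∈ (F'.triv (H.y j).val).source
        rw [h4]
        exact (F'.triv _).map_target (H.tgt j k hk)
      · rw [fibChart_apply, h4, (F'.triv _).right_inv (H.tgt j k hk)]
        exact h2)
    r (by linarith) hr1 fun w h1 => lgood_of (φ := fun y => (y.1 + α * y.2, y.2)) (by fun_prop)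
      (by simp) (fun n j z hz => by simpa only [mem_ofPred_eq, e1] using hz)
      (fun n j z => by simp only [e1]) (hw w h1)
  refine ⟨min ρ 1, lt_min hρ one_pos, B, hB, fun z w hz hw' hzB => ?_⟩
  rw [← hM]
  have o1 : ∀ᶠ z' in 𝓝 z, ‖z'‖ < min ρ 1 := continuous_norm.continuousAt.eventually_lt_const hz
  obtain ⟨A, hA, oA, zA⟩ := _root_.mem_nhds_iff.1
    (o1.and (p2 z (hz.trans_le (min_le_left _ _)) hzB))
  let ψ : V2 → V2 := fun v => M.symm (v - v₀)
  let D : Set V2 := {y | y.1 ∈ A ∧ ‖y.2‖ < r}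
  have oD : IsOpen D :=
    (oA.preimage continuous_fst).inter (isOpen_lt continuous_snd.norm continuous_const)
  have hD : ∀ y ∈ D, y ∈ closedBall (0 : V2) 2 := fun y hy => by
    rw [mem_closedBall_zero_iff, Prod.norm_def, max_le_iff]
    have h1 := (hA hy.1).1.trans_le (min_le_right _ _)
    constructor <;> linarith [hy.2]
  have hT : ∀ y ∈ D, v₀ + M y ∈ (fibChart F s x).target := fun y hy => hQ _ (hMQ y (hD y hy))
  have cψ : Differentiable ℂ ψ := M.symm.differentiable.comp (differentiable_id.sub_const v₀)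
  refine ⟨(fibChart F s x).source ∩ fibChart F s x ⁻¹' (ψ ⁻¹' D),
    (fibChart F s x).isOpen_inter_preimage (oD.preimage cψ.continuous), ?_,
    fun y => Φ (ψ (fibChart F s x y)), fun y hy => hol_of_md ?_, fun y hy hyG => ?_⟩
  · have h1 : (z, w) ∈ D := ⟨zA, hw'.trans_le hr⟩
    refine ⟨(fibChart F s x).map_target (hT _ h1), ?_⟩
    rw [mem_preimage, (fibChart F s x).right_inv (hT _ h1)]
    simpa [ψ] using h1
  · have m1 : IsManifold 𝓘(ℂ, V2) 1 (Fib F s) := IsManifold.of_le (n := ω) le_top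
    have h1 : Md Φ (ψ (fibChart F s x y)) := (hA hy.2.1).2 _ hy.2.2
    have h2 : MDifferentiableAt 𝓘(ℂ, V2) 𝓘(ℂ, V2) (fibChart F s x) y :=
      mdifferentiableAt_atlas (mem_range_self x) hy.1
    exact h1.comp y ((cψ _).mdifferentiableAt.comp y h2)
  · obtain ⟨p, hp, rfl⟩ : ∃ p ∈ D, y = (fibChart F s x).symm (v₀ + M p) :=
      ⟨_, hy.2, by simp [ψ, (fibChart F s x).left_inv hy.1]⟩
    beta_reduce
    rw [(fibChart F s x).right_inv (hT p hp)]
    have e2 : ψ (v₀ + M p) = p := by simp [ψ]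
    rw [e2]
    have c0 : ContinuousAt (fun w' : ℂ => ((p.1, w') : V2)) p.2 := by fun_prop
    have c1 : ContinuousAt (fun w' : ℂ => Φ (p.1, w')) p.2 :=
      ContinuousAt.comp (g := Φ) ((hA hp.1).2 _ hp.2).continuousAt c0
    have c2 : ContinuousAt (fun w' : ℂ => (fibChart F s x).symm (v₀ + M (p.1, w'))) p.2 :=
      ContinuousAt.comp (g := (fibChart F s x).symm) (f := fun w' : ℂ => v₀ + M (p.1, w'))
        ((fibChart F s x).continuousAt_symm (hT p hp)) (by fun_prop)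
    have c3 : ContinuousAt (fun w' : ℂ => l ((fibChart F s x).symm (v₀ + M (p.1, w')))) p.2 :=
      ContinuousAt.comp (g := l) (g4 l hl _ hyG).1.1 c2
    have f1 := (p1 p.1 ((hA hp.1).1.trans_le (min_le_left _ _))).eventually_cofinite_notMem
    refine tendsto_nhds_unique_of_eventuallyEq (l := 𝓝[≠] p.2) (c1.tendsto.mono_left
      nhdsWithin_le_nhds) (c3.tendsto.mono_left nhdsWithin_le_nhds) ?_
    filter_upwards [f1.filter_mono (nhdsNE_le_cofinite p.2),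
      mem_nhdsWithin_of_mem_nhds (c0.preimage_mem_nhds (oD.mem_nhds hp)),
      mem_nhdsWithin_of_mem_nhds (c2.preimage_mem_nhds (g3.mem_nhds hyG))] with w' h1 h2 h3
    have h4 : Φ (p.1, w') = G (p.1, w') := by
      by_contra h5
      exact h1 ⟨h2.2, h5⟩
    have h5 : (s, v₀ + M (p.1, w')) ∈ (F.triv x.val).target := hT _ h2
    have h6 : Tendsto (fun n => ((a n, v₀ + M (p.1, w')) : T × V2)) 𝒰
        (𝓝 (s, v₀ + M (p.1, w'))) := (H.lima.mono_left h𝒰).prodMk_nhds tendsto_const_nhds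
    rw [h4]
    refine Fib.ext (tendsto_nhds_unique (hG _ (hD _ h2)) ((g4 l hl _ h3).2
      (fun n => (F.triv x.val).symm (a n, v₀ + M (p.1, w'))) ?_ ?_))
    · exact (h6.eventually ((F.triv x.val).open_target.mem_nhds h5)).mono fun n hn =>
        F.p_symm _ hn
    · rw [fibChart_symm_val F s x h5]
      exact ((F.triv x.val).continuousAt_symm h5).tendsto.comp h6

end Vale.Agent.P290Z.BR
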