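import Vale.Agent.P290Z.BR.SpecA

/-! P290Z, block BR, step E1: discs of small area have small oscillation. -/

set_option linter.unusedVariables false

open Set Filter Metric MeasureTheory
open scoped Topology

namespace Vale.Agent.P290Z.BR

variable {ι : Type} {K : ι → Set V2} {δ Λ θ : ℝ} {U : Set ℂ} {O : ι → Set ℂ} {h : ι → ℂ → V2}
  {e : ℂ → ℝ}

/-- confinement to a core -/
theorem CM.conf (H : CM K δ U O h) {S : Set ℂ} (hS : Convex ℝ S) (hU : S ⊆ U) {j : ι} {w₁ : ℂ}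
    (h1 : w₁ ∈ S) (hO : w₁ ∈ O j) (hK : closedBall (h j w₁) θ ⊆ K j) {L : ℝ} (hL : 0 ≤ L)
    (hd : ∀ x ∈ S, x ∈ O j → h j x ∈ K j → ‖deriv (h j) x‖ ≤ L) {w : ℂ} (hw : w ∈ S)
    (hθ : L * ‖w - w₁‖ < θ) : w ∈ O j ∧ ‖h j w - h j w₁‖ ≤ L * ‖w - w₁‖ := by
  set γ : ℝ → ℂ := fun t => w₁ + t • (w - w₁) with hγ
  have cγ : Continuous γ := by fun_prop
  have mS : ∀ t ∈ Icc (0 : ℝ) 1, γ t ∈ S := fun t ht => hS.add_smul_sub_mem h1 hw ht
  have ch : ∀ x ∈ O j, DifferentiableAt ℂ (h j) x := fun x hx =>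
    (H.hol j).differentiableAt ((H.openO j).mem_nhds hx)
  have hb : ∀ t ∈ Icc (0 : ℝ) 1, L * ‖w - w₁‖ * t < θ := fun t ht =>
    (mul_le_of_le_one_right (by positivity) ht.2).trans_lt hθ
  have key : Icc (0 : ℝ) 1 ⊆ {t | γ t ∈ O j ∧ ‖h j (γ t) - h j w₁‖ ≤ L * ‖w - w₁‖ * t} := by
    refine IsClosed.Icc_subset_of_forall_mem_nhdsWithin (isClosed_of_closure_subset fun t ht => ?_)
      ⟨by simpa [hγ] using hO, by simp [hγ]⟩ ?_
    · have t1 : t ∈ Icc (0 : ℝ) 1 := closure_minimal inter_subset_right isClosed_Icc ht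
      have t2 : γ t ∈ O j := H.closed j _ (hU (mS t t1)) (map_mem_closure cγ ht fun s hs =>
        ⟨hs.1.1, hK (mem_closedBall_iff_norm.2 (hs.1.2.trans (hb s hs.2).le))⟩)
      refine ⟨⟨t2, ?_⟩, t1⟩
      have c1 : ContinuousAt (fun t => ‖h j (γ t) - h j w₁‖) t :=
        ((ContinuousAt.comp (f := γ) (ch _ t2).continuousAt cγ.continuousAt).sub
          continuousAt_const).norm
      exact c1.continuousWithinAt.closure_le ht (by fun_prop) fun s hs => hs.1.2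
    · rintro t ⟨⟨t1, t2⟩, t3⟩
      have n1 : ∀ᶠ x in 𝓝 (γ t), x ∈ O j ∧ h j x ∈ ball (h j w₁) θ :=
        ((H.openO j).eventually_mem t1).and ((ch _ t1).continuousAt.eventually
          (isOpen_ball.mem_nhds (mem_ball_iff_norm.2 (t2.trans_lt (hb t (Ico_subset_Icc_self t3))))))
      obtain ⟨r, hr, hB⟩ := Metric.eventually_nhds_iff_ball.1 n1
      filter_upwards [Ioc_mem_nhdsGT t3.2,
        mem_nhdsWithin_of_mem_nhds (cγ.continuousAt.eventually (ball_mem_nhds (γ t) hr))]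
        with s s1 s2
      refine ⟨(hB _ s2).1, ?_⟩
      have m1 := ((convex_ball (γ t) r).inter hS).norm_image_sub_le_of_norm_deriv_le
        (fun x hx => ch x (hB x hx.1).1)
        (fun x hx => hd x hx.2 (hB x hx.1).1 (hK (ball_subset_closedBall (hB x hx.1).2)))
        ⟨mem_ball_self hr, mS t (Ico_subset_Icc_self t3)⟩ ⟨s2, mS s ⟨t3.1.trans s1.1.le, s1.2⟩⟩
      have m2 : ‖γ s - γ t‖ = (s - t) * ‖w - w₁‖ := by
        rw [show γ s - γ t = (s - t) • (w - w₁) by simp only [hγ, sub_smul]; ring, norm_smul,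
          Real.norm_of_nonneg (sub_nonneg.2 s1.1.le)]
      rw [m2] at m1
      have := norm_sub_le_norm_sub_add_norm_sub (h j (γ s)) (h j (γ t)) (h j w₁)
      show ‖h j (γ s) - h j w₁‖ ≤ L * ‖w - w₁‖ * s
      nlinarith
  simpa [hγ] using key (right_mem_Icc.2 zero_le_one)

theorem Dc.nonneg (H : Dc K δ Λ U O h e) (hδ : 0 < δ) (hΛ : 0 < Λ) {x : ℂ} (hx : x ∈ U) :
    0 ≤ e x := by
  obtain ⟨j, h1, h2⟩ := H.cover x hx
  exact nonneg_of_mul_nonneg_right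
    ((sq_nonneg _).trans (H.lo j x h1 (h2 (mem_closedBall_self hδ.le)))) hΛ

/-- a lower bound of the density near a point where it is almost maximal -/
theorem Dc.low (H : Dc K δ Λ U O h e) (hδ : 0 < δ) (hΛ : 0 < Λ) {w₂ : ℂ} {τ s : ℝ} (hτ : 0 < τ)
    (hs : 0 < s) (hm : s ^ 2 = Λ * e w₂) (hU : closedBall w₂ τ ⊆ U)
    (h4 : ∀ w ∈ closedBall w₂ τ, e w ≤ 4 * e w₂) (hsτ : 2 * s * τ < δ) :
    1 ≤ Λ ∧ ∀ w ∈ ball w₂ (τ / (8 * Λ)), e w₂ / (4 * Λ ^ 2) ≤ e w := by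
  obtain ⟨j, h1, h2⟩ := H.cover w₂ (hU (mem_closedBall_self hτ.le))
  have hd : ∀ x ∈ closedBall w₂ τ, x ∈ O j → h j x ∈ K j → ‖deriv (h j) x‖ ≤ 2 * s :=
    fun x a b c => abs_le_of_sq_le_sq' (by nlinarith [H.lo j x b c, h4 x a]) (by positivity) |>.2
  have hc : ∀ x ∈ closedBall w₂ τ, x ∈ O j ∧ h j x ∈ K j := fun x hx => by
    have a := mul_le_mul_of_nonneg_left (mem_closedBall_iff_norm.1 hx) (by positivity : 0 ≤ 2 * s)
    have b := H.toCM.conf (convex_closedBall w₂ τ) hU (mem_closedBall_self hτ.le) h1 h2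
      (by positivity) hd hx (a.trans_lt hsτ)
    exact ⟨b.1, h2 (mem_closedBall_iff_norm.2 (b.2.trans (a.trans hsτ.le)))⟩
  have c0 := hc w₂ (mem_closedBall_self hτ.le)
  have l0 := H.lo j _ c0.1 c0.2
  have u0 := H.hi j _ c0.1 c0.2
  have hm0 : 0 < e w₂ := pos_of_mul_pos_right (hm ▸ pow_pos hs 2) hΛ.le
  have hΛ1 : 1 ≤ Λ := by
    by_contra hl
    push Not at hl
    nlinarith [mul_pos hΛ hm0, mul_le_mul_of_nonneg_left l0 hΛ.le, mul_pos hΛ (mul_pos hΛ hm0)]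
  refine ⟨hΛ1, fun w hw => ?_⟩
  have hw' : w ∈ ball w₂ τ := ball_subset_ball (div_le_self hτ.le (by linarith)) hw
  have d1 : DifferentiableOn ℂ (deriv (h j)) (ball w₂ τ) :=
    ((H.hol j).mono fun x hx => (hc x (ball_subset_closedBall hx)).1).deriv isOpen_ball
  have d2 := Complex.dist_le_div_mul_dist_of_mapsTo_ball (R₂ := 4 * s) d1 (fun x hx => by
    have a := hc x (ball_subset_closedBall hx)
    have b := hd x (ball_subset_closedBall hx) a.1 a.2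
    have c := hd w₂ (mem_closedBall_self hτ.le) c0.1 c0.2
    exact mem_closedBall_iff_norm.2 ((norm_sub_le _ _).trans (by linarith))) hw'
  have d3 : 4 * s / τ * dist w w₂ ≤ s / (2 * Λ) :=
    (mul_le_mul_of_nonneg_left (mem_ball.1 hw).le (by positivity)).trans_eq (by field_simp; ring)
  have d4 : s / Λ ≤ ‖deriv (h j) w₂‖ := by
    rw [div_le_iff₀ hΛ]
    exact abs_le_of_sq_le_sq' (by nlinarith [mul_le_mul_of_nonneg_left u0 hΛ.le])
      (by positivity) |>.2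
  have d5 : s / (2 * Λ) ≤ ‖deriv (h j) w‖ := by
    have a := norm_sub_norm_le (deriv (h j) w₂) (deriv (h j) w)
    rw [← dist_eq_norm, dist_comm] at a
    have b : s / Λ = 2 * (s / (2 * Λ)) := by field_simp
    linarith
  have c1 := hc w (ball_subset_closedBall hw')
  have d6 := (pow_le_pow_left₀ (by positivity) d5 2).trans (H.lo j w c1.1 c1.2)
  rw [div_pow, hm, div_le_iff₀ (by positivity)] at d6
  rw [div_le_iff₀ (by positivity)]
  nlinarith

theorem Dc.area (H : Dc K δ Λ U O h e) (hδ : 0 < δ) (hΛ : 0 < Λ) {c w₂ : ℂ} {ρ r b : ℝ}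
    (hU : closedBall c ρ ⊆ U) (hr : 0 < r) (hb : 0 ≤ b) (hs : ball w₂ r ⊆ ball c ρ)
    (hl : ∀ w ∈ ball w₂ r, b ≤ e w) : b * r ^ 2 ≤ ∫ w in ball c ρ, e w := by
  have i1 : IntegrableOn e (ball c ρ) :=
    ((H.cont.mono hU).integrableOn_compact (isCompact_closedBall c ρ)).mono_set
      ball_subset_closedBall
  refine le_trans ?_ ((setIntegral_ge_of_const_le_real measurableSet_ball measure_ball_lt_top.ne hl
    (i1.mono_set hs)).trans (setIntegral_mono_set i1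
      ((ae_restrict_mem measurableSet_ball).mono fun x hx =>
        H.nonneg hδ hΛ (hU (ball_subset_closedBall hx))) hs.eventuallyLE))
  refine mul_le_mul_of_nonneg_left ?_ hb
  rw [Measure.real, Complex.volume_ball]
  simp only [ENNReal.toReal_mul, ENNReal.toReal_pow, ENNReal.toReal_ofReal hr.le,
    ENNReal.coe_toReal, NNReal.coe_real_pi]
  nlinarith [Real.pi_gt_three, sq_nonneg r]

/-- the Brody step -/
theorem Dc.brody (H : Dc K δ Λ U O h e) (hδ : 0 < δ) (hΛ : 0 < Λ) {c : ℂ} {ρ ε : ℝ} (hρ : 0 < ρ)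
    (hU : closedBall c ρ ⊆ U) (ha : ∫ w in ball c ρ, e w ≤ ε) (hε0 : 0 < ε)
    (hε : 4096 * Λ ^ 5 * ε < δ ^ 2) {w : ℂ} (hw : w ∈ closedBall c ρ) :
    (ρ - ‖w - c‖) ^ 2 * e w ≤ 1024 * Λ ^ 4 * ε := by
  obtain ⟨w₂, h2, hM⟩ := (isCompact_closedBall c ρ).exists_isMaxOn ⟨w, hw⟩
    (f := fun w => (ρ - ‖w - c‖) ^ 2 * e w)
    (ContinuousOn.mul (by fun_prop) (H.cont.mono hU))
  refine le_trans (hM hw) ?_
  by_contra hn
  push Not at hn
  have hp : 0 < (ρ - ‖w₂ - c‖) ^ 2 * e w₂ := lt_trans (by positivity) hn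
  have hm : 0 < e w₂ := pos_of_mul_pos_right hp (sq_nonneg _)
  obtain ⟨r, hr⟩ : ∃ r, ρ - ‖w₂ - c‖ = 2 * r := ⟨(ρ - ‖w₂ - c‖) / 2, by ring⟩
  have hr0 : 0 < r := by
    have a := mem_closedBall_iff_norm.1 h2
    rcases (show 0 ≤ r by linarith).eq_or_lt with b | b
    · rw [hr, ← b] at hp
      simp at hp
    · exact b
  have s1 : ∀ x ∈ closedBall w₂ r, r ≤ ρ - ‖x - c‖ := fun x hx => by
    have := norm_sub_le_norm_sub_add_norm_sub x w₂ c
    linarith [mem_closedBall_iff_norm.1 hx]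
  have s2 : closedBall w₂ r ⊆ ball c ρ := fun x hx =>
    mem_ball_iff_norm.2 (by linarith [s1 x hx])
  have s3 : ∀ x ∈ closedBall w₂ r, e x ≤ 4 * e w₂ := fun x hx => by
    have a : (ρ - ‖x - c‖) ^ 2 * e x ≤ (ρ - ‖w₂ - c‖) ^ 2 * e w₂ :=
      hM (ball_subset_closedBall (s2 hx))
    have b := mul_le_mul_of_nonneg_right (pow_le_pow_left₀ hr0.le (s1 x hx) 2)
      (H.nonneg hδ hΛ (hU (ball_subset_closedBall (s2 hx))))
    rw [hr] at a
    exact le_of_mul_le_mul_left (by nlinarith) (pow_pos hr0 2)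
  obtain ⟨s, hs, hs2⟩ : ∃ s > (0 : ℝ), s ^ 2 = Λ * e w₂ :=
    ⟨√(Λ * e w₂), by positivity, Real.sq_sqrt (by positivity)⟩
  have key : ∀ τ > (0 : ℝ), τ ≤ r → τ ≤ δ / (4 * s) → τ ^ 2 * e w₂ ≤ 256 * Λ ^ 4 * ε := by
    intro τ t0 t1 t2
    have b1 := closedBall_subset_closedBall (x := w₂) t1
    rw [le_div_iff₀ (by positivity)] at t2
    obtain ⟨l1, l2⟩ := H.low hδ hΛ t0 hs hs2 (b1.trans (s2.trans (ball_subset_closedBall.trans hU)))
      (fun x hx => s3 x (b1 hx)) (by nlinarith)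
    have l3 := (H.area hδ hΛ hU (by positivity) (by positivity)
      ((ball_subset_closedBall.trans (closedBall_subset_closedBall
        ((div_le_self t0.le (by linarith)).trans t1))).trans s2) l2).trans ha
    rw [show e w₂ / (4 * Λ ^ 2) * (τ / (8 * Λ)) ^ 2 = τ ^ 2 * e w₂ / (256 * Λ ^ 4) by
      field_simp; ring, div_le_iff₀ (by positivity)] at l3
    linarith
  rcases le_total r (δ / (4 * s)) with t | t
  · have := key r hr0 le_rfl t
    rw [hr] at hn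
    nlinarith
  · have := key _ (by positivity) t le_rfl
    rw [show (δ / (4 * s)) ^ 2 * e w₂ = δ ^ 2 / (16 * Λ) by
      rw [div_pow, mul_pow, hs2]; field_simp; ring, div_le_iff₀ (by positivity)] at this
    nlinarith

theorem e1 : StE1 := by
  intro δ Λ θ hδ hΛ hθ
  obtain ⟨m, hm, m1, m2⟩ : ∃ m > (0 : ℝ), m ≤ δ ∧ m ≤ θ :=
    ⟨min δ θ, lt_min hδ hθ, min_le_left _ _, min_le_right _ _⟩
  refine ⟨m ^ 2 / (16384 * Λ ^ 5), by positivity,
    fun ι K U O h e H c ρ hρ hU ha j w₁ h1 hO hK w hw => ?_⟩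
  have b1 := closedBall_subset_closedBall (x := c) (half_le_self hρ.le)
  have hd : ‖w - w₁‖ ≤ ρ := by
    have := norm_sub_le_norm_sub_add_norm_sub w c w₁
    rw [norm_sub_rev c] at this
    linarith [mem_closedBall_iff_norm.1 hw, mem_closedBall_iff_norm.1 h1]
  have hb : θ / (2 * ρ) * ‖w - w₁‖ < θ :=
    (mul_le_mul_of_nonneg_left hd (by positivity)).trans_lt (by
      rw [show θ / (2 * ρ) * ρ = θ / 2 by field_simp]; linarith)
  have := H.toCM.conf (convex_closedBall c (ρ / 2)) (b1.trans hU) h1 hO hK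
    (L := θ / (2 * ρ)) (by positivity) (fun x x1 x2 x3 => ?_) hw hb
  · exact ⟨this.1, this.2.trans hb.le⟩
  have a := H.brody hδ hΛ hρ hU ha (by positivity) (by
    rw [show 4096 * Λ ^ 5 * (m ^ 2 / (16384 * Λ ^ 5)) = m ^ 2 / 4 by field_simp; ring]
    nlinarith) (b1 x1)
  have b := mul_le_mul_of_nonneg_right (pow_le_pow_left₀ (half_pos hρ).le
    (show ρ / 2 ≤ ρ - ‖x - c‖ by linarith [mem_closedBall_iff_norm.1 x1]) 2)
    (H.nonneg hδ hΛ (hU (b1 x1)))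
  rw [show 1024 * Λ ^ 4 * (m ^ 2 / (16384 * Λ ^ 5)) = m ^ 2 / (16 * Λ) by field_simp; ring,
    le_div_iff₀ (by positivity)] at a
  refine (abs_le_of_sq_le_sq' ((H.lo j x x2 x3).trans ?_) (by positivity)).2
  rw [div_pow, le_div_iff₀ (by positivity)]
  nlinarith [mul_le_mul_of_nonneg_right b hΛ.le, pow_le_pow_left₀ hm.le m2 2]

end Vale.Agent.P290Z.BR
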