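import Vale.Agent.P290Z.BR.SpecA
import Vale.Agent.P290Z.BR.E2.An

/-! P290Z, block BR, step E2: bidiscs of small energy are mapped to one core. -/

open Set Filter Metric MeasureTheory
open scoped Topology

namespace Vale.Agent.P290Z.BR

namespace E2

variable {ι : Type} {K : ι → Set V2} {δ Λ : ℝ} {U : Set V2} {O : ι → Set V2} {h : ι → V2 → V2}
  {η : V2 → B2}

/-- filling a family of discs, by the maximum principle -/
theorem fill (hc : CM K δ U O h) {j : ι} {q : V2} {θ r : ℝ} (hr : 0 < r)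
    (hK : closedBall q θ ⊆ K j) (hU : ∀ z w : ℂ, ‖z‖ ≤ r → ‖w‖ < 1 / 4 → (z, w) ∈ U)
    (hb : ∀ z w : ℂ, ‖z‖ = r → ‖w‖ < 1 / 4 → ‖h j (z, w) - q‖ ≤ θ) {w₁ : ℂ} (hw : ‖w₁‖ < 1 / 4)
    (h1 : ∀ z : ℂ, ‖z‖ ≤ r → (z, w₁) ∈ O j) {z w : ℂ} (hz : ‖z‖ ≤ r) (hw' : ‖w‖ < 1 / 4) :
    (z, w) ∈ O j ∧ h j (z, w) ∈ K j := by
  let u : Set ℂ := {w | w ∈ ball (0 : ℂ) (1 / 4) ∧ ∀ z ∈ closedBall (0 : ℂ) r, (z, w) ∈ O j}
  have hu : IsOpen u := isOpen_iff_eventually.2 fun w hw =>
    (isOpen_ball.eventually_mem hw.1).and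
      ((isCompact_closedBall (0 : ℂ) r).eventually_forall_of_forall_eventually
        (P := fun w z => (z, w) ∈ O j) fun z hz =>
        ((hc.openO j).preimage continuous_swap).mem_nhds (hw.2 z hz))
  have hm : ∀ w ∈ u, ∀ z ∈ closedBall (0 : ℂ) r, h j (z, w) ∈ K j := fun w hw z hz => by
    refine hK (mem_closedBall_iff_norm.2 ?_)
    refine Complex.norm_le_of_forall_mem_frontier_norm_le (f := fun z => h j (z, w) - q)
      (U := ball 0 r) isBounded_ball (DifferentiableOn.diffContOnCl ?_) (fun z hz => ?_) ?_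
    · rw [closure_ball _ hr.ne']
      exact ((hc.hol j).comp (f := fun z : ℂ => (z, w)) (by fun_prop) hw.2).sub_const q
    · rw [frontier_ball _ hr.ne'] at hz
      exact hb z w (mem_sphere_zero_iff_norm.1 hz) (mem_ball_zero_iff.1 hw.1)
    · rwa [closure_ball _ hr.ne']
  have key : ball (0 : ℂ) (1 / 4) ⊆ u := (convex_ball _ _).isPreconnected.subset_of_closure_inter_subset
    hu ⟨w₁, mem_ball_zero_iff.2 hw, mem_ball_zero_iff.2 hw, fun z hz =>
      h1 z (mem_closedBall_zero_iff.1 hz)⟩ fun w hw => ⟨hw.2, fun z hz =>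
      hc.closed j _ (hU z w (mem_closedBall_zero_iff.1 hz) (mem_ball_zero_iff.1 hw.2))
        (map_mem_closure (f := fun w : ℂ => (z, w)) (by fun_prop) hw.1 fun w' hw' =>
          ⟨hw'.2 z hz, hm w' hw' z hz⟩)⟩
  have h2 := key (mem_ball_zero_iff.2 hw')
  exact ⟨h2.2 z (mem_closedBall_zero_iff.2 hz), hm w h2 z (mem_closedBall_zero_iff.2 hz)⟩

theorem dc_h (hP : StPull) (hδ : 0 < δ) (hΛ : 0 < Λ) (hT : Tm K δ Λ U O h η) (w : ℂ) :
    Dc K δ Λ {z : ℂ | (z, w) ∈ U} (fun j => {z : ℂ | (z, w) ∈ O j}) (fun j z => h j (z, w))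
      (fun z => η (z, w) (1, 0) (Complex.I, 0)) := by
  have := (hP ι K δ Λ U O h η hδ hΛ hT).2.1 (0, w) (1, 0)
  simpa only [Prod.smul_mk, Prod.mk_add_mk, smul_eq_mul, mul_one, mul_zero, add_zero, zero_add]
    using this

theorem dc_v (hP : StPull) (hδ : 0 < δ) (hΛ : 0 < Λ) (hT : Tm K δ Λ U O h η) (z : ℂ) :
    Dc K δ Λ {w : ℂ | (z, w) ∈ U} (fun j => {w : ℂ | (z, w) ∈ O j}) (fun j w => h j (z, w))
      (fun w => η (z, w) (0, 1) (0, Complex.I)) := by
  have := (hP ι K δ Λ U O h η hδ hΛ hT).2.1 (z, 0) (0, 1)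
  simpa only [Prod.smul_mk, Prod.mk_add_mk, smul_eq_mul, mul_one, mul_zero, add_zero, zero_add]
    using this

theorem mem2 {z w : ℂ} {R : ℝ} (hz : ‖z‖ ≤ R) (hw : ‖w‖ ≤ R) : (z, w) ∈ closedBall (0 : V2) R :=
  mem_closedBall_zero_iff.2 (max_le hz hw)

/-- Fubini for parts of the bidisc -/
theorem fub {E : V2 → ℝ} (hE : Continuous E) (E0 : ∀ x, 0 ≤ E x) {A B : Set ℂ}
    (hA : A ⊆ closedBall 0 (3 / 2)) (hB : B ⊆ closedBall 0 (3 / 2)) :
    IntegrableOn (fun w => ∫ z in A, E (z, w)) B ∧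
    ∫ w in B, ∫ z in A, E (z, w) ≤ ∫ x in ball (0 : V2) 2, E x ∧
    ∫ z in A, ∫ w in B, E (z, w) ≤ ∫ x in ball (0 : V2) 2, E x := by
  have h0 : IntegrableOn E (ball (0 : V2) 2) :=
    (hE.continuousOn.integrableOn_compact (isCompact_closedBall _ _)).mono_set
      ball_subset_closedBall
  have hs : A ×ˢ B ⊆ ball (0 : V2) 2 := fun x hx => closedBall_subset_ball (by norm_num)
    (mem2 (mem_closedBall_zero_iff.1 (hA hx.1)) (mem_closedBall_zero_iff.1 (hB hx.2)))
  have h1 : IntegrableOn E (A ×ˢ B) (volume.prod volume) := h0.mono_set hs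
  have h2 : ∫ x in A ×ˢ B, E x ∂(volume.prod volume) ≤ ∫ x in ball (0 : V2) 2, E x :=
    setIntegral_mono_set h0 (Eventually.of_forall E0) hs.eventuallyLE
  rw [IntegrableOn, ← Measure.prod_restrict] at h1
  rw [← Measure.prod_restrict] at h2
  exact ⟨h1.integral_prod_right, (integral_prod_symm E h1).symm.trans_le h2,
    (integral_prod E h1).symm.trans_le h2⟩

/-- an integral over the unit disc as a bound -/
theorem int_le {f g : ℂ → ℝ} (hg : Continuous g) (h0 : ∀ w : ℂ, 1 < ‖w‖ → f w = 0)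
    (h1 : ∀ w : ℂ, ‖w‖ ≤ 1 → |f w| ≤ g w) : |∫ w, f w| ≤ ∫ w in closedBall (0 : ℂ) 1, g w := by
  rw [← integral_indicator measurableSet_closedBall]
  refine norm_integral_le_of_norm_le (μ := volume) (f := f)
    ((integrable_indicator_iff measurableSet_closedBall).2
    (hg.continuousOn.integrableOn_compact (isCompact_closedBall _ _)))
    (Eventually.of_forall fun w => ?_)
  by_cases hw : w ∈ closedBall (0 : ℂ) 1
  · rw [indicator_of_mem hw]
    exact h1 w (mem_closedBall_zero_iff.1 hw)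
  · rw [indicator_of_notMem hw, h0 w (not_le.1 (mt mem_closedBall_zero_iff.2 hw)), norm_zero]

/-- the vertical discs over some circle have small area -/
theorem vert (hP : StPull) (hS : StSL) : ∃ M ≥ (0 : ℝ), ∀ (ι : Type) (K : ι → Set V2) (δ Λ : ℝ)
    (U : Set V2) (O : ι → Set V2) (h : ι → V2 → V2) (η : V2 → B2), 0 < δ → 0 < Λ →
    Tm K δ Λ U O h η → closedBall (0 : V2) 2 ⊆ U → ∀ E : V2 → ℝ, Continuous E → (∀ x, 0 ≤ E x) →
    (∀ x ∈ closedBall (0 : V2) 2, E x = En η x) → ∃ r ∈ Icc (1 / 2 : ℝ) (3 / 4), ∀ z : ℂ,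
      ‖z‖ = r → ∫ w in ball (0 : ℂ) (1 / 2), η (z, w) (0, 1) (0, Complex.I) ≤
        (1 + M * Λ ^ 2) * (16 * ∫ x in ball (0 : V2) 2, E x) := by
  let χ : ContDiffBump (0 : ℂ) := ⟨1 / 2, 1, by norm_num, by norm_num⟩
  have hχ : ContDiff ℝ 1 χ := χ.contDiff
  obtain ⟨M, hM⟩ := (hχ.continuous_fderiv one_ne_zero).bounded_above_of_compact_support
    (χ.hasCompactSupport.fderiv ℝ)
  have M0 : 0 ≤ M := (norm_nonneg _).trans (hM 0)
  have hs : tsupport χ = closedBall 0 1 := χ.tsupport_eq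
  refine ⟨2 * M, by positivity, fun ι K δ Λ U O h η hδ hΛ hT hU E hE E0 hEq => ?_⟩
  have hp := (hP ι K δ Λ U O h η hδ hΛ hT).2.2.2
  have hm : ∀ z w : ℂ, ‖z‖ ≤ 1 → ‖w‖ ≤ 1 → (z, w) ∈ closedBall (0 : V2) 2 := fun z w hz hw =>
    mem2 (hz.trans one_le_two) (hw.trans one_le_two)
  have hq : ∀ z w : ℂ, ‖z‖ ≤ 1 → ‖w‖ ≤ 1 → 0 ≤ η (z, w) (0, 1) (0, Complex.I) ∧
      η (z, w) (0, 1) (0, Complex.I) ≤ 2 * E (z, w) := fun z w hz hw => by
    have := hp _ (hU (hm z w hz hw)) (0, 1) 0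
    rw [hEq _ (hm z w hz hw)]
    simpa using And.intro this.1 this.2.1
  have hc : ∀ z, Continuous fun w => E (z, w) := fun z => hE.comp (by fun_prop)
  have hG : Continuous fun z => ∫ w in closedBall (0 : ℂ) 1, 2 * E (z, w) :=
    continuous_parametric_integral_of_continuous (f := fun z w => 2 * E (z, w))
      (show Continuous fun x => 2 * E x from continuous_const.mul hE) (isCompact_closedBall _ _)
  have h0 : ∀ w : ℂ, 1 < ‖w‖ → w ∉ tsupport χ := fun w hw h' =>
    hw.not_ge (mem_closedBall_zero_iff.1 (hs ▸ h'))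
  obtain ⟨r, hr, h1⟩ := circle_bd (B := fun z => ∫ w, χ w * η (z, w) (0, 1) (0, Complex.I))
    (C := 2 * M * Λ ^ 2) (by positivity) hG
    (fun z => integral_nonneg fun w => mul_nonneg two_pos.le (E0 _)) fun z hz => by
      refine ⟨(le_abs_self _).trans (int_le (continuous_const.mul (hc z))
        (fun w hw => by rw [image_eq_zero_of_notMem_tsupport (h0 w hw), zero_mul])
        fun w hw => ?_), ?_⟩
      · rw [abs_of_nonneg (mul_nonneg χ.nonneg (hq z w hz hw).1)]
        exact (mul_le_of_le_one_left (hq z w hz hw).1 χ.le_one).trans (hq z w hz hw).2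
      obtain ⟨L, hL, hv⟩ := hS χ U η hχ χ.hasCompactSupport hT.isOpen hT.smooth hT.alt hT.cl z
        fun w hw => hU (hm z w hz (mem_closedBall_zero_iff.1 (hs ▸ hw)))
      refine ⟨L, hL, fun v => ?_⟩
      rw [hv, ← integral_const_mul]
      refine int_le (continuous_const.mul (continuous_const.mul (hc z))) (fun w hw => ?_)
        fun w hw => ?_
      · rw [image_eq_zero_of_notMem_tsupport (f := fderiv ℝ χ)
          fun h' => h0 w hw (tsupport_fderiv_subset ℝ h')]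
        simp
      · have a1 := (hp _ (hU (hm z w hz hw)) (0, Complex.I) (v, 0)).2.2
        have a2 := (hp _ (hU (hm z w hz hw)) (v, 0) (0, 1)).2.2
        have a3 : |fderiv ℝ χ w 1| ≤ M := by simpa using (fderiv ℝ χ w).le_of_opNorm_le (hM w) 1
        have a4 : |fderiv ℝ χ w Complex.I| ≤ M := by
          simpa using (fderiv ℝ χ w).le_of_opNorm_le (hM w) Complex.I
        rw [← hEq _ (hm z w hz hw)] at a1 a2
        simp only [Prod.norm_mk, norm_zero, Complex.norm_I, norm_one, zero_le_one, max_eq_right,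
          norm_nonneg, max_eq_left, mul_one] at a1 a2
        refine (abs_add_le _ _).trans ?_
        rw [abs_mul, abs_mul]
        have a5 := mul_le_mul a3 a1 (abs_nonneg _) M0
        have a6 := mul_le_mul a4 a2 (abs_nonneg _) M0
        linarith
  refine ⟨r, hr, fun z hz => ?_⟩
  have hz1 : ‖z‖ ≤ 1 := hz.trans_le (hr.2.trans (by norm_num))
  have h2 : ∫ z in closedBall (0 : ℂ) 1, ∫ w in closedBall (0 : ℂ) 1, 2 * E (z, w) ≤
      2 * ∫ x in ball (0 : V2) 2, E x := by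
    simp only [integral_const_mul]
    exact mul_le_mul_of_nonneg_left (fub hE E0 (closedBall_subset_closedBall (by norm_num))
      (closedBall_subset_closedBall (by norm_num))).2.2 two_pos.le
  have h3 : ∫ w in ball (0 : ℂ) (1 / 2), η (z, w) (0, 1) (0, Complex.I) ≤
      ∫ w, χ w * η (z, w) (0, 1) (0, Complex.I) := by
    rw [setIntegral_congr_fun measurableSet_ball
      (g := fun w => χ w * η (z, w) (0, 1) (0, Complex.I)) fun w hw => by
        simp only [χ.one_of_mem_closedBall (ball_subset_closedBall hw), one_mul]]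
    refine setIntegral_le_integral (IntegrableOn.integrable_of_forall_notMem_eq_zero
      (s := closedBall 0 1) (ContinuousOn.integrableOn_compact (isCompact_closedBall _ _)
        (χ.continuous.continuousOn.mul ((dc_v hP hδ hΛ hT z).cont.mono fun w hw =>
          hU (hm z w hz1 (mem_closedBall_zero_iff.1 hw))))) fun w hw => ?_)
      (Eventually.of_forall fun w => ?_)
    · rw [image_eq_zero_of_notMem_tsupport (f := χ) (hs ▸ hw), zero_mul]
    · by_cases hw : ‖w‖ ≤ 1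
      · exact mul_nonneg χ.nonneg (hq z w hz1 hw).1
      · simp only [image_eq_zero_of_notMem_tsupport (h0 w (not_le.1 hw)), zero_mul, Pi.zero_apply,
          le_refl]
  refine h3.trans ((h1 z hz).trans (mul_le_mul_of_nonneg_left ?_ (by positivity)))
  linarith

/-- the statement for the bidisc of radius two -/
theorem core (hP : StPull) (h1 : StE1) (hS : StSL) (hδ : 0 < δ) (hΛ : 0 < Λ) :
    ∃ ε > (0 : ℝ), ∀ (ι : Type) (K : ι → Set V2) (U : Set V2) (O : ι → Set V2)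
      (h : ι → V2 → V2) (η : V2 → B2), Tm K δ Λ U O h η → closedBall (0 : V2) 2 ⊆ U →
      ∫ x in ball (0 : V2) 2, En η x ≤ ε → ∃ j, ∀ x ∈ ball (0 : V2) (1 / 4),
        x ∈ O j ∧ h j x ∈ K j := by
  obtain ⟨M, M0, hv⟩ := vert hP hS
  obtain ⟨e, e0, he⟩ := h1 δ Λ (δ / 4) hδ hΛ (by positivity)
  have b0 : volume (ball (0 : ℂ) (1 / 4)) ≠ 0 := (measure_ball_pos _ _ (by norm_num)).ne'
  have b1 : volume (ball (0 : ℂ) (1 / 4)) ≠ ⊤ := measure_ball_lt_top.ne
  have b2 : 0 < volume.real (ball (0 : ℂ) (1 / 4)) := ENNReal.toReal_pos b0 b1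
  have b3 : 0 < (1 + M * Λ ^ 2) * 16 := by positivity
  refine ⟨min (volume.real (ball (0 : ℂ) (1 / 4)) * e / 2) (e / ((1 + M * Λ ^ 2) * 16)),
    by positivity, fun ι K U O h η hT hU hε => ?_⟩
  obtain ⟨-, -, hc, hp⟩ := hP ι K δ Λ U O h η hδ hΛ hT
  have e1 : ∀ x ∈ U, 0 ≤ En η x := fun x hx => add_nonneg
    (by simpa using (hp x hx (1, 0) 0).1) (by simpa using (hp x hx (0, 1) 0).1)
  obtain ⟨E, E0, hE⟩ := ContinuousMap.exists_restrict_eq_forall_mem_of_closed
    (s := closedBall (0 : V2) 2) ⟨_, (hc.mono hU).domRestrict⟩ (t := Ici 0)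
    (fun x => e1 _ (hU x.2)) nonempty_Ici isClosed_closedBall
  have hEq : ∀ x ∈ closedBall (0 : V2) 2, E x = En η x := fun x hx =>
    DFunLike.congr_fun hE ⟨x, hx⟩
  rw [← setIntegral_congr_fun measurableSet_ball fun x hx => hEq x (ball_subset_closedBall hx),
    le_min_iff, le_div_iff₀ b3] at hε
  obtain ⟨r, hr, hr'⟩ := hv ι K δ Λ U O h η hδ hΛ hT hU E E.continuous E0 hEq
  obtain ⟨f1, f2, -⟩ := fub E.continuous E0 (A := ball 0 (3 / 2)) (B := ball 0 (1 / 4))
    ball_subset_closedBall (ball_subset_closedBall.trans (closedBall_subset_closedBall (by norm_num)))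
  obtain ⟨w₁, hw, hw'⟩ := exists_mul_le b0 b1 f1
  have hw1 : ‖w₁‖ < 1 / 4 := mem_ball_zero_iff.1 hw
  have hm : ∀ z w : ℂ, ‖z‖ ≤ 3 / 2 → ‖w‖ ≤ 1 / 2 → (z, w) ∈ closedBall (0 : V2) 2 :=
    fun z w hz hw => mem2 (hz.trans (by norm_num)) (hw.trans (by norm_num))
  obtain ⟨j, hj, hK⟩ := hT.cover (0, w₁) (hU (hm _ _ (by norm_num) (by linarith)))
  have hh := he ι K _ _ _ _ (dc_h hP hδ hΛ hT w₁) 0 (3 / 2) (by norm_num)
    (fun z hz => hU (hm _ _ (mem_closedBall_zero_iff.1 hz) (by linarith))) ?_ j 0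
    (mem_closedBall_self (by norm_num)) hj ((closedBall_subset_closedBall (by linarith)).trans hK)
  · have hh' : ∀ z : ℂ, ‖z‖ ≤ r → (z, w₁) ∈ O j ∧ ‖h j (z, w₁) - h j (0, w₁)‖ ≤ δ / 4 :=
      fun z hz => hh z (mem_closedBall_zero_iff.2 (by linarith [hr.2]))
    refine ⟨j, fun x hx => fill hT.toCM (r := r) (by linarith [hr.1]) hK
      (fun z w hz hw => hU (hm _ _ (by linarith [hr.2]) (by linarith))) (fun z w hz hw => ?_) hw1
      (fun z hz => (hh' z hz).1) ?_ ?_⟩
    · have h2 := (he ι K _ _ _ _ (dc_v hP hδ hΛ hT z) 0 (1 / 2) (by norm_num)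
        (fun w hw => hU (hm _ _ (by linarith [hr.2]) (mem_closedBall_zero_iff.1 hw)))
        ((hr' z hz).trans (by linarith [hε.2])) j w₁ (mem_closedBall_zero_iff.2 (by linarith))
        (hh' z hz.le).1 ((closedBall_subset_closedBall' (by
          rw [dist_eq_norm]; linarith [(hh' z hz.le).2])).trans hK) w
        (mem_closedBall_zero_iff.2 (by linarith))).2
      linarith [norm_sub_le_norm_sub_add_norm_sub (h j (z, w)) (h j (z, w₁)) (h j (0, w₁)),
        (hh' z hz.le).2]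
    · linarith [norm_fst_le x, mem_ball_zero_iff.1 hx, hr.1]
    · exact (norm_snd_le x).trans_lt (mem_ball_zero_iff.1 hx)
  · have h2 : ∫ z in ball (0 : ℂ) (3 / 2), η (z, w₁) (1, 0) (Complex.I, 0) ≤
        ∫ z in ball (0 : ℂ) (3 / 2), 2 * E (z, w₁) := by
      refine setIntegral_mono_on ((((dc_h hP hδ hΛ hT w₁).cont.mono fun z hz =>
        hU (hm _ _ (mem_closedBall_zero_iff.1 hz) (by linarith))).integrableOn_compact
          (isCompact_closedBall 0 (3 / 2))).mono_set ball_subset_closedBall)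
        (((continuous_const.mul (E.continuous.comp (by fun_prop))).continuousOn.integrableOn_compact
          (isCompact_closedBall 0 (3 / 2))).mono_set ball_subset_closedBall) measurableSet_ball
        fun z hz => ?_
      have h3 := hm z w₁ (mem_ball_zero_iff.1 hz).le (by linarith)
      rw [hEq _ h3]
      simpa using (hp _ (hU h3) (1, 0) 0).2.1
    rw [integral_const_mul] at h2
    refine h2.trans (le_of_mul_le_mul_left ?_ b2)
    linarith [hε.1]

/-- the change of scale -/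
theorem scale (f : V2 → ℝ) (p : V2) {ρ : ℝ} (hρ : 0 < ρ) :
    ∫ x in ball (0 : V2) 2, f (p + ρ • x) = (ρ ^ 4)⁻¹ * ∫ x in ball p (2 * ρ), f x := by
  have h4 : Module.finrank ℝ V2 = 4 := by simp
  have : Measure.IsAddHaarMeasure (volume : Measure V2) := Measure.prod.instIsAddHaarMeasure _ _
  rw [Measure.setIntegral_comp_smul_of_pos volume (fun x => f (p + x)) _ hρ, h4, smul_eq_mul,
    _root_.smul_ball hρ.ne', smul_zero, Real.norm_of_nonneg hρ.le, mul_comm ρ 2,
    ← (measurePreserving_add_left volume p).setIntegral_preimage_emb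
      (measurableEmbedding_addLeft p) f (ball p _), preimage_add_ball, sub_self]

end E2

open E2 in
theorem e2 (hP : StPull) (_hC : StChg) (h1 : StE1) (hS : StSL) : StE2 := fun δ Λ hδ hΛ => by
  obtain ⟨ε, ε0, hε⟩ := core hP h1 hS hδ hΛ
  refine ⟨ε / 4, by positivity, fun ι K U O h η hT p ρ hρ hU hE => ?_⟩
  obtain ⟨hp, -, hc, -⟩ := hP ι K δ Λ U O h η hδ hΛ hT
  let L : V2 →L[ℂ] V2 := (ρ : ℂ) • ContinuousLinearMap.id ℂ V2
  have hL : ∀ x, L x = ρ • x := fun x => rfl
  have hn : ‖L‖ = ρ := by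
    rw [norm_smul, ContinuousLinearMap.norm_id, mul_one, Complex.norm_real, Real.norm_of_nonneg hρ.le]
  obtain ⟨hT', hE'⟩ := hp p L
  have hU' : closedBall (0 : V2) 2 ⊆ {x | p + L x ∈ U} := fun x hx => hU (by
    rw [mem_closedBall_iff_norm, add_sub_cancel_left, hL, norm_smul, Real.norm_of_nonneg hρ.le]
    nlinarith [mem_closedBall_zero_iff.1 hx])
  obtain ⟨j, hj⟩ := hε ι K _ _ _ _ hT' hU' (by
    have a1 : ∫ x in ball (0 : V2) 2, En (pull η p L) x ≤
        ∫ x in ball (0 : V2) 2, 4 * ρ ^ 2 * En η (p + ρ • x) := by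
      refine setIntegral_mono_on
        ((((hP ι K δ Λ _ _ _ _ hδ hΛ hT').2.2.1.mono hU').integrableOn_compact
          (isCompact_closedBall _ _)).mono_set ball_subset_closedBall)
        (((continuousOn_const.mul (hc.comp (f := fun x => p + ρ • x) (by fun_prop) hU')
          ).integrableOn_compact (isCompact_closedBall _ _)).mono_set ball_subset_closedBall)
        measurableSet_ball fun x hx => ?_
      have := hE' x (hU' (ball_subset_closedBall hx))
      rwa [hn] at this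
    rw [integral_const_mul, scale (En η) p hρ] at a1
    refine a1.trans ?_
    calc 4 * ρ ^ 2 * ((ρ ^ 4)⁻¹ * ∫ x in ball p (2 * ρ), En η x)
        ≤ 4 * ρ ^ 2 * ((ρ ^ 4)⁻¹ * (ε / 4 * ρ ^ 2)) := by gcongr
      _ = ε := by field_simp)
  refine ⟨j, fun x hx => ?_⟩
  have e : p + L (ρ⁻¹ • (x - p)) = x := by rw [hL, smul_inv_smul₀ hρ.ne', add_sub_cancel]
  have := hj (ρ⁻¹ • (x - p)) (by
    rw [mem_ball_zero_iff, norm_smul, Real.norm_of_nonneg (inv_pos.2 hρ).le, inv_mul_lt_iff₀ hρ]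
    linarith [mem_ball_iff_norm.1 hx])
  simpa only [mem_ofPred, e] using this

end Vale.Agent.P290Z.BR
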