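import Vale.Agent.P290Z.BR.Fin.Loc

/-! P290Z, block BR, step FIN: from extensions outside countable sets to an isomorphism. -/

open Set Filter Metric
open scoped Topology Manifold ContDiff

namespace Vale.Agent.P290Z.BR

open Vale.Agent.P290 Vale.Agent.P290.H805

namespace FinA

variable {X X' : Type} [TopologicalSpace X] [ChartedSpace V2 X] [TopologicalSpace X']
  [ChartedSpace V2 X']

/-- the maximal extension -/
structure Ext (f : X → X') (G : Set X) (F : X → X') (Ω : Set X) : Prop where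
  isOpen : IsOpen Ω
  sub : G ⊆ Ω
  eq : ∀ x ∈ G, F x = f x
  hol : ∀ x ∈ Ω, All.Hol F x
  det : ∀ x ∈ Ω, Det F x ≠ 0
  max : ∀ (N : Set X) (h : X → X'), IsOpen N → (∀ y ∈ N, All.Hol h y) →
    (∀ y ∈ N, y ∈ Ω → h y = F y) → N ⊆ Ω

theorem exists_ext [T2Space X'] {f : X → X'} {G : Set X} (ho : IsOpen G) (hd : Dense G)
    (hf : ∀ x ∈ G, All.Hol f x) (he : ExtEt f G) : ∃ F, Ext f G F (ExtS f G) := by
  classical
  have h0 : ∀ x, ∃ y : X', ∀ N : Set X, IsOpen N → x ∈ N → ∀ g : X → X', (∀ z ∈ N, All.Hol g z) →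
      (∀ z ∈ N, z ∈ G → g z = f z) → y = g x := fun x => by
    by_cases hx : x ∈ ExtS f G
    · obtain ⟨N, hN, hxN, g, g1, g2⟩ := hx
      refine ⟨g x, fun N' hN' hxN' g' g1' g2' =>
        tendsto_nhds_unique_of_frequently_eq (g1 x hxN).1 (g1' x hxN').1 ?_⟩
      refine ((mem_closure_iff_frequently.1 (hd x)).and_eventually
        ((hN.inter hN').mem_nhds ⟨hxN, hxN'⟩)).mono fun z hz => ?_
      rw [g2 z hz.2.1 hz.1, g2' z hz.2.2 hz.1]
    · exact ⟨f x, fun N hN hxN g g1 g2 => absurd ⟨N, hN, hxN, g, g1, g2⟩ hx⟩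
  choose F hF using h0
  have h1 : IsOpen (ExtS f G) := isOpen_iff_mem_nhds.2 fun x ⟨N, hN, hxN, h⟩ =>
    mem_of_superset (hN.mem_nhds hxN) fun y hy => ⟨N, hN, hy, h⟩
  have h2 : G ⊆ ExtS f G := fun x hx => ⟨G, ho, hx, f, hf, fun _ _ _ => rfl⟩
  have h3 : ∀ x ∈ G, F x = f x := fun x hx => hF x G ho hx f hf fun _ _ _ => rfl
  have h4 : ∀ x ∈ ExtS f G, All.Hol F x := fun x ⟨N, hN, hxN, g, g1, g2⟩ =>
    Hol.congr (g1 x hxN) (mem_of_superset (hN.mem_nhds hxN) fun y hy => hF y N hN hy g g1 g2)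
  exact ⟨F, h1, h2, h3, h4, he _ h1 F h4 fun y _ hy => h3 y hy, fun N h hN g1 g2 x hx =>
    ⟨N, hN, hx, h, g1, fun y hy hy' => (g2 y hy (h2 hy')).trans (h3 y hy')⟩⟩

variable [IsManifold 𝓘(ℂ, V2) ω X] [IsManifold 𝓘(ℂ, V2) ω X'] {f F : X → X'} {g F' : X' → X}
  {G Ω : Set X} {G' Ω' : Set X'}

theorem left_inv [T2Space X] (E : Ext f G F Ω) (E' : Ext g G' F' Ω') (ho : IsOpen G)
    (hd : Dense G) (hd' : Dense G') (h : ∀ x ∈ G, f x ∈ G' → g (f x) = x) {x : X} (hx : x ∈ Ω)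
    (hx' : F x ∈ Ω') : F' (F x) = x := by
  refine tendsto_nhds_unique_of_frequently_eq (f := fun z => F' (F z)) (g := id)
    ((E'.hol _ hx').1.comp (E.hol x hx).1) tendsto_id (frequently_iff.2 fun {V} hV => ?_)
  obtain ⟨W, hW, hWo, hxW⟩ := mem_nhds_iff.1 hV
  obtain ⟨z, hzW, hzG⟩ := hd.inter_open_nonempty W hWo ⟨x, hxW⟩
  obtain ⟨N, k, hN, hzN, k1, k2⟩ := loc_inv E.isOpen E.hol (E.sub hzG) (E.det z (E.sub hzG))
  have h1 : ∀ᶠ y in 𝓝 (F z), k y ∈ W ∩ G :=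
    (k2 _ hzN).1.1.preimage_mem_nhds ((hWo.inter ho).mem_nhds (k1.symm ▸ ⟨hzW, hzG⟩))
  obtain ⟨y, hy, hy', hyN⟩ := ((mem_closure_iff_frequently.1 (hd' (F z))).and_eventually
    (h1.and (hN.mem_nhds hzN))).exists
  have h2 : f (k y) = y := (E.eq _ hy'.2).symm.trans (k2 y hyN).2.2
  refine ⟨k y, hW hy'.1, ?_⟩
  rw [(k2 y hyN).2.2, E'.eq y hy, id, ← h (k y) hy'.2 (h2.symm ▸ hy), h2]

theorem full [T2Space X] [CompactSpace X] [T2Space X'] [CompactSpace X'] (E : Ext f G F Ω)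
    (E' : Ext g G' F' Ω') (h : ∀ x ∈ Ω, F x ∈ Ω' → F' (F x) = x)
    (h' : ∀ y ∈ Ω', F' y ∈ Ω → F (F' y) = y) (hc : Ωᶜ.Countable) (hc' : Ω'ᶜ.Countable) (x : X) :
    x ∈ Ω := by
  classical
  by_contra hx
  obtain ⟨x, hx, hi⟩ := exists_isolated E.isOpen hc ⟨x, hx⟩
  have key : ∀ y, MapClusterPt y (𝓝[≠] x) F → y ∉ Ω' := fun y hy hy' => by
    have h1 : F' y = x := by
      have a1 : MapClusterPt (F' y) (𝓝[≠] x) (F' ∘ F) := hy.continuousAt_comp (E'.hol y hy').1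
      by_contra hne
      obtain ⟨U, V, hU, hV, hyU, hxV, hUV⟩ := t2_separation hne
      obtain ⟨z, ⟨z1, z2⟩, z3, z4⟩ := ((hy.frequently (p := fun w => w ∈ Ω' ∧ F' w ∈ U)
        (inter_mem (E'.isOpen.mem_nhds hy') ((E'.hol y hy').1.preimage_mem_nhds
          (hU.mem_nhds hyU)))).and_eventually (hi.and (mem_nhdsWithin_of_mem_nhds
            (hV.mem_nhds hxV)))).exists
      rw [h z z3 z1] at z2
      exact disjoint_left.1 hUV z2 z4
    obtain ⟨N, k, hN, hxN, -, k2⟩ := loc_inv E'.isOpen E'.hol hy' (E'.det y hy')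
    refine hx (E.max N k hN (fun z hz => (k2 z hz).1) (fun z hz hz' => ?_) (h1 ▸ hxN))
    have := h' (k z) (k2 z hz).2.1 (by rwa [(k2 z hz).2.2])
    rw [(k2 z hz).2.2] at this
    exact this.symm
  set e := chartAt V2 x with he
  have hxe : x ∈ e.source := mem_chart_source V2 x
  have h1 : Tendsto e.symm (𝓝[≠] (e x)) (𝓝[≠] x) := by
    have := tendsto_chart e.symm (e.map_source hxe)
    rwa [e.left_inv hxe] at this
  obtain ⟨y, hy⟩ := exists_lim (v := F ∘ e.symm) (p := e x) (by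
    filter_upwards [h1.eventually hi, mem_nhdsWithin_of_mem_nhds (e.open_target.mem_nhds
      (e.map_source hxe))] with z a1 a2
    exact (E.hol _ a1).1.comp (e.continuousAt_symm a2))
    (hc'.mono fun y hy => key y (MapClusterPt.of_comp h1 hy))
  have h2 : Tendsto F (𝓝[≠] x) (𝓝 y) := (hy.comp (tendsto_chart e hxe)).congr' (by
    filter_upwards [mem_nhdsWithin_of_mem_nhds (e.open_source.mem_nhds hxe)] with z hz
    simp only [Function.comp, e.left_inv hz])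
  have h3 : ∀ z ∈ Ω, All.Hol (Function.update F x y) z := fun z hz =>
    Hol.congr (E.hol z hz) (mem_of_superset (isOpen_compl_singleton.mem_nhds
      (show z ∈ ({x}ᶜ : Set X) from fun e => hx (mem_singleton_iff.1 e ▸ hz)))
        fun w hw => Function.update_of_ne hw _ _)
  have h4 : All.Hol (Function.update F x y) x :=
    hol_of_cont (continuousAt_update_same.2 h2) (hi.mono h3)
  obtain ⟨N, hN, hNo, hxN⟩ := eventually_nhds_iff.1 (eventually_nhdsWithin_iff.1 hi)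
  refine hx (E.max N _ hNo (fun z hz => ?_) (fun z _ hz => Function.update_of_ne
    (fun e : z = x => hx (e ▸ hz)) y F) hxN)
  by_cases e : z = x
  · exact e ▸ h4
  · exact h3 z (hN z hz e)

end FinA

open FinA in
theorem fin_ : StFin := by
  intro X X' _ _ _ _ _ _ _ _ _ _ f g G G' ho hd ho' hd' hf hg h1 h2 hc hc' he he'
  obtain ⟨F, E⟩ := exists_ext ho hd hf he
  obtain ⟨F', E'⟩ := exists_ext ho' hd' hg he'
  have a1 := fun x => left_inv E E' ho hd hd' h1 (x := x)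
  have a2 := fun y => left_inv E' E ho' hd' hd h2 (x := y)
  have b1 := full E E' a1 a2 hc hc'
  have b2 := full E' E a2 a1 hc' hc
  exact ⟨⟨⟨F, F', fun x => a1 x (b1 _) (b2 _), fun y => a2 y (b2 _) (b1 _)⟩,
    continuous_iff_continuousAt.2 fun x => (E.hol x (b1 x)).1,
    continuous_iff_continuousAt.2 fun y => (E'.hol y (b2 y)).1⟩,
    fun x => E.hol x (b1 x), fun y => E'.hol y (b2 y)⟩

end Vale.Agent.P290Z.BR
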