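import Vale.Agent.P290Z.BR.SpecA

/-! P290Z, block BR, step GOOD: pointwise limits, the good set. -/

open Set Filter Metric MeasureTheory
open scoped Topology Manifold ContDiff

namespace Vale.Agent.P290Z.BR

open Vale.Agent.P290 Vale.Agent.P290.H805

section

variable {T E T' E' : Type} [TopologicalSpace T] [TopologicalSpace E] [TopologicalSpace T']
  [TopologicalSpace E'] {F : Family T E} {F' : Family T' E'} {s : T} {s' : T'} {a : ℕ → T}
  {b : ℕ → T'} {f : ℕ → E → E'} {𝒰 : Ultrafilter ℕ}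

theorem gd_symm_snd (F : Family T E) {x q : E} {t : T} (hq : q ∈ (F.triv x).source)
    (ht : F.p q = t) : (F.triv x).symm (t, (F.triv x q).2) = q := by
  rw [← ht, ← F.mk_eq x hq, (F.triv x).left_inv hq]

theorem gd_mem_target (F : Family T E) {x q : E} {t : T} (hq : q ∈ (F.triv x).source)
    (ht : F.p q = t) : (t, (F.triv x q).2) ∈ (F.triv x).target := by
  rw [← ht, ← F.mk_eq x hq]
  exact (F.triv x).map_source hq

/-- the values are recovered from their coordinates -/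
theorem Half.uu_eq (H : Half F F' s s' a b f) {n : ℕ} {x : E} {y : E'} {v : V2}
    (hv : v ∈ OO F F' a f x n y) :
    (F'.triv y).symm (b n, hh F F' a f x n y v) = uu F a f x n v :=
  gd_symm_snd F' hv.2 (H.hol n x v hv.1).1.self_of_nhds

theorem Half.diff_hh (H : Half F F' s s' a b f) {n : ℕ} {x : E} {y : E'} {v : V2}
    (hv : v ∈ OO F F' a f x n y) : DifferentiableAt ℂ (hh F F' a f x n y) v :=
  (H.hol n x v hv.1).diff hv.2

/-- convergence of the coordinates gives convergence of the values -/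
theorem Half.tendsto_uu (H : Half F F' s s' a b f) {α : Type} {𝓖 : Filter α} {m : α → ℕ}
    (hm : Tendsto m 𝓖 atTop) {x : E} {y : E'} {w : α → V2} {z : V2}
    (hw : ∀ᶠ i in 𝓖, w i ∈ OO F F' a f x (m i) y) (hz : (s', z) ∈ (F'.triv y).target)
    (hl : Tendsto (fun i => hh F F' a f x (m i) y (w i)) 𝓖 (𝓝 z)) :
    Tendsto (fun i => uu F a f x (m i) (w i)) 𝓖 (𝓝 ((F'.triv y).symm (s', z))) := by
  have h1 : Tendsto (fun i => ((b (m i), hh F F' a f x (m i) y (w i)) : T' × V2)) 𝓖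
      (𝓝 (s', z)) := (H.limb.comp hm).prodMk_nhds hl
  refine (((F'.triv y).continuousAt_symm hz).tendsto.comp h1).congr' ?_
  filter_upwards [hw] with i hi
  exact H.uu_eq hi

/-- the limit in a pair of trivialisations -/
theorem Half.lim_chart (hM : StMon) (H : Half F F' s s' a b f) (hU : (𝒰 : Filter ℕ) ≤ atTop)
    {x : E} {y : E'} {v : V2} {ε : ℝ} (hε : 0 < ε) {Q : Set V2} (hQ : IsCompact Q)
    (hQt : ∀ w ∈ Q, (s', w) ∈ (F'.triv y).target)
    (h : ∀ᶠ n in (𝒰 : Filter ℕ), ∀ w ∈ ball v ε,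
      w ∈ OO F F' a f x n y ∧ hh F F' a f x n y w ∈ Q) :
    ∃ G : V2 → V2, (∀ w ∈ ball v ε, G w ∈ Q ∧
        Tendsto (fun n => hh F F' a f x n y w) 𝒰 (𝓝 (G w)) ∧
        Tendsto (fun n => uu F a f x n w) 𝒰 (𝓝 ((F'.triv y).symm (s', G w)))) ∧
      DifferentiableOn ℂ G (ball v ε) ∧
      Tendsto (fun n => fderiv ℂ (hh F F' a f x n y) v) 𝒰 (𝓝 (fderiv ℂ G v)) ∧
      Tendsto (fun p : ℕ × V2 => uu F a f x p.1 p.2) ((𝒰 : Filter ℕ) ×ˢ 𝓝 v)
        (𝓝 ((F'.triv y).symm (s', G v))) := by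
  have h1 : ∀ w : V2, ∃ z : V2, w ∈ ball v ε →
      z ∈ Q ∧ Tendsto (fun n => hh F F' a f x n y w) 𝒰 (𝓝 z) := by
    intro w
    by_cases hw : w ∈ ball v ε
    · obtain ⟨z, hz, hl⟩ := hQ.ultrafilter_le_nhds (𝒰.map fun n => hh F F' a f x n y w)
        (le_principal_iff.2 (h.mono fun n hn => (hn w hw).2))
      exact ⟨z, fun _ => ⟨hz, hl⟩⟩
    · exact ⟨0, fun h' => absurd h' hw⟩
  choose G hG using h1
  obtain ⟨M, hMb⟩ := hQ.isBounded.exists_norm_le
  obtain ⟨m1, m2, m3, -⟩ := hM V2 (𝒰 : Filter ℕ) (fun n => hh F F' a f x n y) G v ε M hε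
    (by
      filter_upwards [h] with n hn
      exact ⟨fun w hw => (H.diff_hh (hn w hw).1).differentiableWithinAt,
        fun w hw => hMb _ (hn w hw).2⟩)
    (fun w hw => (hG w hw).2)
  refine ⟨G, fun w hw => ⟨(hG w hw).1, (hG w hw).2, ?_⟩, m1, m3, ?_⟩
  · refine H.tendsto_uu (m := id) hU ?_ (hQt _ (hG w hw).1) (hG w hw).2
    filter_upwards [h] with n hn using (hn w hw).1
  · have hv : v ∈ ball v ε := mem_ball_self hε
    have hb : ball v (ε / 2) ∈ 𝓝 v := ball_mem_nhds v (half_pos hε)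
    refine H.tendsto_uu (m := Prod.fst) (tendsto_fst.mono_right hU) ?_ (hQt _ (hG v hv).1) ?_
    · filter_upwards [h.prod_mk (ball_mem_nhds v hε)] with p hp using (hp.1 p.2 hp.2).1
    · have h2 : TendstoUniformlyOn (fun p : ℕ × V2 => hh F F' a f x p.1 y) G
          ((𝒰 : Filter ℕ) ×ˢ 𝓝 v) (ball v (ε / 2)) :=
        fun u hu => tendsto_fst.eventually (m2 u hu)
      refine h2.tendsto_comp (x := v) ?_ ?_
      · exact (m1.continuousOn.continuousAt (ball_mem_nhds v hε)).continuousWithinAt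
      · rw [nhdsWithin_eq_nhds.2 hb]
        exact tendsto_snd

theorem Half.exists_lim (H : Half F F' s s' a b f) (hU : (𝒰 : Filter ℕ) ≤ atTop) (x : E)
    (v : V2) (hv : (s, v) ∈ (F.triv x).target) :
    ∃ y : Fib F' s', Tendsto (fun n => uu F a f x n v) 𝒰 (𝓝 y.val) := by
  have := H.fin
  obtain ⟨C, η, h⟩ := H.tm x {v} isCompact_singleton (by
    rintro w rfl
    exact hv)
  have h1 : ∀ᶠ n in (𝒰 : Filter ℕ), ∃ j, v ∈ OO F F' a f x n (H.y j).val ∧
      hh F F' a f x n (H.y j).val v ∈ H.K j := by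
    filter_upwards [hU h] with n hn
    obtain ⟨j, h1, h2⟩ := hn.1.cover v (hn.2.1 rfl)
    exact ⟨j, h1, h2 (mem_closedBall_self H.δ_pos.le)⟩
  obtain ⟨j, hj⟩ := Ultrafilter.eventually_exists_iff.1 h1
  obtain ⟨z, hz, hl⟩ := (H.cpt j).ultrafilter_le_nhds
    (𝒰.map fun n => hh F F' a f x n (H.y j).val v) (le_principal_iff.2 (hj.mono fun n hn => hn.2))
  refine ⟨⟨_, F'.p_symm _ (H.tgt j z hz)⟩, ?_⟩
  exact H.tendsto_uu (m := id) hU (hj.mono fun n hn => hn.1) (H.tgt j z hz) hl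

theorem Half.lgood_iff (H : Half F F' s s' a b f) (hU : (𝒰 : Filter ℕ) ≤ atTop) (x : Fib F s)
    (v : V2) (hv : (s, v) ∈ (F.triv x.val).target) :
    LGood 𝒰 H.K (fun n j => OO F F' a f x.val n (H.y j).val)
      (fun n j => hh F F' a f x.val n (H.y j).val) v ↔ (fibChart F s x).symm v ∈ H.Gd 𝒰 := by
  constructor
  · rintro ⟨j, ε, hε, h⟩
    refine ⟨j, {q | q ∈ (F.triv x.val).source ∧ (F.triv x.val q).2 ∈ ball v ε}, ?_, ?_⟩
    · rw [fibChart_symm_val F s x hv]
      have h1 := (F.triv x.val).map_target hv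
      refine inter_mem ((F.triv x.val).open_source.mem_nhds h1) ?_
      have h2 : ContinuousAt (fun q => (F.triv x.val q).2) ((F.triv x.val).symm (s, v)) :=
        continuousAt_snd.comp ((F.triv x.val).continuousAt h1)
      refine h2.eventually (p := fun w => w ∈ ball v ε) ?_
      simp only [(F.triv x.val).right_inv hv]
      exact ball_mem_nhds v hε
    · filter_upwards [h] with n hn q hq hp
      have h1 := hn _ hq.2
      have h2 : uu F a f x.val n (F.triv x.val q).2 = f n q := by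
        rw [uu, gd_symm_snd F hq.1 hp]
      refine ⟨h2 ▸ h1.1.2, ?_⟩
      have h3 := h1.2
      rw [hh, h2] at h3
      exact h3
  · rintro ⟨j, W, hW, h⟩
    rw [fibChart_symm_val F s x hv] at hW
    have h1 : ∀ᶠ p in 𝓝 (s, v), p ∈ (F.triv x.val).target ∧ (F.triv x.val).symm p ∈ W :=
      (Filter.Eventually.and ((F.triv x.val).open_target.mem_nhds hv)
        (((F.triv x.val).continuousAt_symm hv).eventually hW))
    rw [nhds_prod_eq] at h1
    obtain ⟨A, hA, B, hB, hAB⟩ := eventually_prod_iff.1 h1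
    obtain ⟨ε, hε, hB'⟩ := Metric.eventually_nhds_iff_ball.1 hB
    refine ⟨j, ε, hε, ?_⟩
    filter_upwards [h, hU (H.lima.eventually hA)] with n hn hn' w hw
    have h2 := hAB hn' (hB' w hw)
    have h3 := hn _ h2.2 (F.p_symm _ h2.1)
    exact ⟨⟨h2.1, h3.1⟩, h3.2⟩

theorem Half.isOpen_gd (H : Half F F' s s' a b f) : IsOpen (H.Gd 𝒰) := by
  refine isOpen_iff_mem_nhds.2 ?_
  rintro x ⟨j, W, hW, h⟩
  have h1 : ∀ᶠ x' in 𝓝 x, W ∈ 𝓝 (Fib.val x') :=
    continuous_val.continuousAt.eventually (eventually_mem_nhds_iff.2 hW)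
  filter_upwards [h1] with x' hx' using ⟨j, W, hx', h⟩

theorem gd_self_target (x : Fib F s) : (s, (F.triv x.val x.val).2) ∈ (F.triv x.val).target :=
  gd_mem_target F (F.mem x.val) x.prop

theorem gd_symm_self (x : Fib F s) : (fibChart F s x).symm (F.triv x.val x.val).2 = x :=
  (fibChart F s x).left_inv (F.mem x.val)

/-- at good points the convergence is continuous -/
theorem Half.tendsto_seq [T2Space E'] (hM : StMon) (H : Half F F' s s' a b f)
    (hU : (𝒰 : Filter ℕ) ≤ atTop) {l : Fib F s → Fib F' s'} (hl : IsLim F F' s s' a f 𝒰 l)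
    {x : Fib F s} (hx : x ∈ H.Gd 𝒰) {q : ℕ → E} (hq : ∀ᶠ n in (𝒰 : Filter ℕ), F.p (q n) = a n)
    (hq' : Tendsto q 𝒰 (𝓝 x.val)) : Tendsto (fun n => f n (q n)) 𝒰 (𝓝 (l x).val) := by
  obtain ⟨j, ε, hε, h⟩ := (H.lgood_iff hU x _ (gd_self_target x)).2 (by rwa [gd_symm_self])
  obtain ⟨G, g1, -, -, g4⟩ := H.lim_chart hM hU hε (H.cpt j) (H.tgt j) h
  rw [tendsto_nhds_unique (hl x) (g1 _ (mem_ball_self hε)).2.2]
  have h1 : Tendsto (fun n => (F.triv x.val (q n)).2) 𝒰 (𝓝 (F.triv x.val x.val).2) :=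
    (continuousAt_snd.comp ((F.triv x.val).continuousAt (F.mem x.val))).tendsto.comp hq'
  refine (g4.comp (tendsto_id.prodMk h1)).congr' ?_
  filter_upwards [hq, hq'.eventually ((F.triv x.val).open_source.mem_nhds (F.mem x.val))]
    with n h2 h3
  simp only [Function.comp, id, uu, gd_symm_snd F h3 h2]

/-- the limit at good points, in any trivialisation -/
theorem Half.tendsto_chart [T2Space E'] (hM : StMon) (H : Half F F' s s' a b f)
    (hU : (𝒰 : Filter ℕ) ≤ atTop) {l : Fib F s → Fib F' s'} (hl : IsLim F F' s s' a f 𝒰 l)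
    (x : Fib F s) {v : V2} (hv : (s, v) ∈ (F.triv x.val).target)
    (hx : (fibChart F s x).symm v ∈ H.Gd 𝒰) :
    Tendsto (fun n => uu F a f x.val n v) 𝒰 (𝓝 (l ((fibChart F s x).symm v)).val) := by
  have h1 : Tendsto (fun n => ((a n, v) : T × V2)) 𝒰 (𝓝 (s, v)) :=
    (H.lima.mono_left hU).prodMk_nhds tendsto_const_nhds
  refine H.tendsto_seq hM hU hl hx (q := fun n => (F.triv x.val).symm (a n, v)) ?_ ?_
  · filter_upwards [h1.eventually ((F.triv x.val).open_target.mem_nhds hv)] with n hn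
    exact F.p_symm _ hn
  · rw [fibChart_symm_val F s x hv]
    exact ((F.triv x.val).continuousAt_symm hv).tendsto.comp h1

/-- near a good point, the points of the chart are good -/
theorem Half.eventually_gd (H : Half F F' s s' a b f) (x : Fib F s) {v : V2}
    (hv : (s, v) ∈ (F.triv x.val).target) (hx : (fibChart F s x).symm v ∈ H.Gd 𝒰) :
    ∀ᶠ w in 𝓝 v, (s, w) ∈ (F.triv x.val).target ∧ (fibChart F s x).symm w ∈ H.Gd 𝒰 :=
  Filter.Eventually.and ((fibChart F s x).open_target.mem_nhds hv)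
    (((fibChart F s x).continuousAt_symm hv).eventually (H.isOpen_gd.mem_nhds hx))

theorem Half.hol_lim [T2Space E'] (hM : StMon) (H : Half F F' s s' a b f)
    (hU : (𝒰 : Filter ℕ) ≤ atTop) {l : Fib F s → Fib F' s'} (hl : IsLim F F' s s' a f 𝒰 l)
    {x : Fib F s} (hx : x ∈ H.Gd 𝒰) : All.Hol l x := by
  have hv := gd_self_target x
  have hx' : (fibChart F s x).symm (F.triv x.val x.val).2 ∈ H.Gd 𝒰 := by rwa [gd_symm_self]
  obtain ⟨j, ε, hε, h⟩ := (H.lgood_iff hU x _ hv).2 hx'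
  obtain ⟨G, g1, g2, -, -⟩ := H.lim_chart hM hU hε (H.cpt j) (H.tgt j) h
  have h1 : (fun w => (l ((fibChart F s x).symm w)).val) =ᶠ[𝓝 (F.triv x.val x.val).2]
      fun w => (F'.triv (H.y j).val).symm (s', G w) := by
    filter_upwards [H.eventually_gd x hv hx', ball_mem_nhds _ hε] with w hw hw'
    exact tendsto_nhds_unique (H.tendsto_chart hM hU hl x hw.1 hw.2) (g1 w hw').2.2
  have h2 := (FH.mk_symm (F := F') (g2.differentiableAt (ball_mem_nhds _ hε))
    (H.tgt j _ (g1 _ (mem_ball_self hε)).1)).congr h1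
  refine ⟨isInducing_val.continuousAt_iff.2 ?_, ?_⟩
  · have h3 : ContinuousAt (fibChart F s x) x := (fibChart F s x).continuousAt (F.mem x.val)
    refine (ContinuousAt.comp (f := fibChart F s x) (x := x) h2.2.1 h3).congr ?_
    filter_upwards [(fibChart F s x).open_source.mem_nhds (F.mem x.val)] with z hz
    simp only [Function.comp, (fibChart F s x).left_inv hz]
  · have h3 := h2.2.2
    simp only [gd_symm_self] at h3
    exact h3

end

theorem good (hM : StMon) : StGood := by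
  intro T E T' E' _ _ _ _ _ F F' s s' a b f H 𝒰 hU
  exact ⟨H.exists_lim hU, H.lgood_iff hU, H.isOpen_gd, fun l hl x hx =>
    ⟨H.hol_lim hM hU hl hx, fun q hq hq' => H.tendsto_seq hM hU hl hx hq hq'⟩⟩

end Vale.Agent.P290Z.BR
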