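import Vale.Agent.P290Z.BR.SpecA
import Vale.Agent.P290Z.Spr
import Vale.Agent.P290Z.Inv

/-! P290Z, block BR: a Hartogs type lemma for maps to a compact surface. -/

open Set Filter Metric
open scoped Topology Manifold ContDiff

namespace Vale.Agent.P290Z.BR

open Vale.Agent.P290

namespace Hrt

/-- The Hartogs figure: extension by the Cauchy integral. -/
theorem cauchy {k : V2 → V2} {z₀ : ℂ} {ε s r ρ : ℝ} (hε : 0 < ε) (hs : 0 ≤ s) (hsr : s < r)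
    (hk : ∀ z ∈ ball z₀ ε, ∀ w : ℂ, s < ‖w‖ → ‖w‖ ≤ r →
      DifferentiableAt ℂ k (z, w) ∧ ‖k (z, w)‖ < ρ)
    (hf : ∃ᶠ z in 𝓝[≠] z₀, ∀ w ∈ closedBall (0 : ℂ) r, DifferentiableAt ℂ (fun w => k (z, w)) w) :
    ∃ H : V2 → V2, DifferentiableOn ℂ H (ball z₀ ε ×ˢ ball 0 r) ∧
      (∀ z ∈ ball z₀ ε, ∀ w : ℂ, s < ‖w‖ → ‖w‖ < r → H (z, w) = k (z, w)) ∧
      ∀ z ∈ ball z₀ ε, ∀ w ∈ ball (0 : ℂ) r, ‖H (z, w)‖ < ρ := by
  have hr : 0 < r := hs.trans_lt hsr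
  have hn : ∀ θ, ‖circleMap 0 r θ‖ = r := fun θ => by
    rw [norm_circleMap_zero, abs_of_pos hr]
  have hc : ∀ z ∈ ball z₀ ε, ∀ θ, DifferentiableAt ℂ k (z, circleMap 0 r θ) := fun z hz θ =>
    (hk z hz _ (by rw [hn]; exact hsr) (hn θ).le).1
  have hne : ∀ w ∈ ball (0 : ℂ) r, ∀ θ, circleMap 0 r θ - w ≠ 0 := fun w hw θ h => by
    rw [mem_ball_zero_iff, ← sub_eq_zero.1 h, hn] at hw
    exact lt_irrefl _ hw
  obtain ⟨H, hH⟩ : ∃ H : V2 → V2, ∀ p, H p = (2 * Real.pi * Complex.I : ℂ)⁻¹ •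
      ∮ ζ in C(0, r), (ζ - p.2)⁻¹ • k (p.1, ζ) := ⟨_, fun _ => rfl⟩
  have h1 : DifferentiableOn ℂ H (ball z₀ ε ×ˢ ball 0 r) := by
    rw [funext hH]
    refine DifferentiableOn.const_smul (differentiableOn_intervalIntegral
      (isOpen_ball.prod isOpen_ball) (G := fun (p : V2) θ => deriv (circleMap 0 r) θ •
        (circleMap 0 r θ - p.2)⁻¹ • k (p.1, circleMap 0 r θ)) (fun q hq => ?_) fun θ _ p hp => ?_)
      (2 * Real.pi * Complex.I : ℂ)⁻¹
    · have k1 : Continuous fun q : V2 × ℝ => circleMap 0 r q.2 :=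
        (continuous_circleMap 0 r).comp continuous_snd
      simp only [deriv_circleMap]
      refine ((k1.mul continuous_const).continuousAt.smul
        (((k1.sub continuous_fst.snd).continuousAt.inv₀ (hne _ hq.1.2 _)).smul
          (ContinuousAt.comp (f := fun q : V2 × ℝ => (q.1.1, circleMap 0 r q.2))
            (hc _ hq.1.1 _).continuousAt
            (continuous_fst.fst.prodMk k1).continuousAt))).continuousWithinAt
    · have k1 : DifferentiableAt ℂ (fun p : V2 => (circleMap 0 r θ - p.2)⁻¹) p :=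
        DifferentiableAt.fun_inv (by fun_prop) (hne _ hp.2 _)
      have k2 : DifferentiableAt ℂ (fun p : V2 => k (p.1, circleMap 0 r θ)) p :=
        DifferentiableAt.comp (f := fun p : V2 => (p.1, circleMap 0 r θ)) p (hc _ hp.1 _)
          (by fun_prop)
      exact ((k1.smul k2).const_smul (deriv (circleMap 0 r) θ)).differentiableWithinAt
  have h1' : ∀ z ∈ ball z₀ ε, ∀ w ∈ ball (0 : ℂ) r, DifferentiableAt ℂ H (z, w) :=
    fun z hz w hw => h1.differentiableAt ((isOpen_ball.prod isOpen_ball).mem_nhds ⟨hz, hw⟩)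
  have h2 : ∀ z ∈ ball z₀ ε, ∀ w : ℂ, s < ‖w‖ → ‖w‖ < r → H (z, w) = k (z, w) := by
    intro z hz w k1 k2
    have k3 : ∀ f : V2 → V2, (∀ z ∈ ball z₀ ε, DifferentiableAt ℂ f (z, w)) →
        AnalyticOnNhd ℂ (fun z => f (z, w)) (ball z₀ ε) := fun f hf =>
      DifferentiableOn.analyticOnNhd (fun z hz => (DifferentiableAt.comp
        (f := fun z : ℂ => (z, w)) z (hf z hz) (by fun_prop)).differentiableWithinAt) isOpen_ball
    refine (k3 H fun z hz => h1' z hz w (mem_ball_zero_iff.2 k2)).eqOn_of_preconnected_of_frequently_eq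
      (k3 k fun z hz => (hk z hz w k1 k2.le).1) (convex_ball _ _).isPreconnected (mem_ball_self hε)
      (hf.mono fun z h => ?_) hz
    rw [hH]
    refine DiffContOnCl.two_pi_i_inv_smul_circleIntegral_sub_inv_smul (f := fun w => k (z, w))
      (DifferentiableOn.diffContOnCl fun w hw => ?_) (mem_ball_zero_iff.2 k2)
    exact (h w (closure_ball_subset_closedBall hw)).differentiableWithinAt
  refine ⟨H, h1, h2, fun z hz w hw => ?_⟩
  obtain ⟨t, ht, htr⟩ := exists_between (max_lt hsr (mem_ball_zero_iff.1 hw))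
  have ht0 : 0 < t := hs.trans_lt ((le_max_left _ _).trans_lt ht)
  obtain ⟨ζ, k1, k2⟩ := Complex.exists_mem_frontier_isMaxOn_norm (f := fun w => H (z, w))
    (U := ball 0 t) isBounded_ball (nonempty_ball.2 ht0)
    (DifferentiableOn.diffContOnCl fun w hw => (DifferentiableAt.comp (f := fun w : ℂ => (z, w)) w
      (h1' z hz w (closedBall_subset_ball htr (closure_ball_subset_closedBall hw)))
      (by fun_prop)).differentiableWithinAt)
  rw [frontier_ball _ ht0.ne', mem_sphere_zero_iff_norm] at k1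
  have k3 : s < ‖ζ‖ := k1 ▸ (le_max_left _ _).trans_lt ht
  have k4 : ‖H (z, w)‖ ≤ ‖H (z, ζ)‖ :=
    k2 (subset_closure (mem_ball_zero_iff.2 ((le_max_right _ _).trans_lt ht)))
  rw [h2 z hz ζ k3 (k1 ▸ htr)] at k4
  exact k4.trans_lt (hk z hz ζ k3 (k1 ▸ htr.le)).2

variable {X : Type} [MetricSpace X] [ChartedSpace V2 X] [IsManifold 𝓘(ℂ, V2) ω X]

/-- The identity theorem for curves in a surface. -/
theorem ident {u v : ℂ → X} {S : Set ℂ} (hS : IsOpen S) (hc : IsPreconnected S)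
    (hu : ∀ w ∈ S, Md u w) (hv : ∀ w ∈ S, Md v w) {w₀ : ℂ} (h0 : w₀ ∈ S) (h : u =ᶠ[𝓝 w₀] v) :
    EqOn u v S := by
  have h1 : S ⊆ {w | u =ᶠ[𝓝 w] v} := by
    refine hc.subset_of_closure_inter_subset isOpen_setOfPred_eventually_nhds ⟨w₀, h0, h⟩ ?_
    rintro w ⟨k1, k2⟩
    by_contra k0
    have k3 : ∃ᶠ y in 𝓝[≠] w, u y = v y := by
      rw [frequently_nhdsWithin_iff]
      exact (mem_closure_iff_frequently.1 k1).mono fun y hy =>
        ⟨hy.self_of_nhds, fun e => k0 (mem_singleton_iff.1 e ▸ hy)⟩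
    have k4 : u w = v w := tendsto_nhds_unique_of_frequently_eq (hu w k2).continuousAt
      (hv w k2).continuousAt (k3.filter_mono nhdsWithin_le_nhds)
    have k5 : ∀ f : ℂ → X, (∀ w ∈ S, Md f w) → f w = u w →
        (∀ᶠ y in 𝓝 w, f y ∈ (chartAt V2 (u w)).source) ∧
          AnalyticAt ℂ (fun y => chartAt V2 (u w) (f y)) w := fun f hf e => by
      have k5 : ∀ᶠ y in 𝓝 w, f y ∈ (chartAt V2 (u w)).source := (hf w k2).continuousAt.eventually
        ((chartAt V2 (u w)).open_source.mem_nhds (e ▸ mem_chart_source V2 (f w)))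
      refine ⟨k5, Complex.analyticAt_iff_eventually_differentiableAt.2 ?_⟩
      filter_upwards [k5, hS.mem_nhds k2] with y k6 k7 using Inv.md_chart (hf y k7) k6
    obtain ⟨a1, a2⟩ := k5 u hu rfl
    obtain ⟨b1, b2⟩ := k5 v hv k4.symm
    refine k0 ?_
    filter_upwards [a1, b1, (a2.frequently_eq_iff_eventually_eq b2).1
      (k3.mono fun y hy => by rw [hy])] with y k6 k7 k8
    exact (chartAt V2 (u w)).injOn k6 k7 k8
  exact fun w hw => (h1 hw).self_of_nhds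

/-- A slice which is a uniform limit of other slices is good. -/
theorem key {Φ : V2 → X} {D : Set ℂ} {r₁ r r₂ : ℝ} (hD : IsOpen D) (h0 : 0 < r₁) (h1 : r₁ < r)
    (h2 : r < r₂) (hc : ∀ z ∈ D, ∀ w : ℂ, r₁ < ‖w‖ → ‖w‖ < r₂ → Md Φ (z, w))
    (hs : ∀ z ∈ D, ∀ w : ℂ, ‖w‖ < r₂ → Md (fun w : ℂ => Φ (z, w)) w) {z₀ : ℂ} (hz : z₀ ∈ D)
    (hf : ∀ δ > (0 : ℝ), ∃ᶠ z in 𝓝[≠] z₀, z ∈ D ∧ ∀ w ∈ closedBall (0 : ℂ) r,
      dist (Φ (z, w)) (Φ (z₀, w)) < δ) :
    ∀ᶠ z in 𝓝 z₀, ∀ w : ℂ, ‖w‖ < r₂ → Md Φ (z, w) := by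
  have hK : IsCompact (closedBall (0 : ℂ) r) := isCompact_closedBall _ _
  have hK2 : ∀ w ∈ closedBall (0 : ℂ) r, ‖w‖ < r₂ := fun w hw =>
    (mem_closedBall_zero_iff.1 hw).trans_lt h2
  obtain ⟨F, hF, hF0, hFe⟩ := spr' ℂ X _ ⟨hK, convex_closedBall _ _⟩ (fun w => Φ (z₀, w))
    (mem_of_superset (isOpen_ball.mem_nhdsSet.2 (closedBall_subset_ball h2)) fun w hw =>
      hs z₀ hz w (mem_ball_zero_iff.1 hw))
  obtain ⟨ρ, hρ, -, U, M, ψ, -, hU, hM, hψ, -, k1, k2⟩ := inv ℂ X _ hK F hF hFe 1 one_pos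
  have k3 : (fun w => (w, Φ (z₀, w))) '' closedBall (0 : ℂ) r ⊆ M := by
    rintro _ ⟨w, hw, rfl⟩
    have k3 := (k1 w (hU hw) 0 (by rwa [norm_zero])).2.2.1
    rwa [hF0.self_of_nhdsSet w hw] at k3
  obtain ⟨δ, hδ, k4⟩ := (hK.image_of_continuousOn fun w hw => (continuousAt_id.prodMk
    (hs z₀ hz w (hK2 w hw)).continuousAt).continuousWithinAt).exists_thickening_subset_open hM k3
  obtain ⟨s, hs1, hs2⟩ := exists_between h1
  have hA : IsCompact (closedBall (0 : ℂ) r \ ball 0 s) := hK.diff isOpen_ball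
  have k5 : ∀ᶠ z in 𝓝 z₀, ∀ w ∈ closedBall (0 : ℂ) r \ ball 0 s, (w, Φ (z, w)) ∈ M :=
    hA.eventually_forall_of_forall_eventually fun w hw =>
      (continuousAt_snd.prodMk (hc z₀ hz w (hs1.trans_le (not_lt.1 fun h =>
        hw.2 (mem_ball_zero_iff.2 h))) (hK2 w hw.1)).continuousAt).eventually
          (hM.mem_nhds (k3 ⟨w, hw.1, rfl⟩))
  obtain ⟨ε, hε, k6⟩ := Metric.eventually_nhds_iff_ball.1 (k5.and (hD.mem_nhds hz))
  have k7 : ∀ z ∈ ball z₀ ε, ∀ w : ℂ, s < ‖w‖ → ‖w‖ ≤ r → (w, Φ (z, w)) ∈ M :=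
    fun z hz w a b => (k6 z hz).1 w ⟨mem_closedBall_zero_iff.2 b, fun h =>
      lt_asymm a (mem_ball_zero_iff.1 h)⟩
  obtain ⟨H, a1, a2, a3⟩ := cauchy (k := fun p => ψ (p.2, Φ p)) (ρ := ρ) hε
    (h0.trans hs1).le hs2 (fun z hz w a b => ⟨hψ V2 Prod.snd Φ (z, w) differentiableAt_snd
      (hc z (k6 z hz).2 w (hs1.trans a) (b.trans_lt h2)) (k7 z hz w a b),
      (k2 _ (k7 z hz w a b)).2.1⟩)
    ((hf δ hδ).mono fun z h w hw => hψ ℂ id (fun w => Φ (z, w)) w differentiableAt_id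
      (hs z h.1 w (hK2 w hw)) (k4 (mem_thickening_iff.2 ⟨_, ⟨w, hw, rfl⟩,
        max_lt ((dist_self w).trans_lt hδ) (h.2 w hw)⟩)))
  have hW : IsOpen (ball z₀ ε ×ˢ ball (0 : ℂ) r) := isOpen_ball.prod isOpen_ball
  have b1 : ∀ p ∈ ball z₀ ε ×ˢ ball (0 : ℂ) r, Md (fun p : V2 => F (p.2, H p)) p := fun p hp =>
    Inv.md_comp (q := fun p : V2 => (p.2, H p))
      (k1 p.2 (hU (ball_subset_closedBall hp.2)) (H p) (a3 p.1 hp.1 p.2 hp.2)).1
      (differentiableAt_snd.prodMk (a1.differentiableAt (hW.mem_nhds hp)))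
  have b2 : ∀ p ∈ ball z₀ ε ×ˢ ball (0 : ℂ) r, Φ p = F (p.2, H p) := by
    rintro ⟨z, w⟩ hp
    obtain ⟨t, ht1, ht2⟩ := exists_between hs2
    have ht : ‖(t : ℂ)‖ = t := by
      rw [Complex.norm_real, Real.norm_of_nonneg ((h0.trans hs1).trans ht1).le]
    refine ident (u := fun w => Φ (z, w)) (v := fun w => F (w, H (z, w))) isOpen_ball
      (convex_ball _ _).isPreconnected
      (fun w hw => hs z (k6 z hp.1).2 w ((mem_ball_zero_iff.1 hw).trans h2))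
      (fun w hw => Inv.md_comp (q := fun w : ℂ => ((z, w) : V2)) (b1 (z, w) ⟨hp.1, hw⟩)
        (by fun_prop)) (w₀ := t) (mem_ball_zero_iff.2 (ht.symm ▸ ht2)) ?_ hp.2
    filter_upwards [continuous_norm.continuousAt.eventually
      (Ioo_mem_nhds (ht.symm ▸ ht1 : s < ‖(t : ℂ)‖) (ht.symm ▸ ht2 : ‖(t : ℂ)‖ < r))] with y hy
    rw [a2 z hp.1 y hy.1 hy.2]
    exact (k2 _ (k7 z hp.1 y hy.1 hy.2.le)).2.2.symm
  filter_upwards [ball_mem_nhds z₀ hε] with z hz w hw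
  rcases lt_or_ge ‖w‖ r with h | h
  · exact (b1 (z, w) ⟨hz, mem_ball_zero_iff.2 h⟩).congr_of_eventuallyEq
      (mem_of_superset (hW.mem_nhds ⟨hz, mem_ball_zero_iff.2 h⟩) b2)
  · exact hc z (k6 z hz).2 w (h1.trans_le h) hw

end Hrt

theorem hart : StHart := by
  intro X _ _ _ _ Φ D r₁ r₂ hD h0 h12 hc hs
  obtain ⟨r, h1, h2⟩ := exists_between h12
  obtain ⟨t, -, htc, ht⟩ := TopologicalSpace.countable_cover_nhdsWithin
    (s := {p : ℂ × C(closedBall (0 : ℂ) r, X) | (p.1 ∈ D ∧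
      ¬ ∀ᶠ z' in 𝓝 p.1, ∀ w : ℂ, ‖w‖ < r₂ → Md Φ (z', w)) ∧ ∀ w, p.2 w = Φ (p.1, w)})
    (f := fun p => {p}) fun p hp => by
      by_contra k0
      refine hp.1.2 (Hrt.key hD h0 h1 h2 hc hs hp.1.1 fun δ hδ => ?_)
      rw [(nhdsWithin_hasBasis nhds_basis_ball _).frequently_iff]
      intro ε hε
      rw [(nhdsWithin_hasBasis nhds_basis_ball _).mem_iff] at k0
      obtain ⟨q, hq, hne⟩ := not_subset.1 fun h => k0 ⟨min ε δ, lt_min hε hδ, h⟩
      have k1 := max_lt_iff.1 (Prod.dist_eq.symm.trans_lt (mem_ball.1 hq.1))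
      refine ⟨q.1, ⟨k1.1.trans_le (min_le_left _ _), fun e => hne (Prod.ext e ?_)⟩, hq.2.1.1,
        fun w hw => ?_⟩
      · ext w
        rw [hq.2.2, hp.2, mem_singleton_iff.1 e]
      · rw [← hq.2.2 ⟨w, hw⟩, ← hp.2 ⟨w, hw⟩]
        exact (ContinuousMap.dist_apply_le_dist _).trans_lt (k1.2.trans_le (min_le_right _ _))
  refine (htc.image Prod.fst).mono fun z hz => ?_
  obtain ⟨q, hq, e⟩ := mem_iUnion₂.1 (ht (a := (z, ⟨fun w => Φ (z, w),
    continuous_iff_continuousAt.2 fun w => ContinuousAt.comp (f := fun w : closedBall (0 : ℂ) r =>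
      (w : ℂ)) (hs z hz.1 w ((mem_closedBall_zero_iff.1 w.2).trans_lt h2)).continuousAt
        continuous_subtype_val.continuousAt⟩)) ⟨hz, fun _ => rfl⟩)
  exact ⟨q, hq, by rw [← mem_singleton_iff.1 e]⟩

end Vale.Agent.P290Z.BR
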