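import Vale.Agent.P290Z.BR.Good
import Vale.Agent.P290.Bdl.B1

/-! P290Z, block BR, step LAW: the limit of the determinants. -/

open Set Filter Metric MeasureTheory
open scoped Topology Manifold ContDiff

namespace Vale.Agent.P290Z.BR

open Vale.Agent.P290 Vale.Agent.P290.H805

section

variable {T E T' E' : Type} [TopologicalSpace T] [TopologicalSpace E] [TopologicalSpace T']
  [TopologicalSpace E'] {F : Family T E} {F' : Family T' E'} {s : T} {s' : T'} {a : ℕ → T}
  {b : ℕ → T'} {f : ℕ → E → E'} {𝒰 : Ultrafilter ℕ} {vol : E → T × V2 → ℂ}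
  {vol' : E' → T' × V2 → ℂ} {c : ℕ → ℂ}

/-- the left side of the law converges -/
theorem Half.tendsto_lhs (H : Half F F' s s' a b f) (hU : (𝒰 : Filter ℕ) ≤ atTop)
    (hv' : VolOk F' vol') {x : E} {y : E'} {v z : V2} {A : V2 →L[ℂ] V2}
    (hz : (s', z) ∈ (F'.triv y).target)
    (h1 : Tendsto (fun n => hh F F' a f x n y v) 𝒰 (𝓝 z))
    (h2 : Tendsto (fun n => fderiv ℂ (hh F F' a f x n y) v) 𝒰 (𝓝 A)) :
    Tendsto (fun n => vol' y (b n, hh F F' a f x n y v) * (fderiv ℂ (hh F F' a f x n y) v).det)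
      𝒰 (𝓝 (vol' y (s', z) * A.det)) :=
  ((hv' y _ hz).1.tendsto.comp ((H.limb.mono_left hU).prodMk_nhds h1)).mul
    ((ContinuousLinearMap.continuous_det.tendsto A).comp h2)

theorem Half.tendsto_vol (H : Half F F' s s' a b f) (hU : (𝒰 : Filter ℕ) ≤ atTop)
    (hv : VolOk F vol) {x : E} {v : V2} (hz : (s, v) ∈ (F.triv x).target) :
    Tendsto (fun n => vol x (a n, v)) 𝒰 (𝓝 (vol x (s, v))) :=
  (hv x _ hz).1.tendsto.comp ((H.lima.mono_left hU).prodMk_nhds tendsto_const_nhds)

theorem Half.exists_const (hM : StMon) (H : Half F F' s s' a b f) (hU : (𝒰 : Filter ℕ) ≤ atTop)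
    (hv : VolOk F vol) (hv' : VolOk F' vol') (hL : Law F F' vol vol' a b f c) {x : Fib F s}
    (hx : x ∈ H.Gd 𝒰) : ∃ c₀ : ℂ, Tendsto c 𝒰 (𝓝 c₀) := by
  have ht := gd_self_target x
  obtain ⟨j, ε, hε, h⟩ := (H.lgood_iff hU x _ ht).2 (by rwa [gd_symm_self])
  obtain ⟨G, g1, -, g3, -⟩ := H.lim_chart hM hU hε (H.cpt j) (H.tgt j) h
  have g0 := g1 _ (mem_ball_self hε)
  refine ⟨_, ((H.tendsto_lhs hU hv' (H.tgt j _ g0.1) g0.2.1 g3).div
    (H.tendsto_vol hU hv ht) (hv _ _ ht).2).congr' ?_⟩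
  filter_upwards [h] with n hn
  have h1 := (hn _ (mem_ball_self hε)).1
  simp only [Pi.div_apply]
  rw [hL n _ _ _ h1, mul_div_cancel_right₀ _ (hv _ _ h1.1).2]

/-- the law for the limit, at good points -/
theorem Half.law_lim [T2Space E'] (hM : StMon) (H : Half F F' s s' a b f)
    (hU : (𝒰 : Filter ℕ) ≤ atTop) (hv : VolOk F vol) (hv' : VolOk F' vol')
    (hL : Law F F' vol vol' a b f c) {l : Fib F s → Fib F' s'} (hl : IsLim F F' s s' a f 𝒰 l)
    {c₀ : ℂ} (hc : Tendsto c 𝒰 (𝓝 c₀)) (x : Fib F s) (y : E') {v : V2}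
    (ht : (s, v) ∈ (F.triv x.val).target) (hx : (fibChart F s x).symm v ∈ H.Gd 𝒰)
    (hy : (l ((fibChart F s x).symm v)).val ∈ (F'.triv y).source) :
    vol' y (s', (F'.triv y (l ((fibChart F s x).symm v)).val).2) *
      (fderiv ℂ (fun w => (F'.triv y (l ((fibChart F s x).symm w)).val).2) v).det =
        c₀ * vol x.val (s, v) := by
  set z := (F'.triv y (l ((fibChart F s x).symm v)).val).2 with hz
  have hzt : (s', z) ∈ (F'.triv y).target := gd_mem_target F' hy (Fib.prop _)
  obtain ⟨r, hr, hrt⟩ := Metric.nhds_basis_closedBall.mem_iff.1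
    ((Continuous.prodMk_right s').continuousAt.preimage_mem_nhds
      ((F'.triv y).open_target.mem_nhds hzt))
  obtain ⟨j, ε, hε, h⟩ := (H.lgood_iff hU x _ ht).2 hx
  obtain ⟨G, g1, -, -, g4⟩ := H.lim_chart hM hU hε (H.cpt j) (H.tgt j) h
  rw [← tendsto_nhds_unique (H.tendsto_chart hM hU hl x ht hx) (g1 _ (mem_ball_self hε)).2.2]
    at g4
  have h1 : ∀ᶠ q in 𝓝 (l ((fibChart F s x).symm v)).val,
      q ∈ (F'.triv y).source ∧ (F'.triv y q).2 ∈ closedBall z r :=
    Filter.Eventually.and ((F'.triv y).open_source.mem_nhds hy)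
      ((continuousAt_snd.comp ((F'.triv y).continuousAt hy)).eventually
        (p := fun w => w ∈ closedBall z r) (closedBall_mem_nhds z hr))
  obtain ⟨A, hA, B, hB, hAB⟩ := eventually_prod_iff.1 (g4.eventually h1)
  obtain ⟨ρ, hρ, hB'⟩ := Metric.eventually_nhds_iff_ball.1
    (hB.and (ball_mem_nhds v hε : ∀ᶠ w in 𝓝 v, w ∈ ball v ε))
  have h2 : ∀ᶠ n in (𝒰 : Filter ℕ), ∀ w ∈ ball v ρ,
      w ∈ OO F F' a f x.val n y ∧ hh F F' a f x.val n y w ∈ closedBall z r := by
    filter_upwards [h, hA] with n hn hn' w hw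
    have h3 := hAB hn' (hB' w hw).1
    exact ⟨⟨(hn w (hB' w hw).2).1.1, h3.1⟩, h3.2⟩
  obtain ⟨G', k1, -, k3, -⟩ := H.lim_chart hM hU hρ (isCompact_closedBall z r) hrt h2
  have h3 : (fun w => (F'.triv y (l ((fibChart F s x).symm w)).val).2) =ᶠ[𝓝 v] G' := by
    filter_upwards [H.eventually_gd x ht hx, ball_mem_nhds v hρ] with w hw hw'
    rw [tendsto_nhds_unique (H.tendsto_chart hM hU hl x hw.1 hw.2) (k1 w hw').2.2,
      (F'.triv y).right_inv (hrt (k1 w hw').1)]
  have h4 : z = G' v := h3.self_of_nhds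
  rw [h3.fderiv_eq, h4]
  have k0 := k1 v (mem_ball_self hρ)
  refine tendsto_nhds_unique (H.tendsto_lhs hU hv' (hrt k0.1) k0.2.1 k3)
    ((hc.mul (H.tendsto_vol hU hv ht)).congr' ?_)
  filter_upwards [h2] with n hn
  exact (hL n _ _ _ (hn v (mem_ball_self hρ)).1).symm

/-- holomorphic maps between fibres, in a trivialisation of the source -/
theorem fh_of_hol {g : Fib F s → Fib F' s'} (x : Fib F s) {v : V2}
    (ht : (s, v) ∈ (F.triv x.val).target) (hg : All.Hol g ((fibChart F s x).symm v)) :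
    FH F' s' (fun w => (g ((fibChart F s x).symm w)).val) v := by
  set x' := (fibChart F s x).symm v with hx'
  have hc : ContinuousAt (fibChart F s x).symm v := (fibChart F s x).continuousAt_symm ht
  have hxv : x'.val = (F.triv x.val).symm (s, v) := fibChart_symm_val F s x ht
  refine ⟨Eventually.of_forall fun w => Fib.prop _,
    continuous_val.continuousAt.comp (ContinuousAt.comp (g := g) hg.1 hc), ?_⟩
  have h1 : DifferentiableAt ℂ (fun w => (F.triv x'.val ((F.triv x.val).symm (s, w))).2) v :=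
    (F.hol x.val x'.val s v ht (hxv ▸ F.mem x'.val)).differentiableAt (by simp)
  have h2 : DifferentiableAt ℂ
      (fun z => (F'.triv (g x').val (g ((fibChart F s x').symm z)).val).2)
      (F.triv x'.val ((F.triv x.val).symm (s, v))).2 := by
    rw [← hxv]
    exact hg.2
  refine (DifferentiableAt.comp
    (f := fun w => (F.triv x'.val ((F.triv x.val).symm (s, w))).2) v h2 h1).congr_of_eventuallyEq ?_
  filter_upwards [(fibChart F s x).open_target.mem_nhds ht,
    hc.eventually ((fibChart F s x').open_source.mem_nhds (F.mem x'.val))] with w hw hw'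
  simp only [Function.comp]
  rw [← fibChart_symm_val F s x hw, ← fibChart_apply F s x', (fibChart F s x').left_inv hw']

theorem Half.extEt [T2Space E'] (hM : StMon) (H : Half F F' s s' a b f)
    (hU : (𝒰 : Filter ℕ) ≤ atTop) (hv : VolOk F vol) (hv' : VolOk F' vol')
    (hL : Law F F' vol vol' a b f c) {l : Fib F s → Fib F' s'} (hl : IsLim F F' s s' a f 𝒰 l)
    (hd : Dense (H.Gd 𝒰)) {c₀ : ℂ} (hc0 : c₀ ≠ 0) (hc : Tendsto c 𝒰 (𝓝 c₀)) :
    ExtEt l (H.Gd 𝒰) := by
  intro N hN g hg hgl x hx h0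
  set v := (F.triv x.val x.val).2 with hvx
  have ht : (s, v) ∈ (F.triv x.val).target := gd_self_target x
  have hs : (fibChart F s x).symm v = x := gd_symm_self x
  set G : V2 → V2 := fun w => (F'.triv (g x).val (g ((fibChart F s x).symm w)).val).2 with hG
  have hdet : (fderiv ℂ G v).det = 0 := h0
  have hc1 : ContinuousAt (fibChart F s x).symm v := (fibChart F s x).continuousAt_symm ht
  have h1 : ∀ᶠ w in 𝓝 v, (s, w) ∈ (F.triv x.val).target ∧ (fibChart F s x).symm w ∈ N :=
    Filter.Eventually.and ((fibChart F s x).open_target.mem_nhds ht)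
      (hc1.eventually (hN.mem_nhds (by rwa [hs])))
  have h2 : ∀ᶠ w in 𝓝 v, (g ((fibChart F s x).symm w)).val ∈ (F'.triv (g x).val).source :=
    (fh_of_hol x ht (hg _ (by rwa [hs]))).eventually_source (by
      rw [hs]
      exact F'.mem _)
  have h3 : ∀ᶠ w in 𝓝 v, DifferentiableAt ℂ G w := by
    filter_upwards [h1, h2] with w hw hw' using (fh_of_hol x hw.1 (hg _ hw.2)).diff hw'
  have hzt : (s', G v) ∈ (F'.triv (g x).val).target :=
    gd_mem_target F' h2.self_of_nhds (Fib.prop _)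
  have h4 : ContinuousAt (fun w => vol' (g x).val (s', G w) * (fderiv ℂ G w).det -
      c₀ * vol x.val (s, w)) v := by
    refine (ContinuousAt.mul ?_ ?_).sub (continuousAt_const.mul ?_)
    · exact ContinuousAt.comp (f := fun w => ((s', G w) : T' × V2)) (hv' _ _ hzt).1
        (continuousAt_const.prodMk h3.self_of_nhds.continuousAt)
    · exact ContinuousLinearMap.continuous_det.continuousAt.comp
        ((contDiffAt_of_eventually h3 1).continuousAt_fderiv (by simp))
    · exact ContinuousAt.comp (f := fun w => ((s, w) : T × V2)) (hv _ _ ht).1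
        (Continuous.prodMk_right s).continuousAt
  have h5 : vol' (g x).val (s', G v) * (fderiv ℂ G v).det - c₀ * vol x.val (s, v) ≠ 0 := by
    rw [hdet, mul_zero, zero_sub, neg_ne_zero]
    exact mul_ne_zero hc0 (hv _ _ ht).2
  have h6 : ∀ᶠ x' in 𝓝 x, x' ∈ (fibChart F s x).source ∧
      ((s, fibChart F s x x') ∈ (F.triv x.val).target ∧
        (fibChart F s x).symm (fibChart F s x x') ∈ N) ∧
      (g ((fibChart F s x).symm (fibChart F s x x'))).val ∈ (F'.triv (g x).val).source ∧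
      vol' (g x).val (s', G (fibChart F s x x')) * (fderiv ℂ G (fibChart F s x x')).det -
        c₀ * vol x.val (s, fibChart F s x x') ≠ 0 :=
    Filter.Eventually.and ((fibChart F s x).open_source.mem_nhds (F.mem x.val))
      (((fibChart F s x).continuousAt (F.mem x.val)).eventually
        (h1.and (h2.and (h4.eventually_ne h5))))
  obtain ⟨x', ⟨k1, ⟨k2, k3⟩, k4, k5⟩, k6⟩ := mem_closure_iff_nhds.1 (hd x) _ h6
  rw [← (fibChart F s x).left_inv k1] at k6
  have h7 : G =ᶠ[𝓝 (fibChart F s x x')]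
      fun w => (F'.triv (g x).val (l ((fibChart F s x).symm w)).val).2 := by
    filter_upwards [H.eventually_gd x k2 k6,
      ((fibChart F s x).continuousAt_symm k2).eventually (hN.mem_nhds k3)] with w hw hw'
    simp only [hG, hgl _ hw' hw.2]
  apply k5
  rw [h7.fderiv_eq, h7.self_of_nhds, sub_eq_zero]
  exact H.law_lim hM hU hv hv' hL hl hc x _ k2 k6 (by rwa [← hgl _ k3 k6])

end

theorem law' (hM : StMon) : StLaw := by
  intro T E T' E' _ _ _ _ _ F F' s s' a b f H 𝒰 hU vol vol' c hv hv' hL l hl hd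
  refine ⟨fun hne => ?_, fun c₀ hc0 hc => H.extEt hM hU hv hv' hL hl hd hc0 hc⟩
  obtain ⟨x, hx⟩ := hd.nonempty
  exact H.exists_const hM hU hv hv' hL hx

theorem law (hM : StMon) (_hG : StGood) : StLaw := law' hM

end Vale.Agent.P290Z.BR
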