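import Vale.Agent.P290Z.BR.SpecA
import Vale.Agent.P299.H720.Montel

/-! P290Z, part III, block BR: limits of bounded holomorphic maps along a filter. -/

open Set Filter Metric
open scoped Topology

namespace Vale.Agent.P290Z.BR

open Vale.Agent.P299.H720

/-- MON: limits of bounded holomorphic maps along a filter -/
theorem mon : StMon := by
  intro W _ _ _ 𝓕 _ h H x ε M hε hb hlim
  have : ProperSpace W := FiniteDimensional.proper ℂ W
  have key : ∀ 𝒰 : Ultrafilter ℕ, (𝒰 : Filter ℕ) ≤ 𝓕 →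
      LocBdd (𝒰 : Filter ℕ) h (ball x ε) ∧ DifferentiableOn ℂ H (ball x ε) ∧
      TendstoLocallyUniformlyOn h H (𝒰 : Filter ℕ) (ball x ε) ∧
      ∀ u : ℕ → W, Tendsto u 𝒰 (𝓝 x) → Tendsto (fun j => h j (u j)) 𝒰 (𝓝 (H x)) := by
    intro 𝒰 h𝒰
    have hL : LocBdd (𝒰 : Filter ℕ) h (ball x ε) := by
      intro y hy
      obtain ⟨r, hr, hry⟩ := Metric.isOpen_iff.1 isOpen_ball y hy
      refine ⟨r, hr, M, ?_⟩
      filter_upwards [hb.filter_mono h𝒰] with n hn
      exact ⟨hn.1.mono hry, fun z hz => hn.2 z (hry hz)⟩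
    obtain ⟨g, hg1, hg2, hg3⟩ := montel_full 𝒰 isOpen_ball hL
    have hgH : EqOn g H (ball x ε) := fun y hy =>
      tendsto_nhds_unique (hg3 y hy (fun _ => y) tendsto_const_nhds) ((hlim y hy).mono_left h𝒰)
    refine ⟨hL, hg1.congr fun y hy => (hgH hy).symm, hg2.congr_right hgH, fun u hu => ?_⟩
    rw [← hgH (mem_ball_self hε)]
    exact hg3 x (mem_ball_self hε) u hu
  refine ⟨(key (Ultrafilter.of 𝓕) (Ultrafilter.of_le 𝓕)).2.1, ?_, ?_, ?_⟩
  · rw [Metric.tendstoUniformlyOn_iff]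
    intro η hη
    refine (Filter.mem_iff_ultrafilter).2 fun 𝒰 h𝒰 => ?_
    have h1 := (tendstoLocallyUniformlyOn_iff_forall_isCompact isOpen_ball).1 (key 𝒰 h𝒰).2.2.1
      (closedBall x (ε / 2)) (closedBall_subset_ball (by linarith)) (isCompact_closedBall _ _)
    have h2 := Metric.tendstoUniformlyOn_iff.1 (h1.mono ball_subset_closedBall) η hη
    exact h2
  · refine (tendsto_iff_ultrafilter _ _ _).2 fun 𝒰 h𝒰 => ?_
    obtain ⟨h1, h2, h3, -⟩ := key 𝒰 h𝒰
    exact montel_fderiv (u := fun _ => x) isOpen_ball h1 h2 h3 (mem_ball_self hε)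
      tendsto_const_nhds
  · intro y hy
    refine (tendsto_iff_ultrafilter _ _ _).2 fun 𝒰 h𝒰 => ?_
    exact (key 𝒰 h𝒰).2.2.2 y (hy.mono_left h𝒰)

end Vale.Agent.P290Z.BR
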