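import Vale.Agent.P290Z.BR.SpecA

/-! P290Z, block BR: the corrected limit map -/

open Set Filter Metric MeasureTheory
open scoped Topology Manifold ContDiff

namespace Vale.Agent.P290Z.BR

namespace PhiX

variable {X : Type} [MetricSpace X] [ChartedSpace V2 X] [IsManifold 𝓘(ℂ, V2) ω X]
  {ι : Type} {e : ι → OpenPartialHomeomorph X V2} {𝒰 : Ultrafilter ℕ} {K : ι → Set V2}

/-- at a good point the limit is holomorphic -/
theorem md_of_good (hM : StMon) (he : ∀ j, e j ∈ atlas V2 X) (hK : ∀ j, IsCompact (K j))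
    {W : Type} [NormedAddCommGroup W] [NormedSpace ℂ W] [FiniteDimensional ℂ W]
    {O : ℕ → ι → Set W} {h : ℕ → ι → W → V2} {G : W → X} {x : W}
    (hd : ∀ᶠ n in (𝒰 : Filter ℕ), ∀ j, DifferentiableOn ℂ (h n j) (O n j))
    (hG : ∀ᶠ y in 𝓝 x, ∀ j, (∀ᶠ n in (𝒰 : Filter ℕ), y ∈ O n j ∧ h n j y ∈ K j) →
      G y ∈ (e j).source ∧ Tendsto (fun n => h n j y) 𝒰 (𝓝 (e j (G y))))
    (hx : LGood 𝒰 K O h x) : Md G x := by
  obtain ⟨j, ε, hε, h1⟩ := hx
  obtain ⟨ε', hε', h2⟩ := Metric.eventually_nhds_iff_ball.1 hG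
  obtain ⟨M, hM'⟩ := (hK j).isBounded.exists_norm_le
  have hp : 0 < min ε ε' := lt_min hε hε'
  have h3 : ∀ y ∈ ball x (min ε ε'), G y ∈ (e j).source ∧
      Tendsto (fun n => h n j y) 𝒰 (𝓝 (e j (G y))) := fun y hy =>
    h2 y (ball_subset_ball (min_le_right _ _) hy) j
      (h1.mono fun n hn => hn y (ball_subset_ball (min_le_left _ _) hy))
  have h4 := (hM W 𝒰 (fun n => h n j) (fun y => e j (G y)) x (min ε ε') M hp
    ((h1.and hd).mono fun n hn =>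
      ⟨(hn.2 j).mono fun y hy => (hn.1 y (ball_subset_ball (min_le_left _ _) hy)).1,
        fun y hy => hM' _ (hn.1 y (ball_subset_ball (min_le_left _ _) hy)).2⟩)
    fun y hy => (h3 y hy).2).1
  have h5 : MDifferentiableAt 𝓘(ℂ, W) 𝓘(ℂ, V2) (fun y => e j (G y)) x :=
    (h4.differentiableAt (ball_mem_nhds x hp)).mdifferentiableAt
  have h6 : MDifferentiableAt 𝓘(ℂ, V2) 𝓘(ℂ, V2) (e j).symm (e j (G x)) :=
    mdifferentiableAt_atlas_symm (he j) ((e j).map_source (h3 x (mem_ball_self hp)).1)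
  refine (h6.comp x h5).congr_of_eventuallyEq ?_
  filter_upwards [ball_mem_nhds x hp] with y hy
  exact ((e j).left_inv (h3 y hy).1).symm

omit [ChartedSpace V2 X] [IsManifold 𝓘(ℂ, V2) ω X] in
theorem unif [Finite ι] (hK : ∀ j, IsCompact (K j)) (ht : ∀ j, K j ⊆ (e j).target) {θ : ℝ}
    (hθ : 0 < θ) : ∃ θ' > (0 : ℝ), ∀ j, ∀ a ∈ K j, ∀ b ∈ K j, ‖a - b‖ ≤ θ' →
      dist ((e j).symm a) ((e j).symm b) ≤ θ := by
  have h1 : ∀ j, ∀ᶠ t in 𝓝[>] (0 : ℝ), ∀ a ∈ K j, ∀ b ∈ K j, ‖a - b‖ ≤ t →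
      dist ((e j).symm a) ((e j).symm b) ≤ θ := by
    intro j
    obtain ⟨d, hd, h⟩ := Metric.uniformContinuousOn_iff_le.1
      ((hK j).uniformContinuousOn_of_continuous ((e j).continuousOn_symm.mono (ht j))) θ hθ
    filter_upwards [Ioc_mem_nhdsGT hd] with t ht' a ha b hb hab
    exact h a ha b hb ((dist_eq_norm a b).trans_le (hab.trans ht'.2))
  obtain ⟨t, h2, h3⟩ := ((eventually_all.2 h1).and self_mem_nhdsWithin).exists
  exact ⟨t, h3, h2⟩

theorem good_slice {O : ℕ → ι → Set V2} {h : ℕ → ι → V2 → V2} {z w : ℂ}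
    (hx : LGood 𝒰 K O h (z, w)) :
    LGood 𝒰 K (fun n j => {w : ℂ | (z, w) ∈ O n j}) (fun n j w => h n j (z, w)) w := by
  obtain ⟨j, ε, hε, h1⟩ := hx
  refine ⟨j, ε, hε, h1.mono fun n hn x hx => hn (z, x) ?_⟩
  rw [mem_ball, Prod.dist_eq, dist_self]
  exact max_lt hε hx

theorem ev_not_mem {S : Set ℂ} (hS : S.Finite) (w : ℂ) : ∀ᶠ w' in 𝓝 w, w' ≠ w → w' ∉ S := by
  have h : (S \ {w})ᶜ ∈ 𝓝 w :=
    (hS.subset sdiff_subset).isClosed.isOpen_compl.mem_nhds fun h => h.2 rfl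
  filter_upwards [h] with w' h1 h2 h3
  exact h1 ⟨h3, h2⟩

theorem mem_two {z w : ℂ} (hz : ‖z‖ ≤ 2) (hw : ‖w‖ ≤ 2) : (z, w) ∈ closedBall (0 : V2) 2 := by
  rw [mem_closedBall_zero_iff, Prod.norm_def]
  exact max_le hz hw

end PhiX

open PhiX

theorem phi (hP : StPull) (hA : StSliceA) (hB : StSliceB) (hM : StMon) (hR : StRem)
    (hH : StHart) : StPhi := by
  intro X _ _ _ _ ι _ e 𝒰 K δ Λ U O h η C G hδ hΛ he hK ht hS hG r hr hr1 hc
  obtain ⟨ρ, hρ, hρr, hcol, C', hC'⟩ := hA ι 𝒰 K δ Λ U O h η C hδ hΛ hK hS r hr hr1 hc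
  have hpv : ∀ z w : ℂ, ((z, 0) : V2) + w • ((0, 1) : V2) = (z, w) := fun z w => by simp
  have hI : Complex.I • ((0, 1) : V2) = (0, Complex.I) := by simp
  have hD : ∀ z : ℂ, ∀ᶠ n in (𝒰 : Filter ℕ), Dc K δ Λ {w : ℂ | (z, w) ∈ U n}
      (fun j => {w : ℂ | (z, w) ∈ O n j}) (fun j w => h n j (z, w))
      fun w => η n (z, w) (0, 1) (0, Complex.I) := fun z => hS.mono fun n hn => by
    have := (hP ι K δ Λ (U n) (O n) (h n) (η n) hδ hΛ hn.1).2.1 (z, 0) (0, 1)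
    simpa only [hpv, hI] using this
  have hSl := fun (z : ℂ) (hz : ‖z‖ < ρ) => hB ι 𝒰 K δ Λ (fun n => {w : ℂ | (z, w) ∈ U n})
    (fun n j => {w : ℂ | (z, w) ∈ O n j}) (fun n j w => h n j (z, w))
    (fun n w => η n (z, w) (0, 1) (0, Complex.I)) (r + ρ) C' hδ hΛ
    (((hD z).and (hS.and (hC' z hz))).mono fun n hn => ⟨hn.1, fun w hw => hn.2.1.2.1
      (mem_two (by linarith) (by rw [mem_closedBall_zero_iff] at hw; linarith)), hn.2.2⟩)
  have hlt : ∀ w : ℂ, ‖w‖ < r + ρ → ∀ᶠ w' in 𝓝 w, ‖w'‖ < r + ρ := fun w hw =>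
    continuous_norm.continuousAt.eventually_lt continuousAt_const hw
  have hmd : ∀ z w : ℂ, ‖z‖ < ρ → ‖w‖ < r + ρ →
      LGood 𝒰 K (fun n j => {w : ℂ | (z, w) ∈ O n j}) (fun n j w => h n j (z, w)) w →
      Md (fun w => G (z, w)) w := fun z w hz hw hg =>
    md_of_good hM he hK ((hD z).mono fun n hn => hn.hol)
      ((hlt w hw).mono fun y hy => hG (z, y) (mem_two (by linarith) (by linarith))) hg
  have hex : ∀ v : V2, ∃ y : X, ((‖v.1‖ < ρ → ‖v.2‖ < r + ρ →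
      LGood 𝒰 K (fun n j => {w : ℂ | (v.1, w) ∈ O n j}) (fun n j w => h n j (v.1, w)) v.2) →
        y = G v) ∧ (‖v.1‖ < ρ → ‖v.2‖ < r + ρ →
          Md (Function.update (fun w => G (v.1, w)) v.2 y) v.2) := by
    rintro ⟨z, w₀⟩
    by_cases hg : ‖z‖ < ρ → ‖w₀‖ < r + ρ →
        LGood 𝒰 K (fun n j => {w : ℂ | (z, w) ∈ O n j}) (fun n j w => h n j (z, w)) w₀
    · refine ⟨G (z, w₀), fun _ => rfl, fun h1 h2 => ?_⟩
      rw [Function.update_eq_self w₀ fun w => G (z, w)]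
      exact hmd z w₀ h1 h2 (hg h1 h2)
    obtain ⟨hz, hw⟩ : ‖z‖ < ρ ∧ ‖w₀‖ < r + ρ :=
      ⟨by_contra fun h1 => hg fun h2 => absurd h2 h1,
        by_contra fun h1 => hg fun _ h2 => absurd h2 h1⟩
    obtain ⟨y, hy⟩ := hR X (fun w => G (z, w)) w₀ (by
      filter_upwards [mem_nhdsWithin_of_mem_nhds (ev_not_mem (hSl z hz).1 w₀),
        mem_nhdsWithin_of_mem_nhds (hlt w₀ hw), self_mem_nhdsWithin] with w h1 h2 h3
      exact hmd z w hz h2 (by_contra fun h4 => h1 h3 ⟨h2, h4⟩)) (by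
      intro θ hθ
      obtain ⟨θ', hθ', h1⟩ := unif hK ht hθ
      obtain ⟨τ, hτ, h2⟩ := (hSl z hz).2 w₀ hw θ' hθ'
      refine ⟨min τ (r + ρ - ‖w₀‖), lt_min hτ (by linarith), fun w w' h3 h4 h5 => ?_⟩
      obtain ⟨j, h6⟩ := h2 ‖w - w₀‖ (norm_pos_iff.2 (sub_ne_zero.2 h3))
        (h4.trans_le (min_le_left _ _))
      have h7 : ∀ x : ℂ, ‖x - w₀‖ = ‖w - w₀‖ → G (z, x) ∈ (e j).source ∧
          Tendsto (fun n => h n j (z, x)) 𝒰 (𝓝 (e j (G (z, x)))) ∧ e j (G (z, x)) ∈ K j := by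
        intro x hx
        have h8 := norm_le_insert' x w₀
        have h9 := h4.trans_le (min_le_right _ _)
        obtain ⟨a1, a2⟩ := hG (z, x) (mem_two (by linarith) (by linarith)) j
          (h6.mono fun n hn => ⟨(hn x x hx hx).1, (hn x x hx hx).2.1⟩)
        exact ⟨a1, a2, (hK j).isClosed.mem_of_tendsto a2
          (h6.mono fun n hn => (hn x x hx hx).2.1)⟩
      obtain ⟨a1, a2, a3⟩ := h7 w rfl
      obtain ⟨b1, b2, b3⟩ := h7 w' h5
      have h8 := h1 j _ a3 _ b3 (le_of_tendsto (a2.sub b2).norm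
        (h6.mono fun n hn => (hn w w' rfl h5).2.2))
      rwa [(e j).left_inv a1, (e j).left_inv b1] at h8)
    exact ⟨y, fun h1 => absurd h1 hg, fun _ _ => hy⟩
  choose Φ hΦ1 hΦ2 using hex
  have hHa := hH X Φ (ball 0 ρ) (r - ρ) (r + ρ) isOpen_ball (by linarith) (by linarith)
    (fun z hz w h1 h2 => by
      rw [mem_ball_zero_iff] at hz
      have h3 : ∀ᶠ v : V2 in 𝓝 (z, w), ‖v.1‖ < ρ ∧ r - ρ < ‖v.2‖ ∧ ‖v.2‖ < r + ρ :=
        (continuous_fst.norm.continuousAt.eventually_lt continuousAt_const hz).and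
          ((continuousAt_const.eventually_lt continuous_snd.norm.continuousAt h1).and
            (continuous_snd.norm.continuousAt.eventually_lt continuousAt_const h2))
      refine (md_of_good hM he hK (hS.mono fun n hn => hn.1.hol)
        (h3.mono fun v hv => hG v (mem_two (by linarith [hv.1]) (by linarith [hv.2.2])))
        (hcol z w hz h1 h2)).congr_of_eventuallyEq (h3.mono fun v hv => ?_)
      exact hΦ1 v fun _ _ => good_slice (hcol v.1 v.2 hv.1 hv.2.1 hv.2.2))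
    (fun z hz w hw => by
      rw [mem_ball_zero_iff] at hz
      refine (hΦ2 (z, w) hz hw).congr_of_eventuallyEq ?_
      filter_upwards [ev_not_mem (hSl z hz).1 w] with w' h1
      by_cases h2 : w' = w
      · rw [h2, Function.update_self]
      · rw [Function.update_of_ne h2]
        exact hΦ1 (z, w') fun _ h3 => by_contra fun h4 => h1 h2 ⟨h3, h4⟩)
  refine ⟨ρ, hρ, _, Φ, hHa, fun z hz => (hSl z hz).1.subset fun w hw => ?_, fun z hz hz' => ?_⟩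
  · exact ⟨by linarith [hw.1], fun h1 => hw.2 (hΦ1 (z, w) fun _ _ => h1)⟩
  · have h1 : ∀ᶠ z' in 𝓝 z, ∀ w : ℂ, ‖w‖ < r + ρ → Md Φ (z', w) :=
      by_contra fun h1 => hz' ⟨mem_ball_zero_iff.2 hz, h1⟩
    exact h1.mono fun z' h2 w hw => h2 w (by linarith)

end Vale.Agent.P290Z.BR
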