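import Vale.Agent.P290Z.BR.SpecA

/-! P290Z, block BR: affine changes of variables. -/

open Set Filter Metric MeasureTheory
open scoped Topology

namespace Vale.Agent.P290Z.BR

namespace Pl

theorem cm_comp {W W' : Type} [NormedAddCommGroup W] [NormedSpace ℂ W] [NormedAddCommGroup W']
    [NormedSpace ℂ W'] {ι : Type} {K : ι → Set V2} {δ : ℝ} {U : Set W} {O : ι → Set W}
    {h : ι → W → V2} (H : CM K δ U O h) {A : W' → W} (hA : Differentiable ℂ A) :
    CM K δ {x | A x ∈ U} (fun j => {x | A x ∈ O j}) fun j x => h j (A x) :=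
  ⟨H.isOpen.preimage hA.continuous, fun j => (H.openO j).preimage hA.continuous,
    fun j _ hx => H.sub j hx, fun j => (H.hol j).comp hA.differentiableOn fun _ hx => hx,
    fun x hx => H.cover (A x) hx,
    fun j x hx hc => H.closed j (A x) hx (map_mem_closure hA.continuous hc fun _ hy => hy)⟩

theorem q_smul {β : B2} (h : ∀ a b, β a b = -β b a) (c : ℂ) (e : V2) :
    β (c • e) (Complex.I • c • e) = ‖c‖ ^ 2 * β e (Complex.I • e) := by
  have h0 : ∀ a, β a a = 0 := fun a => by linarith [h a a]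
  have h1 : c • e = c.re • e + c.im • Complex.I • e := by
    rw [← Complex.coe_smul, ← Complex.coe_smul, smul_smul, ← add_smul, Complex.re_add_im]
  have h2 : Complex.I • c • e = c.re • Complex.I • e - c.im • e := by
    rw [h1, smul_add, smul_comm Complex.I c.re, smul_comm Complex.I c.im, smul_smul Complex.I,
      Complex.I_mul_I, neg_one_smul, smul_neg, sub_eq_add_neg]
  rw [h2, h1, Complex.sq_norm, Complex.normSq_apply]
  simp only [map_add, map_sub, map_smul, add_apply,
    smul_apply, smul_eq_mul, h0, h (Complex.I • e) e]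
  ring

theorem q_le {β : B2} (h : ∀ a b, β a b = -β b a) (h0 : ∀ a, 0 ≤ β a (Complex.I • a)) (a : V2) :
    β a (Complex.I • a) ≤ 2 * ‖a‖ ^ 2 * (β (1, 0) (Complex.I, 0) + β (0, 1) (0, Complex.I)) := by
  have e1 : ((Complex.I, 0) : V2) = Complex.I • (1, 0) := by simp
  have e2 : ((0, Complex.I) : V2) = Complex.I • (0, 1) := by simp
  have e3 : a = a.1 • (1, 0) + a.2 • (0, 1) := by simp
  have h1 := h0 (a.1 • (1, 0) - a.2 • (0, 1))
  have h2 := q_smul h a.1 (1, 0)
  have h3 := q_smul h a.2 (0, 1)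
  have h4 := mul_le_mul_of_nonneg_right (pow_le_pow_left₀ (norm_nonneg _) (norm_fst_le a) 2)
    (h0 (1, 0))
  have h5 := mul_le_mul_of_nonneg_right (pow_le_pow_left₀ (norm_nonneg _) (norm_snd_le a) 2)
    (h0 (0, 1))
  rw [e1, e2]
  conv_lhs => rw [e3]
  simp only [smul_add, smul_sub, map_add, map_sub, add_apply,
    sub_apply] at h1 ⊢
  linarith

/-- the pull back of bilinear forms -/
noncomputable def bc (L : V2 →L[ℝ] V2) : B2 →L[ℝ] B2 :=
  ((ContinuousLinearMap.compL ℝ V2 V2 (V2 →L[ℝ] ℝ)).flip L).comp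
    (ContinuousLinearMap.compL ℝ V2 (V2 →L[ℝ] ℝ) (V2 →L[ℝ] ℝ)
      ((ContinuousLinearMap.compL ℝ V2 V2 ℝ).flip L))

theorem bc_apply (L : V2 →L[ℝ] V2) (β : B2) : bc L β = β.bilinearComp L L := by
  ext <;> rfl

variable {ι : Type} {K : ι → Set V2} {δ Λ : ℝ} {U : Set V2} {O : ι → Set V2} {h : ι → V2 → V2}
  {η : V2 → B2}

theorem point (hδ : 0 < δ) (hΛ : 0 < Λ) (H : Tm K δ Λ U O h η) {x : V2} (hx : x ∈ U) (a b : V2) :
    0 ≤ η x a (Complex.I • a) ∧ η x a (Complex.I • a) ≤ 2 * ‖a‖ ^ 2 * En η x ∧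
      |η x a b| ≤ 2 * Λ ^ 2 * ‖a‖ * ‖b‖ * En η x := by
  obtain ⟨j, h1, h2⟩ := H.cover x hx
  have h3 := h2 (mem_closedBall_self hδ.le)
  have h4 : ∀ a, 0 ≤ η x a (Complex.I • a) := fun a =>
    nonneg_of_mul_nonneg_right ((sq_nonneg _).trans (H.lo j x h1 h3 a)) hΛ
  have h5 : ∀ a, η x a (Complex.I • a) ≤ 2 * ‖a‖ ^ 2 * En η x := q_le (H.alt x hx) h4
  have h6 : 0 ≤ En η x := add_nonneg (by simpa using h4 (1, 0)) (by simpa using h4 (0, 1))
  refine ⟨h4 a, h5 a, (H.hi j x h1 h3 a b).trans ?_⟩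
  have h7 : ∀ a, ‖fderiv ℂ (h j) x a‖ ^ 2 ≤ Λ * (2 * ‖a‖ ^ 2 * En η x) := fun a =>
    (H.lo j x h1 h3 a).trans (mul_le_mul_of_nonneg_left (h5 a) hΛ.le)
  have h8 : ‖fderiv ℂ (h j) x a‖ * ‖fderiv ℂ (h j) x b‖ ≤ 2 * Λ * ‖a‖ * ‖b‖ * En η x := by
    rw [← sq_le_sq₀ (by positivity) (by positivity), mul_pow]
    refine (mul_le_mul (h7 a) (h7 b) (by positivity) (by positivity)).trans_eq ?_
    ring
  rw [mul_assoc]
  refine (mul_le_mul_of_nonneg_left h8 hΛ.le).trans_eq ?_
  ring

theorem tm_pull (H : Tm K δ Λ U O h η) (p : V2) (L : V2 →L[ℂ] V2) :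
    Tm K δ Λ {x | p + L x ∈ U} (fun j => {x | p + L x ∈ O j}) (fun j x => h j (p + L x))
      (pull η p L) := by
  have hA : ∀ x, HasFDerivAt (fun x => p + L x) L x := fun x => L.hasFDerivAt.const_add p
  have hd : ∀ j x, p + L x ∈ O j → ∀ a,
      fderiv ℂ (fun x => h j (p + L x)) x a = fderiv ℂ (h j) (p + L x) (L a) := fun j x hx a =>
    congrArg (fun T : V2 →L[ℂ] V2 => T a)
      (((H.hol j).differentiableAt ((H.openO j).mem_nhds hx)).hasFDerivAt.comp x (hA x)).fderiv
  have he : pull η p L = fun x => bc (L.restrictScalars ℝ) (η (p + L x)) :=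
    funext fun x => (bc_apply _ _).symm
  refine ⟨cm_comp H.toCM fun x => (hA x).differentiableAt, ?_, fun x hx a b => H.alt _ hx _ _,
    fun x hx a b c => ?_, fun j x hx hK a => ?_, fun j x hx hK a b => ?_⟩
  · rw [he]
    exact (ContinuousLinearMap.contDiff (𝕜 := ℝ) (E := B2) (F := B2)
      (bc (L.restrictScalars ℝ))).comp_contDiffOn (H.smooth.comp
      (contDiff_const.add (L.restrictScalars ℝ).contDiff).contDiffOn fun _ hx => hx)
  · have h1 := ((H.smooth.contDiffAt (H.isOpen.mem_nhds hx)).differentiableAt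
      one_ne_zero).hasFDerivAt
    have h2 := HasFDerivAt.comp (𝕜 := ℝ) (F := B2) (G := B2) x
      (bc (L.restrictScalars ℝ)).hasFDerivAt (h1.comp x ((hA x).restrictScalars ℝ))
    rw [he]
    erw [h2.fderiv]
    exact H.cl _ hx (L a) (L b) (L c)
  · rw [hd j x hx]
    have h1 := H.lo j _ hx hK (L a)
    rwa [← map_smul] at h1
  · rw [hd j x hx, hd j x hx]
    exact H.hi j _ hx hK (L a) (L b)

theorem dc_slice (H : Tm K δ Λ U O h η) (p v : V2) :
    Dc K δ Λ {w : ℂ | p + w • v ∈ U} (fun j => {w : ℂ | p + w • v ∈ O j})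
      (fun j w => h j (p + w • v)) fun w => η (p + w • v) v (Complex.I • v) := by
  have hA : ∀ w : ℂ, HasDerivAt (fun w : ℂ => p + w • v) v w := fun w => by
    simpa using ((hasDerivAt_id w).smul_const v).const_add p
  have hd : ∀ j (w : ℂ), p + w • v ∈ O j →
      deriv (fun w : ℂ => h j (p + w • v)) w = fderiv ℂ (h j) (p + w • v) v := fun j w hw =>
    (((H.hol j).differentiableAt ((H.openO j).mem_nhds hw)).hasFDerivAt.comp_hasDerivAt w
      (hA w)).deriv
  refine ⟨cm_comp H.toCM fun w => (hA w).differentiableAt, ?_, fun j w hw hK => ?_,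
    fun j w hw hK => ?_⟩
  · exact ((H.smooth.continuousOn.comp (f := fun w : ℂ => p + w • v) (by fun_prop)
      fun _ hx => hx).clm_apply continuousOn_const).clm_apply continuousOn_const
  · rw [hd j w hw]
    exact H.lo j _ hw hK v
  · rw [hd j w hw]
    have h1 := (le_abs_self _).trans (H.hi j _ hw hK v (Complex.I • v))
    rwa [map_smul (fderiv ℂ (h j) _), norm_smul, Complex.norm_I, one_mul, mul_assoc, ← sq] at h1

end Pl

open Pl

theorem pull_ : StPull := by
  intro ι K δ Λ U O h η hδ hΛ H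
  refine ⟨fun p L => ⟨tm_pull H p L, fun x hx => ?_⟩, dc_slice H, ?_,
    fun x hx => point hδ hΛ H hx⟩
  · have e1 : ((Complex.I, 0) : V2) = Complex.I • (1, 0) := by simp
    have e2 : ((0, Complex.I) : V2) = Complex.I • (0, 1) := by simp
    have h0 : 0 ≤ En η (p + L x) := add_nonneg (by simpa using (point hδ hΛ H hx (1, 0) 0).1)
      (by simpa using (point hδ hΛ H hx (0, 1) 0).1)
    have h1 : ∀ e : V2, ‖e‖ = 1 →
        pull η p L x e (Complex.I • e) ≤ 2 * ‖L‖ ^ 2 * En η (p + L x) := fun e he => by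
      have h2 := (point hδ hΛ H hx (L e) 0).2.1
      have h3 := L.le_opNorm e
      rw [he, mul_one] at h3
      rw [← map_smul] at h2
      exact h2.trans (by gcongr)
    rw [En, e1, e2]
    linarith [h1 (1, 0) (by simp), h1 (0, 1) (by simp)]
  · exact ((H.smooth.continuousOn.clm_apply continuousOn_const).clm_apply continuousOn_const).add
      ((H.smooth.continuousOn.clm_apply continuousOn_const).clm_apply continuousOn_const)

theorem chg : StChg := by
  intro L
  have : (volume : Measure V2).IsAddHaarMeasure := Measure.prod.instIsAddHaarMeasure _ _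
  let L' : V2 →L[ℝ] V2 := (L : V2 →L[ℂ] V2).restrictScalars ℝ
  have hd : L'.det ≠ 0 := (L.toLinearEquiv.restrictScalars ℝ).isUnit_det'.ne_zero
  refine ⟨|L'.det|⁻¹, inv_pos.2 (abs_pos.2 hd), fun φ p A Q hA hQ hAQ hφ h0 => ?_⟩
  have h1 := integral_image_eq_integral_abs_det_fderiv_smul volume hA.measurableSet
    (f := fun x => p + L x) (f' := fun _ => L')
    (fun x _ => (L'.hasFDerivAt.const_add p).hasFDerivWithinAt)
    (fun x _ y _ e => L.injective (add_left_cancel e)) φ
  simp only [smul_eq_mul, integral_const_mul] at h1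
  rw [le_inv_mul_iff₀ (abs_pos.2 hd), ← h1]
  exact setIntegral_mono_set (hφ.integrableOn_compact hQ)
    (ae_restrict_of_forall_mem hQ.measurableSet h0)
    (LE.le.eventuallyLE (image_subset_iff.2 hAQ))

end Vale.Agent.P290Z.BR
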