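import Vale.Agent.P290Z.BR.SpecA

/-! P290Z, part III, block BR: removable singularities for maps of a punctured disc to a compact
surface whose oscillation on small circles tends to zero. -/

open Set Filter Metric
open scoped Topology Manifold ContDiff

namespace Vale.Agent.P290Z.BR

namespace RemA

/-- a holomorphic map of an annulus cannot have both boundary circles in small sets which are far
from each other -/
theorem annulus {g : ℂ → V2} {c : ℂ} {a r R : ℝ} (ha : 0 < a) (har : a ≤ r) (hR : 0 < R)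
    (hg : ∀ w, a ≤ ‖w - c‖ → ‖w - c‖ ≤ r → DifferentiableAt ℂ g w) (h1 : ‖g (c + a)‖ = R)
    (h2 : ∀ w, ‖w - c‖ = a → ‖g w - g (c + a)‖ ≤ R / 100)
    (h3 : ∀ w, ‖w - c‖ = r → ‖g w‖ ≤ R / 50) : False := by
  obtain ⟨l, hl1, hl2⟩ := exists_dual_vector'' ℂ (g (c + a))
  have hle : ∀ v, ‖l v‖ ≤ ‖v‖ := fun v => by
    have := l.le_opNorm v
    nlinarith [norm_nonneg v, norm_nonneg l]
  have hp : ‖l (g (c + a))‖ = R := by
    rw [hl2, h1]
    simp [abs_of_pos hR]
  set A : Set ℂ := {w | a ≤ ‖w - c‖ ∧ ‖w - c‖ ≤ r} with hA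
  have hn : Continuous fun w : ℂ => ‖w - c‖ := by fun_prop
  have hAc : IsClosed A := (isClosed_le continuous_const hn).inter (isClosed_le hn continuous_const)
  have hAb : Bornology.IsBounded A :=
    (isBounded_closedBall (x := c) (r := r)).subset fun w hw => by
      rw [mem_closedBall, dist_eq_norm]; exact hw.2
  have hk : DifferentiableOn ℂ (fun w => l (g w)) A := fun w hw =>
    (l.differentiableAt.comp w (hg w hw.1 hw.2)).differentiableWithinAt
  have hF : DiffContOnCl ℂ (fun w => l (g w) * (l (g w) - l (g (c + a)))) A := by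
    refine DifferentiableOn.diffContOnCl ?_
    rw [hAc.closure_eq]
    exact hk.mul (hk.sub_const _)
  have hfr : ∀ w ∈ frontier A, ‖l (g w) * (l (g w) - l (g (c + a)))‖ ≤ R ^ 2 / 10 := by
    intro w hw
    have hwA : w ∈ A := hAc.frontier_subset hw
    have hO : IsOpen {w : ℂ | a < ‖w - c‖ ∧ ‖w - c‖ < r} :=
      (isOpen_lt continuous_const hn).inter (isOpen_lt hn continuous_const)
    have hwI : ¬ (a < ‖w - c‖ ∧ ‖w - c‖ < r) := fun h =>
      hw.2 (interior_maximal (s := A) (fun z hz => ⟨hz.1.le, hz.2.le⟩) hO h)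
    rw [norm_mul]
    by_cases hwa : ‖w - c‖ = a
    · have e1 : ‖l (g w) - l (g (c + a))‖ ≤ R / 100 := by
        rw [← map_sub]; exact (hle _).trans (h2 w hwa)
      have e2 : ‖l (g w)‖ ≤ R + R / 100 := by
        have := norm_le_norm_add_norm_sub' (l (g w)) (l (g (c + a)))
        linarith
      calc _ ≤ (R + R / 100) * (R / 100) := by gcongr
        _ ≤ R ^ 2 / 10 := by nlinarith
    · have hwr : ‖w - c‖ = r := by
        by_contra h
        exact hwI ⟨lt_of_le_of_ne hwA.1 (Ne.symm hwa), lt_of_le_of_ne hwA.2 h⟩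
      have e1 : ‖l (g w)‖ ≤ R / 50 := (hle _).trans (h3 w hwr)
      have e2 : ‖l (g w) - l (g (c + a))‖ ≤ R / 50 + R := by
        have := norm_sub_le (l (g w)) (l (g (c + a)))
        linarith
      calc _ ≤ (R / 50) * (R / 50 + R) := by gcongr
        _ ≤ R ^ 2 / 10 := by nlinarith
  have hnt : ∀ t : ℝ, 0 ≤ t → ‖c + (t : ℂ) - c‖ = t := fun t ht => by
    simp [abs_of_nonneg ht]
  have hmem : ∀ t ∈ Icc a r, c + (t : ℂ) ∈ A := fun t ht => by
    have := hnt t (ha.le.trans ht.1)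
    exact ⟨by rw [this]; exact ht.1, by rw [this]; exact ht.2⟩
  have hcont : ContinuousOn (fun t : ℝ => ‖l (g (c + t))‖) (Icc a r) :=
    (hk.continuousOn.comp (by fun_prop) hmem).norm
  have hr : ‖l (g (c + r))‖ ≤ R / 50 := (hle _).trans (h3 _ (hnt r (ha.le.trans har)))
  obtain ⟨t, ht, ht2⟩ := intermediate_value_Icc' har hcont
    (show R / 2 ∈ Icc ‖l (g (c + r))‖ ‖l (g (c + a))‖ from ⟨by linarith, by linarith⟩)
  have h4 := Complex.norm_le_of_forall_mem_frontier_norm_le hAb hF hfr (subset_closure (hmem t ht))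
  have ht3 : ‖l (g (c + t))‖ = R / 2 := ht2
  have h5 : R / 2 ≤ ‖l (g (c + t)) - l (g (c + a))‖ := by
    have := norm_le_norm_add_norm_sub (l (g (c + t))) (l (g (c + a)))
    linarith
  rw [norm_mul, ht3] at h4
  nlinarith

/-- uniform continuity of a chart near a compact part of its source -/
theorem unif {X : Type} [MetricSpace X] (e : OpenPartialHomeomorph X V2) {Z : Set X}
    (hZ : IsCompact Z) (hZe : Z ⊆ e.source) {η : ℝ} (hη : 0 < η) :
    ∃ θ > (0 : ℝ), ∀ p ∈ Z, ∀ q, dist p q ≤ θ → q ∈ e.source ∧ ‖e q - e p‖ ≤ η := by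
  obtain ⟨θ₁, h1, h1'⟩ := hZ.exists_cthickening_subset_open e.open_source hZe
  have h2 := hZ.uniformContinuousAt_of_continuousAt e (fun p hp => e.continuousAt (hZe hp))
    (dist_mem_uniformity hη)
  obtain ⟨θ₂, h3, h3'⟩ := Metric.mem_uniformity_dist.1 h2
  refine ⟨min θ₁ (θ₂ / 2), by positivity, fun p hp q hq => ⟨h1' ?_, ?_⟩⟩
  · refine mem_cthickening_of_dist_le q p θ₁ Z hp ?_
    rw [dist_comm]
    exact hq.trans (min_le_left _ _)
  · have h4 : dist p q < θ₂ := lt_of_le_of_lt (hq.trans (min_le_right _ _)) (by linarith)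
    have h5 : dist (e p) (e q) < η := h3' h4 hp
    rw [dist_comm, dist_eq_norm] at h5
    exact h5.le

/-- the coordinate of a holomorphic map is holomorphic -/
theorem diff_chart {X : Type} [TopologicalSpace X] [ChartedSpace V2 X]
    [IsManifold 𝓘(ℂ, V2) ω X] {e : OpenPartialHomeomorph X V2} (he : e ∈ atlas V2 X) {u : ℂ → X}
    {w : ℂ} (hu : Md u w) (hw : u w ∈ e.source) : DifferentiableAt ℂ (fun z => e (u z)) w :=
  mdifferentiableAt_iff_differentiableAt.1
    ((mdifferentiableAt_atlas (I := 𝓘(ℂ, V2)) he hw).comp w hu)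

/-- the map stays in one chart -/
theorem stay {X : Type} [MetricSpace X] [ChartedSpace V2 X] [IsManifold 𝓘(ℂ, V2) ω X]
    {u : ℂ → X} {c : ℂ} (hu : ∀ᶠ w in 𝓝[≠] c, Md u w)
    (hosc : ∀ θ > (0 : ℝ), ∃ τ > (0 : ℝ), ∀ w w' : ℂ, w ≠ c → ‖w - c‖ < τ →
      ‖w' - c‖ = ‖w - c‖ → dist (u w) (u w') ≤ θ)
    {y : X} (hy : MapClusterPt y (𝓝[≠] c) u) {e : OpenPartialHomeomorph X V2}
    (he : e ∈ atlas V2 X) (hye : y ∈ e.source) {R : ℝ} (hR : 0 < R)
    (hRe : closedBall (e y) R ⊆ e.target) :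
    ∀ᶠ w in 𝓝[≠] c, u w ∈ e.source ∧ ‖e (u w) - e y‖ ≤ 2 * R := by
  set Z : Set X := e.symm '' closedBall (e y) R with hZ
  have hZc : IsCompact Z :=
    (isCompact_closedBall _ _).image_of_continuousOn (e.continuousOn_symm.mono hRe)
  have hZe : Z ⊆ e.source := by
    rintro _ ⟨v, hv, rfl⟩
    exact e.map_target (hRe hv)
  have hZm : ∀ p ∈ e.source, ‖e p - e y‖ ≤ R → p ∈ Z := fun p hp h =>
    ⟨e p, by rwa [mem_closedBall, dist_eq_norm], e.left_inv hp⟩
  have hZn : ∀ p ∈ Z, ‖e p - e y‖ ≤ R := by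
    rintro _ ⟨v, hv, rfl⟩
    rwa [e.right_inv (hRe hv), ← dist_eq_norm]
  obtain ⟨θ, hθ, hθ'⟩ := unif e hZc hZe (show 0 < R / 100 by positivity)
  obtain ⟨τ, hτ, hτ'⟩ := hosc θ hθ
  obtain ⟨σ, hσ, hσ'⟩ : ∃ σ > (0 : ℝ), ∀ w, w ≠ c → ‖w - c‖ < σ → Md u w := by
    obtain ⟨σ, hσ, h⟩ := Metric.eventually_nhds_iff.1 (eventually_nhdsWithin_iff.1 hu)
    exact ⟨σ, hσ, fun w hw h' => h (by rwa [dist_eq_norm]) hw⟩
  -- the open sets
  have hop : ∀ s : ℝ, IsOpen (e.source ∩ e ⁻¹' ball (e y) s) := fun s =>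
    e.isOpen_inter_preimage isOpen_ball
  -- a first circle
  obtain ⟨w₁, ⟨hw1, hw2⟩, hw3, hw4⟩ : ∃ w₁, u w₁ ∈ e.source ∩ e ⁻¹' ball (e y) (R / 100) ∧
      w₁ ≠ c ∧ ‖w₁ - c‖ < min τ σ := by
    have h1 := mapClusterPt_iff_frequently.1 hy _ ((hop (R / 100)).mem_nhds
      ⟨hye, mem_ball_self (by positivity)⟩)
    have h2 : ∀ᶠ w in 𝓝[≠] c, w ≠ c ∧ ‖w - c‖ < min τ σ := by
      filter_upwards [self_mem_nhdsWithin, mem_nhdsWithin_of_mem_nhds
        (ball_mem_nhds c (lt_min hτ hσ))] with w h h'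
      exact ⟨h, by rwa [mem_ball, dist_eq_norm] at h'⟩
    exact (h1.and_eventually h2).exists
  have hw2' : ‖e (u w₁) - e y‖ < R / 100 := by
    rwa [mem_preimage, mem_ball, dist_eq_norm] at hw2
  set r : ℝ := ‖w₁ - c‖ with hr
  have hr0 : 0 < r := norm_pos_iff.2 (sub_ne_zero.2 hw3)
  have hrτ : r < τ := hw4.trans_le (min_le_left _ _)
  have hrσ : r < σ := hw4.trans_le (min_le_right _ _)
  have hnt : ∀ t : ℝ, 0 ≤ t → ‖c + (t : ℂ) - c‖ = t := fun t ht => by
    simp [abs_of_nonneg ht]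
  have hne : ∀ w : ℂ, 0 < ‖w - c‖ → w ≠ c := fun w hw => sub_ne_zero.1 (norm_pos_iff.1 hw)
  have hcirc : ∀ w w' : ℂ, 0 < ‖w - c‖ → ‖w - c‖ ≤ r → ‖w' - c‖ = ‖w - c‖ → u w ∈ Z →
      u w' ∈ e.source ∧ ‖e (u w') - e (u w)‖ ≤ R / 100 := fun w w' h1 h2 h3 h4 =>
    hθ' _ h4 _ (hτ' w w' (hne w h1) (h2.trans_lt hrτ) h3)
  have hout : ∀ w, ‖w - c‖ = r → u w ∈ e.source ∧ ‖e (u w) - e y‖ ≤ R / 50 := by
    intro w hw
    obtain ⟨h1, h2⟩ := hcirc w₁ w hr0 le_rfl hw (hZm _ hw1 (by linarith))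
    refine ⟨h1, ?_⟩
    have := norm_sub_le_norm_sub_add_norm_sub (e (u w)) (e (u w₁)) (e y)
    linarith
  have hγ : ∀ t : ℝ, 0 < t → t ≤ r → ContinuousAt (fun t : ℝ => u (c + t)) t := by
    intro t h1 h2
    have h3 : Md u (c + t) := hσ' _ (hne _ (by rwa [hnt t h1.le])) (by rw [hnt t h1.le]; linarith)
    exact ContinuousAt.comp (f := fun t : ℝ => c + (t : ℂ)) h3.continuousAt (by fun_prop)
  -- the radial curve stays in the open set
  have hrad : ∀ t : ℝ, 0 < t → t ≤ r → u (c + t) ∈ e.source ∩ e ⁻¹' ball (e y) R := by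
    intro t₀ h1 h2
    by_contra hcon
    set S : Set ℝ := Icc t₀ r ∩ (fun t : ℝ => u (c + t)) ⁻¹' (e.source ∩ e ⁻¹' ball (e y) R)ᶜ
      with hS
    have hco : ContinuousOn (fun t : ℝ => u (c + t)) (Icc t₀ r) := fun t ht =>
      (hγ t (h1.trans_le ht.1) ht.2).continuousWithinAt
    have hSc : IsCompact S := isCompact_Icc.of_isClosed_subset
      (hco.preimage_isClosed_of_isClosed isClosed_Icc (hop R).isClosed_compl) inter_subset_left
    obtain ⟨a, ⟨haI, haS⟩, hmax⟩ := hSc.exists_isGreatest ⟨t₀, ⟨le_rfl, h2⟩, hcon⟩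
    have ha0 : 0 < a := h1.trans_le haI.1
    have har : a < r := by
      refine lt_of_le_of_ne haI.2 fun h => haS ?_
      obtain ⟨h3, h4⟩ := hout (c + a) (by rw [hnt a ha0.le, h])
      exact ⟨h3, by rw [mem_preimage, mem_ball, dist_eq_norm]; linarith⟩
    have hin : ∀ t ∈ Ioc a r, u (c + t) ∈ Z := by
      intro t ht
      have h3 : u (c + t) ∈ e.source ∩ e ⁻¹' ball (e y) R := by
        by_contra h
        exact absurd (hmax ⟨⟨haI.1.trans ht.1.le, ht.2⟩, h⟩) (not_le.2 ht.1)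
      refine hZm _ h3.1 ?_
      have h4 := h3.2
      rw [mem_preimage, mem_ball, dist_eq_norm] at h4
      exact h4.le
    have haZ : u (c + a) ∈ Z := by
      refine hZc.isClosed.mem_of_tendsto (b := 𝓝[>] a)
        ((hγ a ha0 har.le).tendsto.mono_left nhdsWithin_le_nhds) ?_
      filter_upwards [Ioc_mem_nhdsGT har] with t ht
      exact hin t ht
    have hall : ∀ w : ℂ, a ≤ ‖w - c‖ → ‖w - c‖ ≤ r → u w ∈ e.source := by
      intro w h3 h4
      have h5 : 0 < ‖w - c‖ := ha0.trans_le h3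
      have h6 : u (c + (‖w - c‖ : ℝ)) ∈ Z := by
        rcases h3.eq_or_lt with h | h
        · rw [← h]; exact haZ
        · exact hin _ ⟨h, h4⟩
      exact (hcirc _ w (by rwa [hnt _ h5.le]) (by rwa [hnt _ h5.le]) (by rw [hnt _ h5.le]) h6).1
    refine annulus (g := fun w => e (u w) - e y) (c := c) ha0 har.le hR (fun w h3 h4 => ?_) ?_
      (fun w hw => ?_) (fun w hw => (hout w hw).2)
    · exact (diff_chart he (hσ' w (hne w (ha0.trans_le h3)) (h4.trans_lt hrσ))
        (hall w h3 h4)).sub_const _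
    · refine le_antisymm (hZn _ haZ) (not_lt.1 fun h => haS ⟨hZe haZ, ?_⟩)
      rwa [mem_preimage, mem_ball, dist_eq_norm]
    · rw [sub_sub_sub_cancel_right]
      exact (hcirc _ w (by rwa [hnt a ha0.le]) (by rw [hnt a ha0.le]; exact har.le)
        (by rw [hnt a ha0.le, hw]) haZ).2
  filter_upwards [self_mem_nhdsWithin, mem_nhdsWithin_of_mem_nhds (ball_mem_nhds c hr0)]
    with w h h'
  rw [mem_ball, dist_eq_norm] at h'
  have h5 : 0 < ‖w - c‖ := norm_pos_iff.2 (sub_ne_zero.2 h)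
  obtain ⟨h6, h7⟩ := hrad _ h5 h'.le
  rw [mem_preimage, mem_ball, dist_eq_norm] at h7
  obtain ⟨h8, h9⟩ := hcirc _ w (by rwa [hnt _ h5.le]) (by rw [hnt _ h5.le]; exact h'.le)
    (by rw [hnt _ h5.le]) (hZm _ h6 h7.le)
  refine ⟨h8, ?_⟩
  have := norm_sub_le_norm_sub_add_norm_sub (e (u w)) (e (u (c + (‖w - c‖ : ℝ)))) (e y)
  linarith

end RemA

/-- REM: removable singularities -/
theorem rem : StRem := by
  intro X _ _ _ _ u c hu hosc
  obtain ⟨y, hy⟩ : ∃ y, MapClusterPt y (𝓝[≠] c) u := by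
    obtain ⟨y, hy⟩ := exists_clusterPt_of_compactSpace (map u (𝓝[≠] c))
    exact ⟨y, hy⟩
  set e := chartAt V2 y with he
  have hea : e ∈ atlas V2 X := chart_mem_atlas V2 y
  have hye : y ∈ e.source := mem_chart_source V2 y
  obtain ⟨R', hR', hR'e⟩ := Metric.nhds_basis_closedBall.mem_iff.1
    (e.open_target.mem_nhds (e.map_source hye))
  have hst := RemA.stay hu hosc hy hea hye (half_pos hR')
    ((closedBall_subset_closedBall (half_le_self hR'.le)).trans hR'e)
  obtain ⟨s, hs, hs'⟩ : ∃ s ∈ 𝓝 c, ∀ w ∈ s, w ≠ c →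
      Md u w ∧ u w ∈ e.source ∧ ‖e (u w) - e y‖ ≤ R' := by
    refine ⟨_, eventually_nhdsWithin_iff.1 (hu.and hst), fun w hw h => ?_⟩
    obtain ⟨h1, h2, h3⟩ := hw h
    exact ⟨h1, h2, by linarith⟩
  have hd := Complex.differentiableOn_update_limUnder_of_bddAbove (f := fun w => e (u w)) hs
    (fun w hw => (RemA.diff_chart hea (hs' w hw.1 hw.2).1
      (hs' w hw.1 hw.2).2.1).differentiableWithinAt)
    ⟨‖e y‖ + R', by
      rintro _ ⟨w, hw, rfl⟩
      have h1 := (hs' w hw.1 hw.2).2.2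
      have h2 := norm_le_norm_add_norm_sub' (e (u w)) (e y)
      simp only [Function.comp]
      linarith⟩
  set l : V2 := limUnder (𝓝[≠] c) fun w => e (u w) with hl
  set G : ℂ → V2 := Function.update (fun w => e (u w)) c l with hG
  have hGd : DifferentiableAt ℂ G c := hd.differentiableAt hs
  have hGc : G c = l := Function.update_self _ _ _
  have hGw : ∀ w, w ≠ c → G w = e (u w) := fun w hw => Function.update_of_ne hw _ _
  have hlt : G c ∈ e.target := by
    refine hR'e (isClosed_closedBall.mem_of_tendsto (b := 𝓝[≠] c)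
      (hGd.continuousAt.tendsto.mono_left nhdsWithin_le_nhds) ?_)
    filter_upwards [self_mem_nhdsWithin, mem_nhdsWithin_of_mem_nhds hs] with w h h'
    rw [hGw w h, mem_closedBall, dist_eq_norm]
    exact (hs' w h' h).2.2
  refine ⟨e.symm l, ?_⟩
  have h1 : Md (e.symm ∘ G) c :=
    (mdifferentiableAt_atlas_symm (I := 𝓘(ℂ, V2)) hea hlt).comp c
      (mdifferentiableAt_iff_differentiableAt.2 hGd)
  refine h1.congr_of_eventuallyEq ?_
  filter_upwards [hs] with w hw
  by_cases h : w = c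
  · rw [h, Function.update_self, Function.comp_apply, hGc]
  · rw [Function.update_of_ne h, Function.comp_apply, hGw w h, e.left_inv (hs' w hw h).2.1]

end Vale.Agent.P290Z.BR
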