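import Vale.Agent.P290Z.BR.SpecA

/-! P290Z, part III, block BR: Stokes with a cut off function. -/

open Set Filter Metric MeasureTheory
open scoped Topology ContDiff

namespace Vale.Agent.P290Z.BR

namespace SL

variable {χ : ℂ → ℝ} {U : Set V2} {φ : V2 → ℝ} {z : ℂ}

theorem intg {G : Type} [NormedAddCommGroup G] {K : Set ℂ} (hK : IsCompact K) {f : ℂ → G}
    (h : ContinuousOn f K) (h0 : ∀ w ∉ K, f w = 0) : Integrable f :=
  (integrableOn_iff_integrable_of_support_subset fun w hw => by_contra fun e => hw (h0 w e)).1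
    (h.integrableOn_compact hK)

theorem slice {G : Type} [TopologicalSpace G] {K : Set ℂ} {f : V2 → G} (h : ContinuousOn f U)
    (hz : ∀ w ∈ K, (z, w) ∈ U) : ContinuousOn (fun w => f (z, w)) K :=
  h.comp (Continuous.prodMk_right z).continuousOn hz

theorem cont_fderiv (hU : IsOpen U) (hφ : ContDiffOn ℝ 1 φ U) : ContinuousOn (fderiv ℝ φ) U :=
  hφ.continuousOn_fderiv_of_isOpen hU le_rfl

theorem diff {G : Type} [NormedAddCommGroup G] [NormedSpace ℝ G] {f : V2 → G} (hU : IsOpen U)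
    (hf : ContDiffOn ℝ 1 f U) {x : V2} (hx : x ∈ U) : HasFDerivAt f (fderiv ℝ f x) x :=
  ((hf.contDiffAt (hU.mem_nhds hx)).differentiableAt one_ne_zero).hasFDerivAt

theorem intg_fderiv (hχ : Continuous χ) (hc : HasCompactSupport χ) (hU : IsOpen U)
    (hφ : ContDiffOn ℝ 1 φ U) (hz : ∀ w ∈ tsupport χ, (z, w) ∈ U) (a : V2) :
    Integrable fun w => χ w * fderiv ℝ φ (z, w) a :=
  intg hc (hχ.continuousOn.mul ((slice (cont_fderiv hU hφ) hz).clm_apply continuousOn_const))
    fun w hw => by rw [image_eq_zero_of_notMem_tsupport hw, zero_mul]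

theorem intg_fderiv' (hχ : ContDiff ℝ 1 χ) (hc : HasCompactSupport χ) (hφ : ContinuousOn φ U)
    (hz : ∀ w ∈ tsupport χ, (z, w) ∈ U) (u : ℂ) :
    Integrable fun w => fderiv ℝ χ w u * φ (z, w) :=
  intg hc (((hχ.continuous_fderiv one_ne_zero).clm_apply continuous_const).continuousOn.mul
    (slice hφ hz)) fun w hw => by
      rw [fderiv_of_notMem_tsupport ℝ hw, zero_apply, zero_mul]

/-- differentiation under the integral sign -/
theorem par (hχ : Continuous χ) (hc : HasCompactSupport χ) (hU : IsOpen U)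
    (hφ : ContDiffOn ℝ 1 φ U) (hz : ∀ w ∈ tsupport χ, (z, w) ∈ U) :
    ∃ L : ℂ →L[ℝ] ℝ, HasFDerivAt (fun z : ℂ => ∫ w, χ w * φ (z, w)) L z ∧
      ∀ v : ℂ, L v = ∫ w, χ w * fderiv ℝ φ (z, w) (v, 0) := by
  obtain ⟨N, N', hN, -, h1, h2, h3⟩ := generalized_tube_lemma (isCompact_singleton (x := z)) hc hU
    fun x hx => by
      obtain ⟨a, w⟩ := x
      obtain rfl : a = z := hx.1
      exact hz w hx.2
  obtain ⟨ε, hε, h4⟩ := nhds_basis_closedBall.mem_iff.1 (hN.mem_nhds (h1 rfl))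
  have h5 : ∀ a ∈ closedBall z ε, ∀ w ∈ tsupport χ, (a, w) ∈ U := fun a ha w hw =>
    h3 ⟨h4 ha, h2 hw⟩
  let F' : ℂ → ℂ → ℂ →L[ℝ] ℝ := fun a w =>
    χ w • fderiv ℝ φ (a, w) ∘L ContinuousLinearMap.inl ℝ ℂ ℂ
  have h6 : ContinuousOn (fun x : V2 => F' x.1 x.2) U :=
    (hχ.comp continuous_snd).continuousOn.smul ((cont_fderiv hU hφ).clm_comp continuousOn_const)
  obtain ⟨C, hC⟩ := ((isCompact_closedBall z ε).prod hc).exists_bound_of_continuousOn
    (h6.mono fun x hx => h5 _ hx.1 _ hx.2)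
  have h0 : ∀ a, ∀ w ∉ tsupport χ, F' a w = 0 := fun a w hw => by
    simp only [F', image_eq_zero_of_notMem_tsupport hw, zero_smul]
  have h7 : ∀ a ∈ closedBall z ε, Integrable fun w => χ w * φ (a, w) := fun a ha =>
    intg hc (hχ.continuousOn.mul (slice hφ.continuousOn (h5 a ha))) fun w hw => by
      rw [image_eq_zero_of_notMem_tsupport hw, zero_mul]
  have h8 : Integrable (F' z) := intg hc (slice h6 hz) (h0 z)
  refine ⟨∫ w, F' z w, hasFDerivAt_integral_of_dominated_of_fderiv_le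
    (bound := (tsupport χ).indicator fun _ => C) (closedBall_mem_nhds z hε)
    (mem_of_superset (closedBall_mem_nhds z hε) fun a ha => (h7 a ha).1)
    (h7 z (mem_closedBall_self hε.le)) h8.1 (ae_of_all _ fun w a ha => ?_)
    (intg hc (continuousOn_const.congr fun w hw => indicator_of_mem hw _)
      fun w hw => indicator_of_notMem hw _) (ae_of_all _ fun w a ha => ?_),
    fun v => ContinuousLinearMap.integral_apply h8 v⟩
  · by_cases hw : w ∈ tsupport χ
    · rw [indicator_of_mem hw]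
      exact hC (a, w) ⟨ha, hw⟩
    · rw [indicator_of_notMem hw, h0 a w hw, norm_zero]
  · by_cases hw : w ∈ tsupport χ
    · exact ((diff hU hφ (h5 a ha w hw)).comp a (hasFDerivAt_prodMk_left a w)).const_mul (χ w)
    · simp only [h0 a w hw, image_eq_zero_of_notMem_tsupport hw, zero_mul]
      exact hasFDerivAt_const _ _

/-- integration by parts -/
theorem parts (hχ : ContDiff ℝ 1 χ) (hc : HasCompactSupport χ) (hU : IsOpen U)
    (hφ : ContDiffOn ℝ 1 φ U) (hz : ∀ w ∈ tsupport χ, (z, w) ∈ U) (u : ℂ) :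
    ∫ w, χ w * fderiv ℝ φ (z, w) (0, u) = -∫ w, fderiv ℝ χ w u * φ (z, w) := by
  have h1 : ∀ w ∈ tsupport χ, HasFDerivAt (fun w => φ (z, w))
      (fderiv ℝ φ (z, w) ∘L ContinuousLinearMap.inr ℝ ℂ ℂ) w := fun w hw =>
    (diff hU hφ (hz w hw)).comp w (hasFDerivAt_prodMk_right z w)
  have h2 : (fun w => χ w * fderiv ℝ φ (z, w) (0, u)) =
      fun w => χ w * fderiv ℝ (fun w => φ (z, w)) w u := funext fun w => by
    by_cases hw : w ∈ tsupport χ
    · rw [(h1 w hw).fderiv]
      rfl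
    · rw [image_eq_zero_of_notMem_tsupport hw, zero_mul, zero_mul]
  rw [h2]
  exact integral_mul_fderiv_eq_neg_fderiv_mul_of_integrable
    (intg_fderiv' hχ hc hφ.continuousOn hz u)
    (h2 ▸ intg_fderiv hχ.continuous hc hU hφ hz (0, u))
    (intg hc (hχ.continuous.continuousOn.mul (slice hφ.continuousOn hz)) fun w hw => by
      rw [image_eq_zero_of_notMem_tsupport hw, zero_mul])
    (fun w _ => hχ.differentiable one_ne_zero w) fun w hw => (h1 w hw).differentiableAt

end SL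

theorem sl : StSL := by
  intro χ U η hχ hc hU hη _ hcl z hz
  have h1 : ∀ a b, ContDiffOn ℝ 1 (fun x => η x a b) U := fun a b =>
    (hη.clm_apply contDiffOn_const).clm_apply contDiffOn_const
  have h2 : ∀ x ∈ U, ∀ a b c, fderiv ℝ (fun x => η x a b) x c = fderiv ℝ η x c a b :=
    fun x hx a b c => by
      rw [(((SL.diff hU hη hx).clm_apply (hasFDerivAt_const a x)).clm_apply
        (hasFDerivAt_const b x)).fderiv]
      simp
  obtain ⟨L, hL, h3⟩ := SL.par hχ.continuous hc hU (h1 (0, 1) (0, Complex.I)) hz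
  refine ⟨L, hL, fun v => ?_⟩
  rw [h3, integral_add (SL.intg_fderiv' hχ hc (h1 _ _).continuousOn hz _)
    (SL.intg_fderiv' hχ hc (h1 _ _).continuousOn hz _), ← neg_inj, neg_add,
    ← SL.parts hχ hc hU (h1 _ _) hz, ← SL.parts hχ hc hU (h1 _ _) hz, ← integral_neg,
    ← integral_add (SL.intg_fderiv hχ.continuous hc hU (h1 _ _) hz _)
      (SL.intg_fderiv hχ.continuous hc hU (h1 _ _) hz _)]
  refine integral_congr_ae (ae_of_all _ fun w => ?_)
  by_cases hw : w ∈ tsupport χ
  · simp only [h2 _ (hz w hw)]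
    linear_combination -χ w * hcl _ (hz w hw) (v, 0) (0, 1) (0, Complex.I)
  · simp only [image_eq_zero_of_notMem_tsupport hw, zero_mul, neg_zero, add_zero]

end Vale.Agent.P290Z.BR
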