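import Vale.Agent.P290.H805.Fam

/-! P290Z, part III, block BR: limits of isomorphisms of bounded energy. Definitions and the
statements of the steps (euclidean part and abstract families). Paper proof:
`notes/P290_helper76_BR.md`. -/

open Set Filter Metric MeasureTheory
open scoped Topology Manifold ContDiff

namespace Vale.Agent.P290Z.BR

open Vale.Agent.P290 Vale.Agent.P290.H805

/-- the model space -/
abbrev V2 : Type := ℂ × ℂ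

/-- real bilinear forms -/
abbrev B2 : Type := V2 →L[ℝ] V2 →L[ℝ] ℝ

/-- `f` is holomorphic at `z` -/
abbrev Md {W X : Type} [NormedAddCommGroup W] [NormedSpace ℂ W] [TopologicalSpace X]
    [ChartedSpace V2 X] (f : W → X) (z : W) : Prop :=
  MDifferentiableAt 𝓘(ℂ, W) 𝓘(ℂ, V2) f z

/-- A charted map: the coordinates `h j` on `O j` of a holomorphic map from `U` to a surface with
charts `j` and cores `K j`; every point is `δ`-deep in some core. -/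
structure CM {W : Type} [NormedAddCommGroup W] [NormedSpace ℂ W] {ι : Type} (K : ι → Set V2)
    (δ : ℝ) (U : Set W) (O : ι → Set W) (h : ι → W → V2) : Prop where
  isOpen : IsOpen U
  openO : ∀ j, IsOpen (O j)
  sub : ∀ j, O j ⊆ U
  hol : ∀ j, DifferentiableOn ℂ (h j) (O j)
  cover : ∀ x ∈ U, ∃ j, x ∈ O j ∧ closedBall (h j x) δ ⊆ K j
  closed : ∀ j, ∀ x ∈ U, x ∈ closure {y | y ∈ O j ∧ h j y ∈ K j} → x ∈ O j

/-- a charted curve with its area density `e` -/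
structure Dc {ι : Type} (K : ι → Set V2) (δ Λ : ℝ) (U : Set ℂ) (O : ι → Set ℂ) (h : ι → ℂ → V2)
    (e : ℂ → ℝ) : Prop extends CM K δ U O h where
  cont : ContinuousOn e U
  lo : ∀ j, ∀ x ∈ O j, h j x ∈ K j → ‖deriv (h j) x‖ ^ 2 ≤ Λ * e x
  hi : ∀ j, ∀ x ∈ O j, h j x ∈ K j → e x ≤ Λ * ‖deriv (h j) x‖ ^ 2

/-- a charted map of two variables with the pull back `η` of a closed taming form -/
structure Tm {ι : Type} (K : ι → Set V2) (δ Λ : ℝ) (U : Set V2) (O : ι → Set V2)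
    (h : ι → V2 → V2) (η : V2 → B2) : Prop extends CM K δ U O h where
  smooth : ContDiffOn ℝ 1 η U
  alt : ∀ x ∈ U, ∀ a b, η x a b = -η x b a
  cl : ∀ x ∈ U, ∀ a b c, fderiv ℝ η x a b c + fderiv ℝ η x b c a + fderiv ℝ η x c a b = 0
  lo : ∀ j, ∀ x ∈ O j, h j x ∈ K j → ∀ a,
    ‖fderiv ℂ (h j) x a‖ ^ 2 ≤ Λ * η x a (Complex.I • a)
  hi : ∀ j, ∀ x ∈ O j, h j x ∈ K j → ∀ a b,
    |η x a b| ≤ Λ * ‖fderiv ℂ (h j) x a‖ * ‖fderiv ℂ (h j) x b‖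

/-- the energy density -/
noncomputable def En (η : V2 → B2) (x : V2) : ℝ :=
  η x (1, 0) (Complex.I, 0) + η x (0, 1) (0, Complex.I)

/-- the pull back of `η` under `x ↦ p + L x` -/
noncomputable def pull (η : V2 → B2) (p : V2) (L : V2 →L[ℂ] V2) (x : V2) : B2 :=
  (η (p + L x)).bilinearComp (L.restrictScalars ℝ) (L.restrictScalars ℝ)

/-- near `v` almost all the maps have values in one core -/
def LGood {W : Type} [NormedAddCommGroup W] {ι : Type} (𝒰 : Ultrafilter ℕ) (K : ι → Set V2)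
    (O : ℕ → ι → Set W) (h : ℕ → ι → W → V2) (v : W) : Prop :=
  ∃ j, ∃ ε > (0 : ℝ), ∀ᶠ n in (𝒰 : Filter ℕ), ∀ x ∈ ball v ε, x ∈ O n j ∧ h n j x ∈ K j

/-- PULL: affine changes of variables, slices, pointwise inequalities -/
def StPull : Prop :=
  ∀ (ι : Type) (K : ι → Set V2) (δ Λ : ℝ) (U : Set V2) (O : ι → Set V2) (h : ι → V2 → V2)
    (η : V2 → B2), 0 < δ → 0 < Λ → Tm K δ Λ U O h η →
    (∀ (p : V2) (L : V2 →L[ℂ] V2), Tm K δ Λ {x | p + L x ∈ U} (fun j => {x | p + L x ∈ O j})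
      (fun j x => h j (p + L x)) (pull η p L) ∧
      ∀ x, p + L x ∈ U → En (pull η p L) x ≤ 4 * ‖L‖ ^ 2 * En η (p + L x)) ∧
    (∀ p v : V2, Dc K δ Λ {w : ℂ | p + w • v ∈ U} (fun j => {w : ℂ | p + w • v ∈ O j})
      (fun j w => h j (p + w • v)) (fun w => η (p + w • v) v (Complex.I • v))) ∧
    ContinuousOn (En η) U ∧
    ∀ x ∈ U, ∀ a b, 0 ≤ η x a (Complex.I • a) ∧ η x a (Complex.I • a) ≤ 2 * ‖a‖ ^ 2 * En η x ∧
      |η x a b| ≤ 2 * Λ ^ 2 * ‖a‖ * ‖b‖ * En η x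

/-- CHG: affine change of variables in integrals of nonnegative functions -/
def StChg : Prop :=
  ∀ L : V2 ≃L[ℂ] V2, ∃ c > (0 : ℝ), ∀ (φ : V2 → ℝ) (p : V2) (A Q : Set V2), IsCompact A →
    IsCompact Q → (∀ x ∈ A, p + L x ∈ Q) → ContinuousOn φ Q → (∀ x ∈ Q, 0 ≤ φ x) →
    ∫ x in A, φ (p + L x) ≤ c * ∫ x in Q, φ x

/-- E1: discs of small area have small oscillation -/
def StE1 : Prop :=
  ∀ δ Λ θ : ℝ, 0 < δ → 0 < Λ → 0 < θ → ∃ ε > (0 : ℝ),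
    ∀ (ι : Type) (K : ι → Set V2) (U : Set ℂ) (O : ι → Set ℂ) (h : ι → ℂ → V2) (e : ℂ → ℝ),
      Dc K δ Λ U O h e → ∀ (c : ℂ) (ρ : ℝ), 0 < ρ → closedBall c ρ ⊆ U →
      ∫ w in ball c ρ, e w ≤ ε → ∀ j, ∀ w₁ ∈ closedBall c (ρ / 2), w₁ ∈ O j →
      closedBall (h j w₁) θ ⊆ K j → ∀ w ∈ closedBall c (ρ / 2), w ∈ O j ∧ ‖h j w - h j w₁‖ ≤ θ

/-- SL: Stokes with a cut off function -/
def StSL : Prop :=
  ∀ (χ : ℂ → ℝ) (U : Set V2) (η : V2 → B2), ContDiff ℝ 1 χ → HasCompactSupport χ → IsOpen U →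
    ContDiffOn ℝ 1 η U → (∀ x ∈ U, ∀ a b, η x a b = -η x b a) →
    (∀ x ∈ U, ∀ a b c, fderiv ℝ η x a b c + fderiv ℝ η x b c a + fderiv ℝ η x c a b = 0) →
    ∀ z : ℂ, (∀ w ∈ tsupport χ, (z, w) ∈ U) → ∃ L : ℂ →L[ℝ] ℝ,
      HasFDerivAt (fun z : ℂ => ∫ w, χ w * η (z, w) (0, 1) (0, Complex.I)) L z ∧
      ∀ v : ℂ, L v = ∫ w, (fderiv ℝ χ w 1 * η (z, w) (0, Complex.I) (v, 0) +
        fderiv ℝ χ w Complex.I * η (z, w) (v, 0) (0, 1))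

/-- E2: bidiscs of small energy are mapped to one core -/
def StE2 : Prop :=
  ∀ δ Λ : ℝ, 0 < δ → 0 < Λ → ∃ ε > (0 : ℝ),
    ∀ (ι : Type) (K : ι → Set V2) (U : Set V2) (O : ι → Set V2) (h : ι → V2 → V2) (η : V2 → B2),
      Tm K δ Λ U O h η → ∀ (p : V2) (ρ : ℝ), 0 < ρ → closedBall p (2 * ρ) ⊆ U →
      ∫ x in ball p (2 * ρ), En η x ≤ ε * ρ ^ 2 →
      ∃ j, ∀ x ∈ ball p (ρ / 4), x ∈ O j ∧ h j x ∈ K j

/-- a sequence of maps of bounded energy on the closed bidisc of radius two -/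
def Sq {ι : Type} (𝒰 : Ultrafilter ℕ) (K : ι → Set V2) (δ Λ : ℝ) (U : ℕ → Set V2)
    (O : ℕ → ι → Set V2) (h : ℕ → ι → V2 → V2) (η : ℕ → V2 → B2) (C : ℝ) : Prop :=
  ∀ᶠ n in (𝒰 : Filter ℕ), Tm K δ Λ (U n) (O n) (h n) (η n) ∧ closedBall (0 : V2) 2 ⊆ U n ∧
    ∫ x in closedBall (0 : V2) 2, En (η n) x ≤ C

/-- COL: a good circle, by the pigeonhole principle -/
def StCol : Prop :=
  ∀ (ι : Type) [Finite ι] (𝒰 : Ultrafilter ℕ) (K : ι → Set V2) (δ Λ : ℝ) (U : ℕ → Set V2)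
    (O : ℕ → ι → Set V2) (h : ℕ → ι → V2 → V2) (η : ℕ → V2 → B2) (C : ℝ), 0 < δ → 0 < Λ →
    Sq 𝒰 K δ Λ U O h η C → ∃ (a : ℂ) (r : ℝ), ‖a‖ ≤ 1 / 2 ∧ 1 / 2 ≤ r ∧ r ≤ 1 ∧
      ∀ w : ℂ, ‖w‖ = r → LGood 𝒰 K O h (a * w, w)

/-- SLICE A: all the slices through a good collar have bounded area -/
def StSliceA : Prop :=
  ∀ (ι : Type) (𝒰 : Ultrafilter ℕ) (K : ι → Set V2) (δ Λ : ℝ) (U : ℕ → Set V2)
    (O : ℕ → ι → Set V2) (h : ℕ → ι → V2 → V2) (η : ℕ → V2 → B2) (C : ℝ), 0 < δ → 0 < Λ →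
    (∀ j, IsCompact (K j)) → Sq 𝒰 K δ Λ U O h η C → ∀ r : ℝ, 0 < r → r ≤ 1 →
    (∀ w : ℂ, ‖w‖ = r → LGood 𝒰 K O h (0, w)) → ∃ ρ > (0 : ℝ), ρ < r ∧
      (∀ z w : ℂ, ‖z‖ < ρ → r - ρ < ‖w‖ → ‖w‖ < r + ρ → LGood 𝒰 K O h (z, w)) ∧
      ∃ C' : ℝ, ∀ z : ℂ, ‖z‖ < ρ → ∀ᶠ n in (𝒰 : Filter ℕ),
        ∫ w in ball (0 : ℂ) (r + ρ), η n (z, w) (0, 1) (0, Complex.I) ≤ C'

/-- SLICE B: curves of bounded area: finitely many bubble points, small circles -/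
def StSliceB : Prop :=
  ∀ (ι : Type) [Finite ι] (𝒰 : Ultrafilter ℕ) (K : ι → Set V2) (δ Λ : ℝ) (U : ℕ → Set ℂ)
    (O : ℕ → ι → Set ℂ) (h : ℕ → ι → ℂ → V2) (e : ℕ → ℂ → ℝ) (R C : ℝ), 0 < δ → 0 < Λ →
    (∀ᶠ n in (𝒰 : Filter ℕ), Dc K δ Λ (U n) (O n) (h n) (e n) ∧ closedBall (0 : ℂ) R ⊆ U n ∧
      ∫ w in ball (0 : ℂ) R, e n w ≤ C) →
    {w : ℂ | ‖w‖ < R ∧ ¬ LGood 𝒰 K O h w}.Finite ∧
      ∀ w₀ : ℂ, ‖w₀‖ < R → ∀ θ > (0 : ℝ), ∃ τ₀ > (0 : ℝ), ∀ τ : ℝ, 0 < τ → τ < τ₀ → ∃ j,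
        ∀ᶠ n in (𝒰 : Filter ℕ), ∀ w w' : ℂ, ‖w - w₀‖ = τ → ‖w' - w₀‖ = τ →
          w ∈ O n j ∧ h n j w ∈ K j ∧ ‖h n j w - h n j w'‖ ≤ θ

/-- MON: limits of bounded holomorphic maps along a filter -/
def StMon : Prop :=
  ∀ (W : Type) [NormedAddCommGroup W] [NormedSpace ℂ W] [FiniteDimensional ℂ W] (𝓕 : Filter ℕ)
    [𝓕.NeBot] (h : ℕ → W → V2) (H : W → V2) (x : W) (ε M : ℝ), 0 < ε →
    (∀ᶠ n in 𝓕, DifferentiableOn ℂ (h n) (ball x ε) ∧ ∀ y ∈ ball x ε, ‖h n y‖ ≤ M) →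
    (∀ y ∈ ball x ε, Tendsto (fun n => h n y) 𝓕 (𝓝 (H y))) →
    DifferentiableOn ℂ H (ball x ε) ∧ TendstoUniformlyOn h H 𝓕 (ball x (ε / 2)) ∧
      Tendsto (fun n => fderiv ℂ (h n) x) 𝓕 (𝓝 (fderiv ℂ H x)) ∧
      ∀ y : ℕ → W, Tendsto y 𝓕 (𝓝 x) → Tendsto (fun n => h n (y n)) 𝓕 (𝓝 (H x))

/-- REM: removable singularities -/
def StRem : Prop :=
  ∀ (X : Type) [MetricSpace X] [CompactSpace X] [ChartedSpace V2 X] [IsManifold 𝓘(ℂ, V2) ω X]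
    (u : ℂ → X) (c : ℂ), (∀ᶠ w in 𝓝[≠] c, Md u w) →
    (∀ θ > (0 : ℝ), ∃ τ > (0 : ℝ), ∀ w w' : ℂ, w ≠ c → ‖w - c‖ < τ → ‖w' - c‖ = ‖w - c‖ →
      dist (u w) (u w') ≤ θ) → ∃ y : X, Md (Function.update u c y) c

/-- HART: a map which is holomorphic on a collar and on every slice is holomorphic near all but
countably many slices -/
def StHart : Prop :=
  ∀ (X : Type) [MetricSpace X] [CompactSpace X] [ChartedSpace V2 X] [IsManifold 𝓘(ℂ, V2) ω X]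
    (Φ : V2 → X) (D : Set ℂ) (r₁ r₂ : ℝ), IsOpen D → 0 < r₁ → r₁ < r₂ →
    (∀ z ∈ D, ∀ w : ℂ, r₁ < ‖w‖ → ‖w‖ < r₂ → Md Φ (z, w)) →
    (∀ z ∈ D, ∀ w : ℂ, ‖w‖ < r₂ → Md (fun w : ℂ => Φ (z, w)) w) →
    {z ∈ D | ¬ ∀ᶠ z' in 𝓝 z, ∀ w : ℂ, ‖w‖ < r₂ → Md Φ (z', w)}.Countable

/-- PHI: the limit map, corrected at finitely many points of each slice, is holomorphic near all
but countably many slices -/
def StPhi : Prop :=
  ∀ (X : Type) [MetricSpace X] [CompactSpace X] [ChartedSpace V2 X] [IsManifold 𝓘(ℂ, V2) ω X]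
    (ι : Type) [Finite ι] (e : ι → OpenPartialHomeomorph X V2) (𝒰 : Ultrafilter ℕ)
    (K : ι → Set V2) (δ Λ : ℝ) (U : ℕ → Set V2) (O : ℕ → ι → Set V2) (h : ℕ → ι → V2 → V2)
    (η : ℕ → V2 → B2) (C : ℝ) (G : V2 → X), 0 < δ → 0 < Λ → (∀ j, e j ∈ atlas V2 X) →
    (∀ j, IsCompact (K j)) → (∀ j, K j ⊆ (e j).target) → Sq 𝒰 K δ Λ U O h η C →
    (∀ v ∈ closedBall (0 : V2) 2, ∀ j, (∀ᶠ n in (𝒰 : Filter ℕ), v ∈ O n j ∧ h n j v ∈ K j) →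
      G v ∈ (e j).source ∧ Tendsto (fun n => h n j v) 𝒰 (𝓝 (e j (G v)))) →
    ∀ r : ℝ, 0 < r → r ≤ 1 → (∀ w : ℂ, ‖w‖ = r → LGood 𝒰 K O h (0, w)) →
    ∃ ρ > (0 : ℝ), ∃ (B : Set ℂ) (Φ : V2 → X), B.Countable ∧
      (∀ z : ℂ, ‖z‖ < ρ → {w : ℂ | ‖w‖ < r ∧ Φ (z, w) ≠ G (z, w)}.Finite) ∧
      ∀ z : ℂ, ‖z‖ < ρ → z ∉ B → ∀ᶠ z' in 𝓝 z, ∀ w : ℂ, ‖w‖ < r → Md Φ (z', w)

section mfd

variable {X X' : Type} [TopologicalSpace X] [ChartedSpace V2 X] [TopologicalSpace X']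
  [ChartedSpace V2 X']

/-- the points near which `f`, given on `G`, has a holomorphic extension -/
def ExtS (f : X → X') (G : Set X) : Set X :=
  {x | ∃ N : Set X, IsOpen N ∧ x ∈ N ∧ ∃ g : X → X', (∀ y ∈ N, All.Hol g y) ∧
    ∀ y ∈ N, y ∈ G → g y = f y}

/-- the determinant of the derivative, in the preferred charts -/
noncomputable def Det (g : X → X') (x : X) : ℂ :=
  (fderiv ℂ (fun z => chartAt V2 (g x) (g ((chartAt V2 x).symm z))) (chartAt V2 x x)).det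

/-- all local extensions of `f` are etale -/
def ExtEt (f : X → X') (G : Set X) : Prop :=
  ∀ N : Set X, IsOpen N → ∀ g : X → X', (∀ y ∈ N, All.Hol g y) →
    (∀ y ∈ N, y ∈ G → g y = f y) → ∀ y ∈ N, Det g y ≠ 0

end mfd

/-- FIN: from extensions outside countable sets to an isomorphism -/
def StFin : Prop :=
  ∀ (X X' : Type) [TopologicalSpace X] [T2Space X] [CompactSpace X] [ChartedSpace V2 X]
    [IsManifold 𝓘(ℂ, V2) ω X] [TopologicalSpace X'] [T2Space X'] [CompactSpace X']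
    [ChartedSpace V2 X'] [IsManifold 𝓘(ℂ, V2) ω X'] (f : X → X') (g : X' → X) (G : Set X)
    (G' : Set X'), IsOpen G → Dense G → IsOpen G' → Dense G' → (∀ x ∈ G, All.Hol f x) →
    (∀ y ∈ G', All.Hol g y) → (∀ x ∈ G, f x ∈ G' → g (f x) = x) →
    (∀ y ∈ G', g y ∈ G → f (g y) = y) → (ExtS f G)ᶜ.Countable → (ExtS g G')ᶜ.Countable →
    ExtEt f G → ExtEt g G' →
    ∃ e : X ≃ₜ X', (∀ x, All.Hol e x) ∧ ∀ y, All.Hol e.symm y

section fam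

variable {T E T' E' : Type} [TopologicalSpace T] [TopologicalSpace E] [TopologicalSpace T']
  [TopologicalSpace E']

/-- the map `f n` in the trivialisation at `x` -/
noncomputable def uu (F : Family T E) (a : ℕ → T) (f : ℕ → E → E') (x : E) (n : ℕ) (v : V2) :
    E' := f n ((F.triv x).symm (a n, v))

/-- its domain -/
def UU (F : Family T E) (a : ℕ → T) (x : E) (n : ℕ) : Set V2 :=
  {v | (a n, v) ∈ (F.triv x).target}

/-- the domain of its coordinate in the trivialisation at `y` -/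
def OO (F : Family T E) (F' : Family T' E') (a : ℕ → T) (f : ℕ → E → E') (x : E) (n : ℕ)
    (y : E') : Set V2 :=
  {v | (a n, v) ∈ (F.triv x).target ∧ uu F a f x n v ∈ (F'.triv y).source}

/-- its coordinate in the trivialisation at `y` -/
noncomputable def hh (F : Family T E) (F' : Family T' E') (a : ℕ → T) (f : ℕ → E → E') (x : E)
    (n : ℕ) (y : E') (v : V2) : V2 := (F'.triv y (uu F a f x n v)).2

/-- The maps `f n` from the fibre over `a n` to the fibre over `b n` are holomorphic and of bounded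
energy, for a finite tamed atlas near the fibre over `s'`. -/
structure Half (F : Family T E) (F' : Family T' E') (s : T) (s' : T') (a : ℕ → T) (b : ℕ → T')
    (f : ℕ → E → E') where
  ι : Type
  fin : Finite ι
  y : ι → Fib F' s'
  K : ι → Set V2
  δ : ℝ
  Λ : ℝ
  δ_pos : 0 < δ
  Λ_pos : 0 < Λ
  cpt : ∀ j, IsCompact (K j)
  tgt : ∀ j, ∀ v ∈ K j, (s', v) ∈ (F'.triv (y j).val).target
  lima : Tendsto a atTop (𝓝 s)
  limb : Tendsto b atTop (𝓝 s')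
  hol : ∀ n x v, (a n, v) ∈ (F.triv x).target → FH F' (b n) (uu F a f x n) v
  tm : ∀ (x : E) (Q : Set V2), IsCompact Q → (∀ v ∈ Q, (s, v) ∈ (F.triv x).target) →
    ∃ (C : ℝ) (η : ℕ → V2 → B2), ∀ᶠ n in atTop,
      Tm K δ Λ (UU F a x n) (fun j => OO F F' a f x n (y j).val)
        (fun j => hh F F' a f x n (y j).val) (η n) ∧ Q ⊆ UU F a x n ∧ ∫ v in Q, En (η n) v ≤ C

variable {F : Family T E} {F' : Family T' E'} {s : T} {s' : T'} {a : ℕ → T} {b : ℕ → T'}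
  {f : ℕ → E → E'}

/-- the good set -/
def Half.Gd (H : Half F F' s s' a b f) (𝒰 : Ultrafilter ℕ) : Set (Fib F s) :=
  {x | ∃ j, ∃ W ∈ 𝓝 x.val, ∀ᶠ n in (𝒰 : Filter ℕ), ∀ q ∈ W, F.p q = a n →
    f n q ∈ (F'.triv (H.y j).val).source ∧ (F'.triv (H.y j).val (f n q)).2 ∈ H.K j}

/-- `l` is the pointwise limit of the maps `f n` -/
def IsLim (F : Family T E) (F' : Family T' E') (s : T) (s' : T') (a : ℕ → T) (f : ℕ → E → E')
    (𝒰 : Ultrafilter ℕ) (l : Fib F s → Fib F' s') : Prop :=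
  ∀ x : Fib F s, Tendsto (fun n => uu F a f x.val n (F.triv x.val x.val).2) 𝒰 (𝓝 (l x).val)

/-- the maps `f n` multiply the two-forms by the constants `c n` -/
def Law (F : Family T E) (F' : Family T' E') (vol : E → T × V2 → ℂ) (vol' : E' → T' × V2 → ℂ)
    (a : ℕ → T) (b : ℕ → T') (f : ℕ → E → E') (c : ℕ → ℂ) : Prop :=
  ∀ n x y, ∀ v ∈ OO F F' a f x n y,
    vol' y (b n, hh F F' a f x n y v) * (fderiv ℂ (hh F F' a f x n y) v).det =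
      c n * vol x (a n, v)

/-- the coefficient of the two-form is continuous and has no zero -/
def VolOk (F : Family T E) (vol : E → T × V2 → ℂ) : Prop :=
  ∀ x q, q ∈ (F.triv x).target → ContinuousAt (vol x) q ∧ vol x q ≠ 0

end fam

/-- GOOD: pointwise limits exist; the good set -/
def StGood : Prop :=
  ∀ (T E T' E' : Type) [TopologicalSpace T] [TopologicalSpace E] [TopologicalSpace T']
    [TopologicalSpace E'] [T2Space E'] (F : Family T E) (F' : Family T' E') (s : T) (s' : T')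
    (a : ℕ → T) (b : ℕ → T') (f : ℕ → E → E') (H : Half F F' s s' a b f) (𝒰 : Ultrafilter ℕ),
    (𝒰 : Filter ℕ) ≤ atTop →
    (∀ (x : E) (v : V2), (s, v) ∈ (F.triv x).target →
      ∃ y : Fib F' s', Tendsto (fun n => uu F a f x n v) 𝒰 (𝓝 y.val)) ∧
    (∀ (x : Fib F s) (v : V2), (s, v) ∈ (F.triv x.val).target →
      (LGood 𝒰 H.K (fun n j => OO F F' a f x.val n (H.y j).val)
        (fun n j => hh F F' a f x.val n (H.y j).val) v ↔ (fibChart F s x).symm v ∈ H.Gd 𝒰)) ∧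
    IsOpen (H.Gd 𝒰) ∧ ∀ l : Fib F s → Fib F' s', IsLim F F' s s' a f 𝒰 l → ∀ x ∈ H.Gd 𝒰,
      All.Hol l x ∧ ∀ q : ℕ → E, (∀ᶠ n in (𝒰 : Filter ℕ), F.p (q n) = a n) →
        Tendsto q 𝒰 (𝓝 x.val) → Tendsto (fun n => f n (q n)) 𝒰 (𝓝 (l x).val)

/-- LAW: the limit of the determinants -/
def StLaw : Prop :=
  ∀ (T E T' E' : Type) [TopologicalSpace T] [TopologicalSpace E] [TopologicalSpace T']
    [TopologicalSpace E'] [T2Space E'] (F : Family T E) (F' : Family T' E') (s : T) (s' : T')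
    (a : ℕ → T) (b : ℕ → T') (f : ℕ → E → E') (H : Half F F' s s' a b f) (𝒰 : Ultrafilter ℕ),
    (𝒰 : Filter ℕ) ≤ atTop → ∀ (vol : E → T × V2 → ℂ) (vol' : E' → T' × V2 → ℂ) (c : ℕ → ℂ),
    VolOk F vol → VolOk F' vol' → Law F F' vol vol' a b f c →
    ∀ l : Fib F s → Fib F' s', IsLim F F' s s' a f 𝒰 l → Dense (H.Gd 𝒰) →
    (Nonempty (Fib F s) → ∃ c₀ : ℂ, Tendsto c 𝒰 (𝓝 c₀)) ∧
    ∀ c₀ : ℂ, c₀ ≠ 0 → Tendsto c 𝒰 (𝓝 c₀) → ExtEt l (H.Gd 𝒰)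

/-- DIR: extension along the slices of one direction -/
def StDir : Prop :=
  ∀ (T E T' E' : Type) [TopologicalSpace T] [TopologicalSpace E] [TopologicalSpace T']
    [TopologicalSpace E'] [T2Space E'] (F : Family T E) (F' : Family T' E') (s : T) (s' : T')
    [CompactSpace (Fib F' s')]
    (a : ℕ → T) (b : ℕ → T') (f : ℕ → E → E') (H : Half F F' s s' a b f) (𝒰 : Ultrafilter ℕ),
    (𝒰 : Filter ℕ) ≤ atTop → ∀ l : Fib F s → Fib F' s', IsLim F F' s s' a f 𝒰 l →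
    ∀ (x : Fib F s) (v₀ : V2) (R : ℝ) (L : V2 ≃L[ℂ] V2), 0 < R → (∀ v, ‖L v‖ ≤ ‖v‖) →
    (∀ v ∈ closedBall v₀ (4 * R), (s, v) ∈ (F.triv x.val).target) →
    ∃ α : ℂ, ‖α‖ ≤ 1 / 2 ∧
      (∃ v ∈ closedBall v₀ R, (fibChart F s x).symm v ∈ H.Gd 𝒰) ∧
      ∃ ρ > (0 : ℝ), ∃ B : Set ℂ, B.Countable ∧ ∀ z w : ℂ, ‖z‖ < ρ → ‖w‖ < 1 / 2 → z ∉ B →
        (fibChart F s x).symm (v₀ + (R : ℂ) • L (z + α * w, w)) ∈ ExtS l (H.Gd 𝒰)

/-- CORE: the limit of isomorphisms of bounded energy -/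
def StCore : Prop :=
  ∀ (T E T' E' : Type) [TopologicalSpace T] [TopologicalSpace E] [T2Space E] [TopologicalSpace T']
    [TopologicalSpace E'] [T2Space E'] (F : Family T E) (F' : Family T' E') (s : T) (s' : T')
    [CompactSpace (Fib F s)] [CompactSpace (Fib F' s')] [Nonempty (Fib F s)]
    [Nonempty (Fib F' s')] (a : ℕ → T) (b : ℕ → T') (f : ℕ → E → E') (g : ℕ → E' → E),
    Nonempty (Half F F' s s' a b f) → Nonempty (Half F' F s' s b a g) →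
    (∀ n q, F.p q = a n → g n (f n q) = q) → (∀ n q, F'.p q = b n → f n (g n q) = q) →
    ∀ (vol : E → T × V2 → ℂ) (vol' : E' → T' × V2 → ℂ) (c : ℕ → ℂ), VolOk F vol →
    VolOk F' vol' → (∀ n, c n ≠ 0) → Law F F' vol vol' a b f c →
    Law F' F vol' vol b a g (fun n => (c n)⁻¹) →
    ∃ e : Fib F s ≃ₜ Fib F' s', (∀ x, All.Hol e x) ∧ ∀ y, All.Hol e.symm y

end Vale.Agent.P290Z.BR
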