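import Mathlib
import Vale.Agent.P290Z.BR.SpecA

/-! P290Z, block BR, step SLICE A: the slices through a good collar have bounded area. -/

open Set Filter Metric MeasureTheory
open scoped Topology

namespace Vale.Agent.P290Z.BR

namespace SlA

variable {ι : Type} {𝒰 : Ultrafilter ℕ} {K : ι → Set V2} {δ Λ : ℝ} {U : ℕ → Set V2}
  {O : ℕ → ι → Set V2} {h : ℕ → ι → V2 → V2} {η : ℕ → V2 → B2} {C : ℝ}

theorem isOpen_good : IsOpen {v : V2 | LGood 𝒰 K O h v} := by
  rw [Metric.isOpen_iff]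
  rintro v ⟨j, ε, hε, hv⟩
  refine ⟨ε / 2, by positivity, fun x hx => ⟨j, ε / 2, by positivity, ?_⟩⟩
  filter_upwards [hv] with n hn y hy
  apply hn
  rw [mem_ball] at hx hy ⊢
  have := dist_triangle y x v
  linarith

/-- near a good point the forms are uniformly bounded -/
theorem loc_bd (hΛ : 0 < Λ) (hK : ∀ j, IsCompact (K j)) (hq : Sq 𝒰 K δ Λ U O h η C) {v : V2}
    (hv : LGood 𝒰 K O h v) : ∃ t ∈ 𝓝 v, ∃ M : ℝ, 0 ≤ M ∧ ∀ᶠ n in (𝒰 : Filter ℕ), ∀ x ∈ t,
      ∀ a b, |η n x a b| ≤ M * ‖a‖ * ‖b‖ := by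
  obtain ⟨j, ε, hε, hv⟩ := hv
  obtain ⟨M, hM⟩ := (hK j).isBounded.exists_norm_le
  refine ⟨ball v (ε / 2), ball_mem_nhds _ (by positivity), Λ * (2 * |M| / (ε / 2)) ^ 2,
    by positivity, ?_⟩
  filter_upwards [hv, hq] with n hn hT x hx a b
  have hsub : ball x (ε / 2) ⊆ ball v ε := by
    intro y hy
    rw [mem_ball] at hx hy ⊢
    have := dist_triangle y x v
    linarith
  have hx' : x ∈ ball v ε := hsub (mem_ball_self (by positivity))
  have hd : ‖fderiv ℂ (h n j) x‖ ≤ 2 * |M| / (ε / 2) := by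
    apply Complex.norm_fderiv_le_div_of_mapsTo_ball _ _ (by positivity)
    · exact (hT.1.hol j).mono fun y hy => (hn y (hsub hy)).1
    · intro y hy
      rw [mem_closedBall, dist_eq_norm]
      have h1 := hM _ (hn y (hsub hy)).2
      have h2 := hM _ (hn x hx').2
      have h3 := norm_sub_le (h n j y) (h n j x)
      have := le_abs_self M
      linarith
  have ha : ‖fderiv ℂ (h n j) x a‖ ≤ 2 * |M| / (ε / 2) * ‖a‖ :=
    ((fderiv ℂ (h n j) x).le_opNorm a).trans (by gcongr)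
  have hb : ‖fderiv ℂ (h n j) x b‖ ≤ 2 * |M| / (ε / 2) * ‖b‖ :=
    ((fderiv ℂ (h n j) x).le_opNorm b).trans (by gcongr)
  calc |η n x a b| ≤ Λ * ‖fderiv ℂ (h n j) x a‖ * ‖fderiv ℂ (h n j) x b‖ :=
        hT.1.hi j x (hn x hx').1 (hn x hx').2 a b
    _ ≤ Λ * (2 * |M| / (ε / 2) * ‖a‖) * (2 * |M| / (ε / 2) * ‖b‖) := by gcongr
    _ = Λ * (2 * |M| / (ε / 2)) ^ 2 * ‖a‖ * ‖b‖ := by ring

/-- uniform bound on a compact set of good points -/
theorem cpt_bd (hΛ : 0 < Λ) (hK : ∀ j, IsCompact (K j)) (hq : Sq 𝒰 K δ Λ U O h η C) {Q : Set V2}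
    (hQ : IsCompact Q) (hv : ∀ v ∈ Q, LGood 𝒰 K O h v) : ∃ M : ℝ, 0 ≤ M ∧
      ∀ᶠ n in (𝒰 : Filter ℕ), ∀ x ∈ Q, ∀ a b, |η n x a b| ≤ M * ‖a‖ * ‖b‖ := by
  refine hQ.induction_on (p := fun Q => ∃ M : ℝ, 0 ≤ M ∧
      ∀ᶠ n in (𝒰 : Filter ℕ), ∀ x ∈ Q, ∀ a b, |η n x a b| ≤ M * ‖a‖ * ‖b‖) ?_ ?_ ?_ ?_
  · exact ⟨0, le_rfl, Eventually.of_forall fun n x hx => hx.elim⟩
  · rintro s t hst ⟨M, hM, hn⟩
    exact ⟨M, hM, hn.mono fun n hn x hx => hn x (hst hx)⟩
  · rintro s t ⟨M, hM, hn⟩ ⟨N, hN, hn'⟩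
    refine ⟨M + N, by positivity, ?_⟩
    filter_upwards [hn, hn'] with n h1 h2 x hx a b
    rcases hx with hx | hx
    · exact (h1 x hx a b).trans (by gcongr; linarith)
    · exact (h2 x hx a b).trans (by gcongr; linarith)
  · intro x hx
    obtain ⟨t, ht, hM⟩ := loc_bd hΛ hK hq (hv x hx)
    exact ⟨t, mem_nhdsWithin_of_mem_nhds ht, hM⟩

/-- a closed collar of good points -/
theorem collar {r : ℝ} (hr : 0 < r) (hg : ∀ w : ℂ, ‖w‖ = r → LGood 𝒰 K O h (0, w)) :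
    ∃ σ > (0 : ℝ), σ < r ∧ ∀ z w : ℂ, ‖z‖ ≤ σ → r - σ ≤ ‖w‖ → ‖w‖ ≤ r + σ →
      LGood 𝒰 K O h (z, w) := by
  have hS : IsCompact (({0} : Set ℂ) ×ˢ sphere (0 : ℂ) r) :=
    isCompact_singleton.prod (isCompact_sphere _ _)
  obtain ⟨σ, hσ, hsub⟩ := hS.exists_cthickening_subset_open (isOpen_good (𝒰 := 𝒰) (K := K)
    (O := O) (h := h)) (by
      rintro ⟨z, w⟩ ⟨hz, hw⟩
      have hz' : z = 0 := hz
      subst hz'
      exact hg w (by simpa using hw))
  refine ⟨min σ (r / 2), by positivity, (min_le_right _ _).trans_lt (by linarith), ?_⟩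
  intro z w hz h1 h2
  have hs1 : min σ (r / 2) ≤ σ := min_le_left _ _
  have hs2 : min σ (r / 2) ≤ r / 2 := min_le_right _ _
  have hw : 0 < ‖w‖ := by linarith
  apply hsub
  refine mem_cthickening_of_dist_le (z, w) (0, ((r / ‖w‖ : ℝ) : ℂ) * w) σ _ ⟨rfl, ?_⟩ ?_
  · rw [mem_sphere_zero_iff_norm, norm_mul, Complex.norm_real, Real.norm_eq_abs,
      abs_of_pos (by positivity)]
    field_simp
  · rw [Prod.dist_eq, max_le_iff]
    refine ⟨by simpa using hz.trans hs1, ?_⟩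
    have e1 : w - ((r / ‖w‖ : ℝ) : ℂ) * w = (((‖w‖ - r) / ‖w‖ : ℝ) : ℂ) * w := by
      have : ((‖w‖ - r) / ‖w‖ : ℝ) = 1 - r / ‖w‖ := by field_simp
      rw [this]
      push_cast
      ring
    rw [dist_eq_norm]
    simp only
    rw [e1, norm_mul, Complex.norm_real, Real.norm_eq_abs, abs_div, abs_of_pos hw,
      div_mul_cancel₀ _ hw.ne', abs_le]
    constructor <;> linarith

/-- a slice of small energy -/
theorem small_slice {φ : V2 → ℝ} {C ρ : ℝ} (hρ : 0 < ρ) (hρ2 : ρ ≤ 2)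
    (hc : ContinuousOn φ (closedBall 0 2)) (h0 : ∀ x ∈ closedBall (0 : V2) 2, 0 ≤ φ x)
    (hC : ∫ x in closedBall (0 : V2) 2, φ x ≤ C) :
    ∃ z ∈ ball (0 : ℂ) ρ, ∫ w in closedBall (0 : ℂ) 2, φ (z, w) ≤
      ((volume : Measure ℂ).real (ball 0 ρ))⁻¹ * C := by
  have hp : closedBall (0 : V2) 2 = closedBall (0 : ℂ) 2 ×ˢ closedBall (0 : ℂ) 2 :=
    (closedBall_prod_same (0 : ℂ) (0 : ℂ) 2).symm
  have hi : IntegrableOn φ (closedBall (0 : ℂ) 2 ×ˢ closedBall (0 : ℂ) 2)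
      ((volume : Measure ℂ).prod volume) := by
    rw [← hp]
    exact hc.integrableOn_compact (isCompact_closedBall _ _)
  have hF : ∫ x in closedBall (0 : V2) 2, φ x =
      ∫ z in closedBall (0 : ℂ) 2, ∫ w in closedBall (0 : ℂ) 2, φ (z, w) := by
    rw [hp]
    exact setIntegral_prod φ hi
  have hG : IntegrableOn (fun z => ∫ w in closedBall (0 : ℂ) 2, φ (z, w)) (closedBall (0 : ℂ) 2)
      volume := by
    have := hi
    rw [IntegrableOn, ← Measure.prod_restrict] at this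
    exact this.integral_prod_left
  have hsub : ball (0 : ℂ) ρ ⊆ closedBall 0 2 :=
    ball_subset_closedBall.trans (closedBall_subset_closedBall hρ2)
  obtain ⟨z, hz, hle⟩ := exists_le_setAverage (μ := (volume : Measure ℂ)) (s := ball 0 ρ)
    (measure_ball_pos _ _ hρ).ne' measure_ball_lt_top.ne (hG.mono_set hsub)
  refine ⟨z, hz, hle.trans ?_⟩
  rw [setAverage_eq, smul_eq_mul]
  refine mul_le_mul_of_nonneg_left ?_ (by positivity)
  refine le_trans ?_ (hF ▸ hC)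
  refine setIntegral_mono_set hG ?_ hsub.eventuallyLE
  filter_upwards [ae_restrict_mem measurableSet_closedBall] with y hy
  refine setIntegral_nonneg measurableSet_closedBall fun w hw => h0 _ ?_
  rw [hp]
  exact ⟨hy, hw⟩

/-- the estimate for one map -/
theorem one (hS : StSL) {U : Set V2} {η : V2 → B2} {r ρ M C : ℝ} (χ : ContDiffBump (0 : ℂ))
    (hρ : 0 < ρ) (hr : 0 < r) (hin : χ.rIn = r + ρ) (hout : χ.rOut = r + 2 * ρ)
    (h2 : r + 2 * ρ ≤ 2)
    (hU : IsOpen U) (hsub : closedBall (0 : V2) 2 ⊆ U) (hη : ContDiffOn ℝ 1 η U)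
    (alt : ∀ x ∈ U, ∀ a b, η x a b = -η x b a)
    (cl : ∀ x ∈ U, ∀ a b c, fderiv ℝ η x a b c + fderiv ℝ η x b c a + fderiv ℝ η x c a b = 0)
    (hE : ContinuousOn (En η) U) (pos : ∀ x ∈ U, ∀ a, 0 ≤ η x a (Complex.I • a))
    (hC : ∫ x in closedBall (0 : V2) 2, En η x ≤ C) (hM0 : 0 ≤ M)
    (hM : ∀ z w : ℂ, ‖z‖ < ρ → r + ρ ≤ ‖w‖ → ‖w‖ ≤ r + 2 * ρ → ∀ a b,
      |η (z, w) a b| ≤ M * ‖a‖ * ‖b‖) (z : ℂ) (hz : ‖z‖ < ρ) :
    ∫ w in ball (0 : ℂ) (r + ρ), η (z, w) (0, 1) (0, Complex.I) ≤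
      ((volume : Measure ℂ).real (ball 0 ρ))⁻¹ * C +
        M * (∫ w, (|fderiv ℝ χ w 1| + |fderiv ℝ χ w Complex.I|)) * (2 * ρ) := by
  have hp : closedBall (0 : V2) 2 = closedBall (0 : ℂ) 2 ×ˢ closedBall (0 : ℂ) 2 :=
    (closedBall_prod_same (0 : ℂ) (0 : ℂ) 2).symm
  have hmem : ∀ z w : ℂ, ‖z‖ < ρ → w ∈ closedBall (0 : ℂ) 2 → (z, w) ∈ U := by
    intro z w hz hw
    apply hsub
    rw [hp]
    exact ⟨by rw [mem_closedBall_zero_iff]; linarith, hw⟩
  have p1 : ∀ x ∈ U, 0 ≤ η x (1, 0) (Complex.I, 0) := fun x hx => by simpa using pos x hx (1, 0)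
  have p2 : ∀ x ∈ U, 0 ≤ η x (0, 1) (0, Complex.I) := fun x hx => by simpa using pos x hx (0, 1)
  have hts : tsupport χ ⊆ closedBall (0 : ℂ) 2 := by
    rw [χ.tsupport_eq, hout]
    exact closedBall_subset_closedBall h2
  set A : ℂ → ℝ := fun z => ∫ w, χ w * η (z, w) (0, 1) (0, Complex.I) with hA
  set N : ℝ := ∫ w, (|fderiv ℝ χ w 1| + |fderiv ℝ χ w Complex.I|) with hN
  have hχ1 : ContDiff ℝ 1 χ := χ.contDiff
  have hdc : Continuous (fderiv ℝ χ) := hχ1.continuous_fderiv one_ne_zero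
  have hds : HasCompactSupport (fderiv ℝ χ) := χ.hasCompactSupport.fderiv (𝕜 := ℝ)
  have hint : ∀ a : ℂ, Integrable (fun w => |fderiv ℝ χ w a|) volume := by
    intro a
    apply Integrable.abs
    apply Continuous.integrable_of_hasCompactSupport (hdc.clm_apply continuous_const)
    exact χ.hasCompactSupport.fderiv_apply ℝ a
  have hN0 : 0 ≤ N := integral_nonneg fun w => by positivity
  -- the derivative bound
  have hder : ∀ y ∈ ball (0 : ℂ) ρ, ∃ L : ℂ →L[ℝ] ℝ, HasFDerivAt A L y ∧ ‖L‖ ≤ M * N := by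
    intro y hy
    rw [mem_ball_zero_iff] at hy
    obtain ⟨L, hL, hv⟩ := hS χ U η hχ1 χ.hasCompactSupport hU hη alt cl y
      fun w hw => hmem y w hy (hts hw)
    refine ⟨L, hL, ContinuousLinearMap.opNorm_le_bound _ (by positivity) fun v => ?_⟩
    rw [hv v]
    have e1 : M * N * ‖v‖ =
        ∫ w, (|fderiv ℝ χ w 1| + |fderiv ℝ χ w Complex.I|) * (M * ‖v‖) := by
      rw [integral_mul_const]
      ring
    rw [e1]
    refine norm_integral_le_of_norm_le (((hint 1).add (hint Complex.I)).mul_const _)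
      (Eventually.of_forall fun w => ?_)
    by_cases hw : r + ρ ≤ ‖w‖ ∧ ‖w‖ ≤ r + 2 * ρ
    · have b1 := hM y w hy hw.1 hw.2 (0, Complex.I) (v, 0)
      have b2 := hM y w hy hw.1 hw.2 (v, 0) (0, 1)
      simp only [Prod.norm_mk, norm_zero, Complex.norm_I, norm_one, zero_le_one, sup_of_le_right,
        norm_nonneg, sup_of_le_left, mul_one] at b1 b2
      rw [Real.norm_eq_abs, add_mul]
      refine (abs_add_le _ _).trans (add_le_add ?_ ?_)
      · rw [abs_mul]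
        gcongr
      · rw [abs_mul]
        gcongr
    · have hz : fderiv ℝ χ w = 0 := by
        rw [not_and_or, not_le, not_le] at hw
        rcases hw with hw | hw
        · have : (χ : ℂ → ℝ) =ᶠ[𝓝 w] 1 :=
            χ.eventuallyEq_one_of_mem_ball (by rw [mem_ball_zero_iff, hin]; exact hw)
          rw [this.fderiv_eq]
          exact fderiv_const_apply (1 : ℝ)
        · apply fderiv_of_notMem_tsupport
          rw [χ.tsupport_eq, hout, mem_closedBall_zero_iff, not_le]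
          exact hw
      simp [hz]
  choose! L hL hLb using hder
  have hlip : ∀ x ∈ ball (0 : ℂ) ρ, ∀ y ∈ ball (0 : ℂ) ρ, ‖A y - A x‖ ≤ M * N * ‖y - x‖ :=
    fun x hx y hy => (convex_ball (0 : ℂ) ρ).norm_image_sub_le_of_norm_hasFDerivWithin_le
      (fun x hx => (hL x hx).hasFDerivWithinAt) hLb hx hy
  -- the integrand on a slice
  have hcs : ∀ y : ℂ, ‖y‖ < ρ → ContinuousOn (fun w : ℂ => η (y, w) (0, 1) (0, Complex.I))
      (closedBall 0 2) := by
    intro y hy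
    have h1 : ContinuousOn (fun w : ℂ => η (y, w)) (closedBall 0 2) :=
      hη.continuousOn.comp (continuous_const.prodMk continuous_id).continuousOn
        fun w hw => hmem y w hy hw
    exact (h1.clm_apply continuousOn_const).clm_apply continuousOn_const
  have hci : ∀ y : ℂ, ‖y‖ < ρ → IntegrableOn
      (fun w : ℂ => χ w * η (y, w) (0, 1) (0, Complex.I)) (closedBall 0 2) volume :=
    fun y hy => (χ.continuous.continuousOn.mul (hcs y hy)).integrableOn_compact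
      (isCompact_closedBall _ _)
  have hAe : ∀ y : ℂ, A y = ∫ w in closedBall (0 : ℂ) 2, χ w * η (y, w) (0, 1) (0, Complex.I) := by
    intro y
    symm
    apply setIntegral_eq_integral_of_forall_compl_eq_zero
    intro w hw
    have : χ w = 0 := image_eq_zero_of_notMem_tsupport fun h' => hw (hts h')
    rw [this, zero_mul]
  obtain ⟨z₀, hz₀, hle⟩ := small_slice (φ := En η) hρ (by linarith) (hE.mono hsub)
    (fun x hx => add_nonneg (p1 x (hsub hx)) (p2 x (hsub hx))) hC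
  have hz₀' : ‖z₀‖ < ρ := mem_ball_zero_iff.1 hz₀
  have hA0 : A z₀ ≤ ∫ w in closedBall (0 : ℂ) 2, En η (z₀, w) := by
    rw [hAe]
    refine setIntegral_mono_on (hci z₀ hz₀') ?_ measurableSet_closedBall fun w hw => ?_
    · exact (hE.comp (continuous_const.prodMk continuous_id).continuousOn
        fun w hw => hmem z₀ w hz₀' hw).integrableOn_compact (isCompact_closedBall _ _)
    · have q1 := p1 _ (hmem z₀ w hz₀' hw)
      have q2 := p2 _ (hmem z₀ w hz₀' hw)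
      have q3 : χ w * η (z₀, w) (0, 1) (0, Complex.I) ≤ 1 * η (z₀, w) (0, 1) (0, Complex.I) :=
        mul_le_mul_of_nonneg_right χ.le_one q2
      unfold En
      linarith
  have hz1 : ∫ w in ball (0 : ℂ) (r + ρ), η (z, w) (0, 1) (0, Complex.I) ≤ A z := by
    rw [hAe]
    have e1 : ∫ w in ball (0 : ℂ) (r + ρ), η (z, w) (0, 1) (0, Complex.I) =
        ∫ w in ball (0 : ℂ) (r + ρ), χ w * η (z, w) (0, 1) (0, Complex.I) := by
      refine setIntegral_congr_fun measurableSet_ball fun w hw => ?_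
      have : χ w = 1 := χ.one_of_mem_closedBall (by rw [hin]; exact ball_subset_closedBall hw)
      simp only [this, one_mul]
    rw [e1]
    refine setIntegral_mono_set (hci z hz) ?_ (LE.le.eventuallyLE
      (ball_subset_closedBall.trans (closedBall_subset_closedBall (by linarith))))
    filter_upwards [ae_restrict_mem measurableSet_closedBall] with w hw
    exact mul_nonneg χ.nonneg (p2 _ (hmem z w hz hw))
  have h3 := hlip z₀ hz₀ z (mem_ball_zero_iff.2 hz)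
  have h4 : ‖z - z₀‖ ≤ 2 * ρ := (norm_sub_le _ _).trans (by linarith)
  have h5 : A z - A z₀ ≤ M * N * (2 * ρ) :=
    (le_abs_self _).trans (h3.trans (by gcongr))
  linarith

end SlA

open SlA in
theorem sliceA (hP : StPull) (hS : StSL) : StSliceA := by
  intro ι 𝒰 K δ Λ U O h η C hδ hΛ hK hq r hr hr1 hg
  obtain ⟨σ, hσ, hσr, hgood⟩ := collar hr hg
  have hQ : IsCompact (closedBall (0 : ℂ) σ ×ˢ (closedBall (0 : ℂ) (r + σ) \ ball 0 r)) :=
    (isCompact_closedBall _ _).prod ((isCompact_closedBall _ _).diff isOpen_ball)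
  obtain ⟨M, hM0, hM⟩ := cpt_bd hΛ hK hq hQ (by
    rintro ⟨z, w⟩ ⟨hz, hw, hw'⟩
    rw [mem_closedBall_zero_iff] at hz hw
    rw [mem_ball_zero_iff, not_lt] at hw'
    exact hgood z w hz (by linarith) hw)
  let χ : ContDiffBump (0 : ℂ) := ⟨r + σ / 2, r + 2 * (σ / 2), by positivity, by linarith⟩
  refine ⟨σ / 2, by positivity, by linarith,
    fun z w hz h1 h2 => hgood z w (by linarith) (by linarith) (by linarith),
    ((volume : Measure ℂ).real (ball 0 (σ / 2)))⁻¹ * C +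
      M * (∫ w, (|fderiv ℝ χ w 1| + |fderiv ℝ χ w Complex.I|)) * (2 * (σ / 2)), fun z hz => ?_⟩
  filter_upwards [hq, hM] with n hn hMn
  obtain ⟨hT, hsub, hC⟩ := hn
  obtain ⟨-, -, hE, hpos⟩ := hP ι K δ Λ (U n) (O n) (h n) (η n) hδ hΛ hT
  refine one hS χ (by positivity) hr rfl rfl (by linarith) hT.isOpen hsub hT.smooth hT.alt hT.cl
    hE (fun x hx a => (hpos x hx a a).1) hC hM0 (fun y w hy h1 h2 => hMn (y, w) ⟨?_, ?_, ?_⟩) z hz
  · rw [mem_closedBall_zero_iff]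
    linarith
  · rw [mem_closedBall_zero_iff]
    linarith
  · rw [mem_ball_zero_iff, not_lt]
    linarith

end Vale.Agent.P290Z.BR
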