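import Vale.Agent.P290Z.BR.Col
import Vale.Agent.P290Z.BR.Core
import Vale.Agent.P290Z.BR.Dir
import Vale.Agent.P290Z.BR.E1
import Vale.Agent.P290Z.BR.E2
import Vale.Agent.P290Z.BR.Fin
import Vale.Agent.P290Z.BR.Good
import Vale.Agent.P290Z.BR.Hart
import Vale.Agent.P290Z.BR.Law
import Vale.Agent.P290Z.BR.Mon
import Vale.Agent.P290Z.BR.Phi
import Vale.Agent.P290Z.BR.Pull
import Vale.Agent.P290Z.BR.Rem
import Vale.Agent.P290Z.BR.SL
import Vale.Agent.P290Z.BR.SliceA
import Vale.Agent.P290Z.BR.SliceB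

/-! P290Z, part III, block BR: the abstract limit lemma without hypotheses. -/

namespace Vale.Agent.P290Z.BR

theorem colAll : StCol := col pull_ (e2 pull_ chg e1 sl)

theorem phiAll : StPhi := phi pull_ (sliceA pull_ sl) (sliceB e1) mon rem hart

theorem dirAll : StDir := dir_ pull_ chg colAll phiAll (good mon)

theorem coreAll : StCore := core (good mon) (law mon (good mon)) dirAll fin_

end Vale.Agent.P290Z.BR
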