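import Vale.Agent.P290Z.BR.SpecB
import Vale.Agent.P290.R2.H762.Const

/-! P290Z, block BR: biholomorphic maps multiply the two-forms by constants. -/

open Set Filter
open scoped Topology Manifold ContDiff

noncomputable section

namespace Vale.Agent.P290Z.BR

open Vale.Agent.P290 Vale.Agent.P290.H805 Vale.Agent.P290Z.Kur Vale.Agent.P290.R2.H596
open Vale.Agent.P290.R2.H762 (det_comp stConst own_target)

namespace JacAux

variable {X X' : All.K3} {T T' : Type} [TopologicalSpace T] [TopologicalSpace T'] {M : MPre X T}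
  {M' : MPre X' T'} {t : T} {t' : T'}

/-- the map on the total spaces -/
def up (f : (M.k3 t).X ≃ₜ (M'.k3 t').X) (q : T × X.X) : T' × X'.X := (t', psi M M' f q.2)

theorem up_val (f : (M.k3 t).X ≃ₜ (M'.k3 t').X) (y : Fib M.F t) :
    up f y.val = (f y : Fib M'.F t').val := by
  have h1 : M.homeo t y.val.2 = y := (M.homeo t).apply_symm_apply y
  have h2 := congrArg Fib.val ((M'.homeo t').apply_symm_apply (f y))
  rw [← h2, up, MPre.homeo_val]
  exact congrArg (fun z => (t', (M'.homeo t').symm (f z))) h1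

/-- its coordinate expression -/
def cr (f : (M.k3 t).X ≃ₜ (M'.k3 t').X) (x : T × X.X) (y : T' × X'.X) (v : V2) : V2 :=
  (M'.F.triv y (up f ((M.F.triv x).symm (t, v)))).2

theorem law {f : (M.k3 t).X ≃ₜ (M'.k3 t').X} (hf : ∀ x, All.Hol f x) : ∃ c : ℂ, ∀ x y v,
    (t, v) ∈ (M.F.triv x).target → up f ((M.F.triv x).symm (t, v)) ∈ (M'.F.triv y).source →
    DifferentiableAt ℂ (cr f x y) v ∧
      M'.vol y (t', cr f x y v) * (fderiv ℂ (cr f x y) v).det = c * M.vol x (t, v) := by
  obtain ⟨c, hc⟩ := stConst T _ M.F M.vol M.rel t (M.k3 t).compact (H445.instConnected (M.k3 t))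
    (M'.k3 t') f hf
  refine ⟨c, fun x y v hv hy => ?_⟩
  obtain ⟨p, hp⟩ : ∃ p : Fib M.F t, p.val = (M.F.triv x).symm (t, v) :=
    ⟨⟨_, M.F.p_symm x hv⟩, rfl⟩
  obtain ⟨p', hp'⟩ : ∃ p' : Fib M'.F t', p' = f p := ⟨_, rfl⟩
  have s1 : (M.F.triv x).symm (t, v) ∈ (M.F.triv p.val).source := hp ▸ M.F.mem p.val
  have t1 := own_target p'
  have e1 : (M'.F.triv p'.val).symm (t', (M'.F.triv p'.val p'.val).2) = p'.val := by
    rw [← fibChart_symm_val M'.F t' p' t1]
    exact congrArg Fib.val ((fibChart M'.F t' p').left_inv (M'.F.mem p'.val))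
  have s2 : (M'.F.triv p'.val).symm (t', (M'.F.triv p'.val p'.val).2) ∈ (M'.F.triv y).source := by
    rwa [e1, hp', ← up_val, hp]
  have dA := (M.F.hol x p.val t v hv s1).differentiableAt (by simp)
  have dC := (M'.F.hol p'.val y t' _ t1 s2).differentiableAt (by simp)
  have vA := (M.rel x t v hv).2.2.2 p.val s1
  have vC := (M'.rel p'.val t' _ t1).2.2.2 y s2
  have dB : DifferentiableAt ℂ (fun w => fibChart M'.F t' p' (f ((fibChart M.F t p).symm w)))
      (M.F.triv p.val p.val).2 := hp' ▸ (hf p).2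
  have vB : M'.vol p'.val (t', (M'.F.triv p'.val p'.val).2) *
      (fderiv ℂ (fun w => fibChart M'.F t' p' (f ((fibChart M.F t p).symm w)))
        (M.F.triv p.val p.val).2).det = c * M.vol p.val (t, (M.F.triv p.val p.val).2) := by
    rw [← M'.fvol_eq t' p' t1, hp']
    exact hc p
  set A := fun u => (M.F.triv p.val ((M.F.triv x).symm (t, u))).2 with hA
  set B := fun w => fibChart M'.F t' p' (f ((fibChart M.F t p).symm w)) with hB
  set C := fun u => (M'.F.triv y ((M'.F.triv p'.val).symm (t', u))).2 with hC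
  have key : ∀ u, (t, u) ∈ (M.F.triv x).target →
      (M.F.triv x).symm (t, u) ∈ (M.F.triv p.val).source →
      up f ((M.F.triv x).symm (t, u)) ∈ (M'.F.triv p'.val).source →
      B (A u) = (M'.F.triv p'.val (up f ((M.F.triv x).symm (t, u)))).2 ∧ cr f x y u = C (B (A u)) := by
    intro u h1 h2 h3
    obtain ⟨q, hq⟩ : ∃ q : Fib M.F t, q.val = (M.F.triv x).symm (t, u) :=
      ⟨⟨_, M.F.p_symm x h1⟩, rfl⟩
    rw [← hq] at h2 h3
    have h4 : (fibChart M.F t p).symm (A u) = q := by
      rw [hA]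
      simp only [← hq]
      exact (fibChart M.F t p).left_inv h2
    rw [up_val] at h3
    have h5 := congrArg Fib.val ((fibChart M'.F t' p').left_inv h3)
    rw [fibChart_symm_val M'.F t' p' ((fibChart M'.F t' p').map_source h3)] at h5
    simp only [hB, hC, h4, cr, ← hq, up_val, h5]
    exact ⟨rfl, trivial⟩
  have c1 : ContinuousAt (fun u : V2 => (M.F.triv x).symm (t, u)) v :=
    ((M.F.triv x).continuousAt_symm hv).comp (f := fun u : V2 => (t, u)) (by fun_prop)
  have c2 : Continuous (up f) := continuous_const.prodMk ((psi M M' f).continuous.comp continuous_snd)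
  have s3 : up f ((M.F.triv x).symm (t, v)) ∈ (M'.F.triv p'.val).source := by
    rw [← hp, up_val, ← hp']
    exact M'.F.mem _
  have ev : cr f x y =ᶠ[𝓝 v] fun u => C (B (A u)) := by
    filter_upwards [((M.F.triv x).open_target.preimage (Continuous.prodMk_right t)).mem_nhds hv,
      c1.eventually ((M.F.triv p.val).open_source.mem_nhds s1),
      (c2.continuousAt.comp c1).eventually ((M'.F.triv p'.val).open_source.mem_nhds s3)]
      with u h1 h2 h3 using (key u h1 h2 h3).2
  have a0 : A v = (M.F.triv p.val p.val).2 := by rw [hA]; simp only [← hp]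
  have b0 : B (A v) = (M'.F.triv p'.val p'.val).2 := by
    rw [(key v hv s1 s3).1, ← hp, up_val, ← hp']
  rw [← a0] at dB vB
  rw [← b0] at dC vB vC
  have dBA : DifferentiableAt ℂ (fun u => B (A u)) v := dB.comp v dA
  refine ⟨(DifferentiableAt.comp (g := C) v dC dBA).congr_of_eventuallyEq ev, ?_⟩
  rw [ev.fderiv_eq, ev.self_of_nhds, det_comp (g := fun u => B (A u)) dC dBA, det_comp dB dA, vA,
    ← mul_assoc c]
  change _ = c * M.vol p.val (t, A v) * _
  rw [← vB, vC]
  ring

theorem law₂ {f : (M.k3 t).X ≃ₜ (M'.k3 t').X} (hf : Bih f) : ∃ c : ℂ, c ≠ 0 ∧ (∀ x y v,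
    (t, v) ∈ (M.F.triv x).target → up f ((M.F.triv x).symm (t, v)) ∈ (M'.F.triv y).source →
      M'.vol y (t', cr f x y v) * (fderiv ℂ (cr f x y) v).det = c * M.vol x (t, v)) ∧ ∀ y x v,
    (t', v) ∈ (M'.F.triv y).target →
      up f.symm ((M'.F.triv y).symm (t', v)) ∈ (M.F.triv x).source →
      M.vol x (t, cr f.symm y x v) * (fderiv ℂ (cr f.symm y x) v).det = c⁻¹ * M'.vol y (t', v) := by
  obtain ⟨c, hc⟩ := law hf.1
  obtain ⟨c', hc'⟩ := law (f := f.symm) hf.2
  obtain ⟨p⟩ : Nonempty (Fib M.F t) := (H445.instConnected (M.k3 t)).toNonempty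
  obtain ⟨p', hp'⟩ : ∃ p' : Fib M'.F t', p' = f p := ⟨_, rfl⟩
  have key : ∀ u, (t, u) ∈ (M.F.triv p.val).target →
      up f ((M.F.triv p.val).symm (t, u)) ∈ (M'.F.triv p'.val).source →
      (t', cr f p.val p'.val u) ∈ (M'.F.triv p'.val).target ∧
        up f.symm ((M'.F.triv p'.val).symm (t', cr f p.val p'.val u))
          = (M.F.triv p.val).symm (t, u) := by
    intro u h1 h2
    have h3 : M'.F.triv p'.val (up f ((M.F.triv p.val).symm (t, u))) = (t', cr f p.val p'.val u) := by
      rw [M'.F.mk_eq _ h2, M'.p_eq]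
      rfl
    rw [← h3, (M'.F.triv p'.val).left_inv h2]
    refine ⟨(M'.F.triv p'.val).map_source h2, ?_⟩
    rw [← fibChart_symm_val M.F t p h1, up_val]
    exact (up_val f.symm _).trans (congrArg Fib.val (f.symm_apply_apply _))
  obtain ⟨v, hv, e1⟩ : ∃ v, (t, v) ∈ (M.F.triv p.val).target ∧
      (M.F.triv p.val).symm (t, v) = p.val := by
    refine ⟨_, own_target p, ?_⟩
    rw [← fibChart_symm_val M.F t p (own_target p)]
    exact congrArg Fib.val ((fibChart M.F t p).left_inv (M.F.mem p.val))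
  have s3 : up f ((M.F.triv p.val).symm (t, v)) ∈ (M'.F.triv p'.val).source := by
    rw [e1, up_val, ← hp']
    exact M'.F.mem _
  obtain ⟨k1, k2⟩ := key v hv s3
  obtain ⟨d1, v1⟩ := hc _ _ v hv s3
  obtain ⟨d2, v2⟩ := hc' _ p.val _ k1 (by rw [k2]; exact (M.F.triv p.val).map_target hv)
  have c1 : ContinuousAt (fun u : V2 => (M.F.triv p.val).symm (t, u)) v :=
    ((M.F.triv p.val).continuousAt_symm hv).comp (f := fun u : V2 => (t, u)) (by fun_prop)
  have c2 : Continuous (up f) := continuous_const.prodMk ((psi M M' f).continuous.comp continuous_snd)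
  have ev : (fun u => cr f.symm p'.val p.val (cr f p.val p'.val u)) =ᶠ[𝓝 v] id := by
    filter_upwards [((M.F.triv p.val).open_target.preimage (Continuous.prodMk_right t)).mem_nhds hv,
      (c2.continuousAt.comp c1).eventually ((M'.F.triv p'.val).open_source.mem_nhds s3)]
      with u h1 h2
    rw [cr, (key u h1 h2).2, (M.F.triv p.val).right_inv h1]
    rfl
  have h4 := det_comp d2 d1
  have h5 : (ContinuousLinearMap.id ℂ V2).det = 1 := LinearMap.det_id
  rw [ev.fderiv_eq, fderiv_id, h5] at h4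
  rw [show cr f.symm p'.val p.val (cr f p.val p'.val v) = v from ev.self_of_nhds] at v2
  have h6 : c * c' = 1 := mul_right_cancel₀ (M.rel _ t v hv).2.2.1 (by
    apply mul_right_cancel₀ (M'.rel _ t' _ k1).2.2.1
    linear_combination M.vol p.val (t, v) * M'.vol p'.val (t', cr f p.val p'.val v) * (-h4) -
      c' * M'.vol p'.val (t', cr f p.val p'.val v) * v1 -
      M'.vol p'.val (t', cr f p.val p'.val v) * (fderiv ℂ (cr f p.val p'.val) v).det * v2)
  refine ⟨c, left_ne_zero_of_mul_eq_one h6, fun x y v h1 h2 => (hc x y v h1 h2).2,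
    fun y x v h1 h2 => ?_⟩
  rw [← eq_inv_of_mul_eq_one_right h6]
  exact (hc' y x v h1 h2).2

end JacAux

open JacAux in
theorem jac_ : StJac := fun X X' T T' _ _ M M' a b f hf => by
  choose c h0 h1 h2 using fun n => law₂ (hf n)
  exact ⟨c, h0, fun n x y v hv => h1 n x y v hv.1 hv.2, fun n y x v hv => h2 n y x v hv.1 hv.2⟩

end Vale.Agent.P290Z.BR
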