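import Vale.Agent.P290Z.BR.SpecB

/-! P290Z, part III, block BR: forms in the charts of the members of a family. -/

set_option linter.unusedVariables false
set_option linter.unusedSectionVars false

open Set Filter Metric
open scoped Topology Manifold ContDiff

noncomputable section

namespace Vale.Agent.P290Z.BR

open Vale.Agent.P290 Vale.Agent.P290.H805 Vale.Agent.P267 Vale.Agent.P290Z.Kur
open Vale.Agent.P267.FL (TwoF)
open Vale.Agent.P290.H686

namespace Loc

theorem reB_apply (β : FL.C2 →L[ℝ] FL.C2 →L[ℝ] ℂ) (D : V2 →L[ℝ] FL.C2) (ξ ζ : V2) :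
    reB β D ξ ζ = (β (D ξ) (D ζ)).re := rfl

theorem contDiffAt_flip {E A B : Type} [NormedAddCommGroup E] [NormedSpace ℝ E]
    [NormedAddCommGroup A] [NormedSpace ℝ A] [NormedAddCommGroup B] [NormedSpace ℝ B]
    {n : WithTop ℕ∞} {β : E → A →L[ℝ] B →L[ℝ] ℂ} {p : E} (hβ : ContDiffAt ℝ n β p) :
    ContDiffAt ℝ n (fun q => (β q).flip) p := by
  let L : (A →L[ℝ] B →L[ℝ] ℂ) →L[ℝ] B →L[ℝ] A →L[ℝ] ℂ :=
    (ContinuousLinearMap.flipₗᵢ ℝ A B ℂ).toContinuousLinearEquiv.toContinuousLinearMap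
  have h := ContinuousLinearMap.contDiff (𝕜 := ℝ) (E := A →L[ℝ] B →L[ℝ] ℂ)
    (F := B →L[ℝ] A →L[ℝ] ℂ) (n := n) L
  exact h.contDiffAt.comp p hβ

theorem contDiffAt_reB {E : Type} [NormedAddCommGroup E] [NormedSpace ℝ E] {n : WithTop ℕ∞}
    {β : E → FL.C2 →L[ℝ] FL.C2 →L[ℝ] ℂ} {D : E → V2 →L[ℝ] FL.C2} {p : E}
    (hβ : ContDiffAt ℝ n β p) (hD : ContDiffAt ℝ n D p) :
    ContDiffAt ℝ n (fun q => reB (β q) (D q)) p :=
  contDiffAt_const.clm_comp (contDiffAt_flip ((contDiffAt_flip (hβ.clm_comp hD)).clm_comp hD))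

/-- the pull back of a closed form is closed -/
theorem closed_pull {η : V2 → B2} {F : FL.C2 → FL.C2 →L[ℝ] FL.C2 →L[ℝ] ℂ} {G : V2 → FL.C2} {z : V2}
    (hη : η =ᶠ[𝓝 z] fun y => reB (F (G y)) (fderiv ℝ G y)) (hd : DifferentiableAt ℝ η z)
    (hF : DifferentiableAt ℝ F (G z)) (hG : ContDiffAt ℝ 2 G z)
    (hs : ∀ v w, F (G z) v w = -F (G z) w v) (h0 : ∀ u v w, alt2 F (G z) u v w = 0) (u v w : V2) :
    fderiv ℝ η z u v w + fderiv ℝ η z v w u + fderiv ℝ η z w u v = 0 := by
  have hG1 : DifferentiableAt ℝ G z := hG.differentiableAt (by norm_num)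
  have hG2 : DifferentiableAt ℝ (fderiv ℝ G) z :=
    (hG.fderiv_right (m := 1) (by norm_num)).differentiableAt (by norm_num)
  have key : ∀ u v w, fderiv ℝ η z u v w =
      (fderiv ℝ F (G z) (fderiv ℝ G z u) (fderiv ℝ G z v) (fderiv ℝ G z w) +
      F (G z) (fderiv ℝ (fderiv ℝ G) z u v) (fderiv ℝ G z w) +
      F (G z) (fderiv ℝ G z v) (fderiv ℝ (fderiv ℝ G) z u w)).re := by
    intro u v w
    have e0 : fderiv ℝ η z u v w = fderiv ℝ (fun y => η y v w) z u := by
      rw [fderiv_clm_apply (hd.clm_apply (differentiableAt_const v)) (differentiableAt_const w),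
        fderiv_clm_apply hd (differentiableAt_const v)]
      simp
    have e1 : (fun y => η y v w) =ᶠ[𝓝 z]
        Complex.reCLM ∘ fun y => F (G y) (fderiv ℝ G y v) (fderiv ℝ G y w) := by
      filter_upwards [hη] with y hy
      rw [hy]
      rfl
    have h2 : HasFDerivAt (F ∘ G) ((fderiv ℝ F (G z)).comp (fderiv ℝ G z)) z :=
      HasFDerivAt.comp (𝕜 := ℝ) (g := F) (f := G) z hF.hasFDerivAt hG1.hasFDerivAt
    have h3 := fun x => hG2.hasFDerivAt.clm_apply (hasFDerivAt_const x z)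
    have h4 := Complex.reCLM.hasFDerivAt.comp z ((h2.clm_apply (h3 v)).clm_apply (h3 w))
    rw [e0, e1.fderiv_eq]
    refine (congrArg (fun L => L u) h4.fderiv).trans ?_
    simp
    ring
  have sy : ∀ v w, fderiv ℝ (fderiv ℝ G) z v w = fderiv ℝ (fderiv ℝ G) z w v :=
    hG.isSymmSndFDerivAt (by simp)
  have h1 := h0 (fderiv ℝ G z u) (fderiv ℝ G z v) (fderiv ℝ G z w)
  rw [key, key, key, ← Complex.add_re, ← Complex.add_re, sy v u, sy w v, sy w u,
    hs (fderiv ℝ G z w) (fderiv ℝ (fderiv ℝ G) z u v),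
    hs (fderiv ℝ G z u) (fderiv ℝ (fderiv ℝ G) z v w),
    hs (fderiv ℝ G z v) (fderiv ℝ (fderiv ℝ G) z u w), ← Complex.zero_re, ← h1, alt2]
  congr 1
  ring

section pre

variable {X : All.K3} {T : Type} [TopologicalSpace T] {M : MPre X T} {a : T × X.X} {t : T} {v : V2}

theorem symm_eq (h : (t, v) ∈ (M.F.triv a).target) :
    (M.F.triv a).symm (t, v) = (t, pt M a t v) :=
  Prod.ext ((M.p_eq _).symm.trans (M.F.p_symm a h)) rfl

theorem pt_source (h : (t, v) ∈ (M.F.triv a).target) : (t, pt M a t v) ∈ (M.F.triv a).source :=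
  symm_eq h ▸ (M.F.triv a).map_target h

theorem triv_pt (h : (t, v) ∈ (M.F.triv a).target) : M.F.triv a (t, pt M a t v) = (t, v) := by
  rw [← symm_eq h, (M.F.triv a).right_inv h]

theorem triv_eq {x : X.X} (h : (t, x) ∈ (M.F.triv a).source) :
    (t, (M.F.triv a (t, x)).2) = M.F.triv a (t, x) :=
  Prod.ext ((M.F.fst a _ h).trans (M.p_eq _)).symm rfl

theorem triv_target {x : X.X} (h : (t, x) ∈ (M.F.triv a).source) :
    (t, (M.F.triv a (t, x)).2) ∈ (M.F.triv a).target := triv_eq h ▸ (M.F.triv a).map_source h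

theorem pt_triv {x : X.X} (h : (t, x) ∈ (M.F.triv a).source) :
    pt M a t (M.F.triv a (t, x)).2 = x := by
  rw [pt, triv_eq h, (M.F.triv a).left_inv h]

theorem pt_cont2 (h : (t, v) ∈ (M.F.triv a).target) :
    ContinuousAt (fun q : T × V2 => pt M a q.1 q.2) (t, v) :=
  continuousAt_snd.comp ((M.F.triv a).continuousAt_symm h)

theorem pt_cont (h : (t, v) ∈ (M.F.triv a).target) : ContinuousAt (pt M a t) v :=
  (pt_cont2 h).comp (f := fun u => (t, u)) (Continuous.prodMk_right t).continuousAt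

end pre

variable {X : All.K3} {V : Type} [NormedAddCommGroup V] [NormedSpace ℝ V] {T : Set V}
  (M : MFam X V T) {a : T × X.X} {t : T} {v : V2} {e : FL.Ch X.X}

theorem exW (h : (t, v) ∈ (M.F.triv a).target) (he : e ∈ atlas FL.C2 X.X)
    (hx : pt M.toMPre a t v ∈ e.source) : ∃ W : V × V2 → FL.C2,
      (∀ᶠ q in 𝓝 ((t : V), v), ContDiffAt ℝ ∞ W q) ∧
      ∀ᶠ q : T × V2 in 𝓝 (t, v), e (pt M.toMPre a q.1 q.2) = W (q.1, q.2) := by
  have h1 := M.sm' a t _ (pt_source h) e he hx
  rwa [triv_pt h] at h1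

theorem sm_pt (h : (t, v) ∈ (M.F.triv a).target) (he : e ∈ atlas FL.C2 X.X)
    (hx : pt M.toMPre a t v ∈ e.source) : ContDiffAt ℝ ∞ (fun u => e (pt M.toMPre a t u)) v := by
  obtain ⟨W, h1, h2⟩ := exW M h he hx
  exact (h1.self_of_nhds.comp v (contDiffAt_const.prodMk contDiffAt_id)).congr_of_eventuallyEq
    ((Continuous.prodMk_right t).continuousAt.eventually h2)

theorem sm_triv {x : X.X} (h : (t, x) ∈ (M.F.triv a).source) (he : e ∈ atlas FL.C2 X.X)
    (hx : x ∈ e.source) : ContDiffAt ℝ ∞ (fun z => (M.F.triv a (t, e.symm z)).2) (e x) := by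
  obtain ⟨W, h1, h2⟩ := M.sm a t x h e he hx
  exact (h1.self_of_nhds.comp (e x) (contDiffAt_const.prodMk contDiffAt_id)).congr_of_eventuallyEq
    ((Continuous.prodMk_right t).continuousAt.eventually h2)

/-- the formula in an arbitrary chart of `X` -/
theorem loc_eq (P : TwoF X.X) (h : (t, v) ∈ (M.F.triv a).target) (he : e ∈ atlas FL.C2 X.X)
    (hx : pt M.toMPre a t v ∈ e.source) : loc M.toMPre P a t v =
      reB (E2 e P (e (pt M.toMPre a t v))) (fderiv ℝ (fun u => e (pt M.toMPre a t u)) v) := by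
  have h1 : (fun u => chartAt FL.C2 (pt M.toMPre a t v) (pt M.toMPre a t u)) =ᶠ[𝓝 v]
      (fun z => chartAt FL.C2 (pt M.toMPre a t v) (e.symm z)) ∘ fun u => e (pt M.toMPre a t u) := by
    filter_upwards [(pt_cont h).eventually (e.open_source.mem_nhds hx)] with u hu
    rw [Function.comp_apply, e.left_inv hu]
  refine ContinuousLinearMap.ext fun ξ => ContinuousLinearMap.ext fun ζ => ?_
  rw [loc, h1.fderiv_eq, fderiv_comp v ((trans_contDiffAt he (chart_mem_atlas _ _) hx
    (mem_chart_source _ _) (n := 1)).differentiableAt one_ne_zero)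
    ((sm_pt M h he hx).differentiableAt (by simp)), reB_apply, reB_apply, E2_apply he P hx]
  rfl

theorem loc_ev (P : TwoF X.X) (h : (t, v) ∈ (M.F.triv a).target) (he : e ∈ atlas FL.C2 X.X)
    (hx : pt M.toMPre a t v ∈ e.source) : loc M.toMPre P a t =ᶠ[𝓝 v] fun u =>
      reB (E2 e P (e (pt M.toMPre a t u))) (fderiv ℝ (fun u => e (pt M.toMPre a t u)) u) := by
  filter_upwards [(pt_cont h).eventually (e.open_source.mem_nhds hx),
    (Continuous.prodMk_right t).continuousAt.eventually ((M.F.triv a).open_target.mem_nhds h)]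
    with u h1 h2 using loc_eq M P h2 he h1

theorem loc_smooth {P : TwoF X.X} (hP : P.Smooth) (h : (t, v) ∈ (M.F.triv a).target) :
    ContDiffAt ℝ ∞ (loc M.toMPre P a t) v := by
  have he := chart_mem_atlas FL.C2 (pt M.toMPre a t v)
  have hx := mem_chart_source FL.C2 (pt M.toMPre a t v)
  have h1 := sm_pt M h he hx
  exact (contDiffAt_reB (ContDiffAt.comp (g := E2 _ P) v
    (smooth2_iff.1 hP _ he _ (mem_chart_target _ _)) h1)
    (h1.fderiv_right infty_sub)).congr_of_eventuallyEq (loc_ev M P h he hx)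

theorem loc_cont {P : TwoF X.X} (hP : P.Smooth) (h : (t, v) ∈ (M.F.triv a).target) :
    ContinuousAt (fun q : T × V2 => loc M.toMPre P a q.1 q.2) (t, v) := by
  have he := chart_mem_atlas FL.C2 (pt M.toMPre a t v)
  have hx := mem_chart_source FL.C2 (pt M.toMPre a t v)
  have ht := mem_chart_target FL.C2 (pt M.toMPre a t v)
  set e := chartAt FL.C2 (pt M.toMPre a t v)
  obtain ⟨W, h1, h2⟩ := exW M h he hx
  have c : Continuous fun q : T × V2 => ((q.1 : V), q.2) := by fun_prop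
  have h3 : ContDiffAt ℝ ∞ (fun p => reB (E2 e P (W p))
      ((fderiv ℝ W p).comp (ContinuousLinearMap.inr ℝ V V2))) ((t : V), v) :=
    contDiffAt_reB (ContDiffAt.comp (g := E2 e P) _
      (smooth2_iff.1 hP e he _ (h2.self_of_nhds ▸ ht)) h1.self_of_nhds)
      ((h1.self_of_nhds.fderiv_right infty_sub).clm_comp contDiffAt_const)
  refine (ContinuousAt.comp (f := fun q : T × V2 => ((q.1 : V), q.2)) h3.continuousAt
    c.continuousAt).congr ?_
  filter_upwards [(M.F.triv a).open_target.mem_nhds h,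
    (pt_cont2 h).eventually (e.open_source.mem_nhds hx), h2.eventually_nhds,
    c.continuousAt.eventually h1] with q k1 k2 k3 k4
  have k5 : (fun u => e (pt M.toMPre a q.1 u)) =ᶠ[𝓝 q.2] W ∘ fun u => ((q.1 : V), u) :=
    (Continuous.prodMk_right q.1).continuousAt.eventually k3
  rw [loc_eq M P k1 he k2, k5.fderiv_eq, k3.self_of_nhds,
    ((k4.differentiableAt (by simp)).hasFDerivAt.comp q.2 (hasFDerivAt_prodMk_right _ _)).fderiv]
  rfl

end Loc

open Loc

theorem loc_ : StLoc := fun X V _ _ T M P hP a t v h => by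
  refine ⟨(loc_smooth M hP h).of_le (by simp), loc_cont M hP h, fun ξ ζ => ?_, fun hc => ?_⟩
  · rw [loc, reB_apply, reB_apply, val2_swap, Complex.neg_re]
  · have he := chart_mem_atlas FL.C2 (pt M.toMPre a t v)
    have hx := mem_chart_source FL.C2 (pt M.toMPre a t v)
    exact closed_pull (loc_ev M P h he hx) ((loc_smooth M hP h).differentiableAt (by simp))
      (differentiableAt_E2 hP he (mem_chart_target _ _))
      ((sm_pt M h he hx).of_le (WithTop.coe_le_coe.2 le_top)) (fun _ _ => ev2_swap _ _ _ _ _)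
      ((closed_iff' hP).1 hc _ he _ hx)

theorem locPb : StLocPb := fun X X' V V' _ _ _ _ T T' M M' ψ hψ P' a a' t t' v h h' ξ ζ => by
  have he := chart_mem_atlas FL.C2 (pt M.toMPre a t v)
  have hx := mem_chart_source FL.C2 (pt M.toMPre a t v)
  have he' := chart_mem_atlas FL.C2 (ψ (pt M.toMPre a t v))
  have hx' := mem_chart_source FL.C2 (ψ (pt M.toMPre a t v))
  have p0 : pt M'.toMPre a' t' (crd M.toMPre M'.toMPre ψ a a' t t' v) = ψ (pt M.toMPre a t v) :=
    pt_triv h'
  have d1 := (sm_pt M h he hx).differentiableAt (by simp)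
  have d2 := (hψ.2 _ he _ he' _ hx hx').differentiableAt (by simp)
  have d3 := (sm_triv M' h' he' hx').differentiableAt (by simp)
  have d4 := (sm_pt M' (triv_target h') he' (p0.symm ▸ hx')).differentiableAt (by simp)
  have c1 := hψ.1.continuousAt.comp (pt_cont h)
  have e1 := (pt_cont h).eventually ((chartAt FL.C2 _).open_source.mem_nhds hx)
  have e2 := c1.eventually ((chartAt FL.C2 _).open_source.mem_nhds hx')
  have e3 := ((Continuous.prodMk_right t').continuousAt.comp c1).eventually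
    ((M'.F.triv a').open_source.mem_nhds h')
  rw [loc, loc, p0, reB_apply, reB_apply, val2_pb2_apply]
  unfold Df
  set e := chartAt FL.C2 (pt M.toMPre a t v)
  set e' := chartAt FL.C2 (ψ (pt M.toMPre a t v))
  have e4 : (fun u => e' (ψ (pt M.toMPre a t u))) =ᶠ[𝓝 v]
      rep ψ e e' ∘ fun u => e (pt M.toMPre a t u) := by
    filter_upwards [e1] with u hu using (rep_apply ψ e' hu).symm
  have e5 : crd M.toMPre M'.toMPre ψ a a' t t' =ᶠ[𝓝 v]
      (fun z => (M'.F.triv a' (t', e'.symm z)).2) ∘ fun u => e' (ψ (pt M.toMPre a t u)) := by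
    filter_upwards [e2] with u hu
    exact congrArg (fun y => (M'.F.triv a' (t', y)).2) (e'.left_inv hu).symm
  have e6 : (fun u => e' (ψ (pt M.toMPre a t u))) =ᶠ[𝓝 v]
      (fun w => e' (pt M'.toMPre a' t' w)) ∘ crd M.toMPre M'.toMPre ψ a a' t t' := by
    filter_upwards [e3] with u hu using congrArg e' (pt_triv hu).symm
  have d5 := (d3.comp v ((d2.comp v d1).congr_of_eventuallyEq e4)).congr_of_eventuallyEq e5
  have key := e4.fderiv_eq.symm.trans (e6.fderiv_eq (𝕜 := ℝ))
  rw [fderiv_comp v d2 d1, fderiv_comp v d4 d5] at key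
  exact congrArg Complex.re (congrArg₂ (fun x y => val2 P' _ x y) (congrArg (fun L => L ξ) key)
    (congrArg (fun L => L ζ) key))

end Vale.Agent.P290Z.BR
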