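import Vale.Agent.P290Z.BR.SpecA

/-! P290Z, block BR, SLICE B: curves of bounded area have finitely many bubble points, and small
circles have small oscillation. -/

open Set Filter Metric MeasureTheory
open scoped Topology

namespace Vale.Agent.P290Z.BR

namespace SlB

variable {ι : Type} {K : ι → Set V2} {δ Λ R C : ℝ} {U : Set ℂ} {O : ι → Set ℂ} {h : ι → ℂ → V2}
  {e : ℂ → ℝ}

theorem nonneg (hδ : 0 < δ) (hΛ : 0 < Λ) (hD : Dc K δ Λ U O h e) {x : ℂ} (hx : x ∈ U) :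
    0 ≤ e x := by
  obtain ⟨j, h1, h2⟩ := hD.cover x hx
  exact nonneg_of_mul_nonneg_right
    ((sq_nonneg _).trans (hD.lo j x h1 (h2 (mem_closedBall_self hδ.le)))) hΛ

theorem intOn (hD : Dc K δ Λ U O h e) (hU : closedBall (0 : ℂ) R ⊆ U) {A : Set ℂ}
    (hA : A ⊆ ball 0 R) : IntegrableOn e A :=
  ((hD.cont.mono hU).integrableOn_compact (isCompact_closedBall 0 R)).mono_set
    (hA.trans ball_subset_closedBall)

theorem mono (hδ : 0 < δ) (hΛ : 0 < Λ) (hD : Dc K δ Λ U O h e) (hU : closedBall (0 : ℂ) R ⊆ U)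
    {A A' : Set ℂ} (hA' : MeasurableSet A') (hA : A ⊆ A') (h' : A' ⊆ ball 0 R) :
    ∫ w in A, e w ≤ ∫ w in A', e w :=
  setIntegral_mono_set (intOn hD hU h')
    ((ae_restrict_iff' hA').2 (Eventually.of_forall fun _ hx =>
      nonneg hδ hΛ hD (hU (ball_subset_closedBall (h' hx))))) hA.eventuallyLE

/-- the chain of small discs along a circle -/
theorem chain {θ τ : ℝ} (hθ : 0 < θ) (hτ : 0 < τ) (hθδ : 26 * θ ≤ δ) {w₀ : ℂ} {j : ι}
    (h0 : circleMap w₀ τ 0 ∈ O j) (h1 : closedBall (h j (circleMap w₀ τ 0)) δ ⊆ K j)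
    (hE : ∀ t, circleMap w₀ τ t ∈ O j → closedBall (h j (circleMap w₀ τ t)) θ ⊆ K j →
      ∀ w ∈ closedBall (circleMap w₀ τ t) (τ / 2 / 2),
        w ∈ O j ∧ ‖h j w - h j (circleMap w₀ τ t)‖ ≤ θ) :
    ∀ w : ℂ, ‖w - w₀‖ = τ → w ∈ O j ∧ ‖h j w - h j (circleMap w₀ τ 0)‖ ≤ 26 * θ := by
  have key : ∀ k : ℕ, k ≤ 26 → ∀ t ∈ Icc (0 : ℝ) (k / 4), circleMap w₀ τ t ∈ O j ∧
      ‖h j (circleMap w₀ τ t) - h j (circleMap w₀ τ 0)‖ ≤ k * θ := by
    intro k
    induction k with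
    | zero =>
      intro _ t ht
      have : t = 0 := le_antisymm (by simpa using ht.2) ht.1
      subst this
      exact ⟨h0, by simp⟩
    | succ k ih =>
      intro hk t ht
      have hk' : (k : ℝ) + 1 ≤ 26 := by exact_mod_cast hk
      push_cast at ht ⊢
      rcases le_total t (k / 4) with h2 | h2
      · exact ⟨(ih (by omega) t ⟨ht.1, h2⟩).1, (ih (by omega) t ⟨ht.1, h2⟩).2.trans (by linarith)⟩
      obtain ⟨h3, h4⟩ := ih (by omega) (k / 4) ⟨by positivity, le_rfl⟩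
      have h5 := hE (k / 4) h3 ((closedBall_subset_closedBall' (by
        rw [dist_eq_norm]
        nlinarith)).trans h1) (circleMap w₀ τ t) (by
          have h6 := (lipschitzWith_circleMap w₀ τ).dist_le_mul t (k / 4)
          rw [Real.coe_nnabs, abs_of_pos hτ, Real.dist_eq, abs_of_nonneg (by linarith)] at h6
          refine h6.trans ?_
          nlinarith [ht.2])
      refine ⟨h5.1, ?_⟩
      rw [← dist_eq_norm] at h4 h5 ⊢
      linarith [dist_triangle (h j (circleMap w₀ τ t)) (h j (circleMap w₀ τ (k / 4)))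
        (h j (circleMap w₀ τ 0)), h5.2]
  intro w hw
  have h2 : w ∈ circleMap w₀ τ '' Ioc 0 (2 * Real.pi) := by
    rw [image_circleMap_Ioc, abs_of_pos hτ]
    exact mem_sphere_iff_norm.2 hw
  obtain ⟨t, ht, rfl⟩ := h2
  simpa using key 26 le_rfl t ⟨ht.1.le, ht.2.trans (by
    push_cast
    linarith [Real.pi_lt_d2])⟩

end SlB

theorem sliceB (h1 : StE1) : StSliceB := by
  intro ι _ 𝒰 K δ Λ U O h e R C hδ hΛ hn
  have hsub : ∀ {w : ℂ} {τ : ℝ}, τ < R - ‖w‖ → closedBall w τ ⊆ ball (0 : ℂ) R :=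
    fun hτ => closedBall_subset_ball' (by rw [dist_zero_right]; linarith)
  refine ⟨?_, fun w₀ hw₀ θ hθ => ?_⟩
  · obtain ⟨ε, hε, hE⟩ := h1 δ Λ δ hδ hΛ hδ
    have good : ∀ (w : ℂ) (τ : ℝ), 0 < τ → τ < R - ‖w‖ →
        (∀ᶠ n in (𝒰 : Filter ℕ), ∫ x in ball w τ, e n x ≤ ε) → LGood 𝒰 K O h w := by
      intro w τ hτ hτR hI
      have h2 : ∀ᶠ n in (𝒰 : Filter ℕ), ∃ j, ∀ x ∈ ball w (τ / 2), x ∈ O n j ∧ h n j x ∈ K j := by
        filter_upwards [hn, hI] with n ⟨hD, hU, _⟩ hI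
        have h3 : closedBall w τ ⊆ U n := (hsub hτR).trans (ball_subset_closedBall.trans hU)
        obtain ⟨j, h4, h5⟩ := hD.cover w (h3 (mem_closedBall_self hτ.le))
        refine ⟨j, fun x hx => ?_⟩
        have h6 := hE ι K _ _ _ _ hD w τ hτ h3 hI j w (mem_closedBall_self (by positivity)) h4 h5
          x (ball_subset_closedBall hx)
        exact ⟨h6.1, h5 (mem_closedBall_iff_norm.2 h6.2)⟩
      obtain ⟨j, hj⟩ := Ultrafilter.eventually_exists_iff.1 h2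
      exact ⟨j, τ / 2, by positivity, hj⟩
    by_contra hinf
    obtain ⟨N, hN⟩ := exists_nat_gt (C / ε)
    obtain ⟨s, hs, hc⟩ := Set.Infinite.exists_subset_card_eq hinf N
    have h2 : ∀ᶠ τ in 𝓝 (0 : ℝ), (∀ w ∈ s, τ < R - ‖w‖) ∧
        ∀ w ∈ s, ∀ w' ∈ s, w ≠ w' → τ + τ ≤ dist w w' := by
      refine ((eventually_all_finset s).2 fun w hw => ?_).and ((eventually_all_finset s).2
        fun w _ => (eventually_all_finset s).2 fun w' _ => ?_)
      · exact Iio_mem_nhds (sub_pos.2 (hs hw).1)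
      · by_cases hw : w = w'
        · simp [hw]
        · filter_upwards [Iio_mem_nhds (half_pos (dist_pos.2 hw))] with τ hτ _
          linarith [mem_Iio.1 hτ]
    obtain ⟨τ, ⟨h3, h4⟩, hτ⟩ := ((h2.filter_mono (nhdsWithin_le_nhds (s := Ioi 0))).and
      self_mem_nhdsWithin).exists
    have h5 : ∀ᶠ n in (𝒰 : Filter ℕ), ∀ w ∈ s, ¬ ∫ x in ball w τ, e n x ≤ ε :=
      (eventually_all_finset s).2 fun w hw =>
        Ultrafilter.eventually_not.2 fun h' => (hs hw).2 (good w τ hτ (h3 w hw) h')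
    obtain ⟨n, ⟨hD, hU, hI⟩, h6⟩ := (hn.and h5).exists
    have h7 : ∀ w ∈ s, ball w τ ⊆ ball (0 : ℂ) R := fun w hw =>
      ball_subset_closedBall.trans (hsub (h3 w hw))
    have h8 := SlB.mono hδ hΛ hD hU measurableSet_ball (iUnion₂_subset h7) subset_rfl
    rw [integral_biUnion_finset s (fun _ _ => measurableSet_ball)
      (fun w hw w' hw' hne => ball_disjoint_ball (h4 w hw w' hw' hne))
      fun w hw => SlB.intOn hD hU (h7 w hw)] at h8
    have h9 : ∑ w ∈ s, ε ≤ ∑ w ∈ s, ∫ x in ball w τ, e n x :=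
      Finset.sum_le_sum fun w hw => (not_le.1 (h6 w hw)).le
    rw [Finset.sum_const, hc, nsmul_eq_mul] at h9
    rw [div_lt_iff₀ hε] at hN
    linarith
  have hθ' : 0 < min θ δ / 60 := by positivity
  obtain ⟨ε, hε, hE⟩ := h1 δ Λ _ hδ hΛ hθ'
  obtain ⟨S, hS⟩ : ∃ S : Set ℝ, S = {m | ∃ τ, 0 < τ ∧ τ < R - ‖w₀‖ ∧
      ∀ᶠ n in (𝒰 : Filter ℕ), ∫ x in ball w₀ τ, e n x ≤ m} := ⟨_, rfl⟩
  have hR := sub_pos.2 hw₀
  have hne : S.Nonempty := by
    rw [hS]
    refine ⟨C, _, half_pos hR, half_lt_self hR, ?_⟩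
    filter_upwards [hn] with n ⟨hD, hU, hI⟩
    exact (SlB.mono hδ hΛ hD hU measurableSet_ball
      (ball_subset_closedBall.trans (hsub (half_lt_self hR))) subset_rfl).trans hI
  have hbd : BddBelow S := by
    rw [hS]
    refine ⟨0, fun m ⟨τ, _, h3, h4⟩ => ?_⟩
    obtain ⟨n, ⟨hD, hU, _⟩, h5⟩ := (hn.and h4).exists
    exact (setIntegral_nonneg measurableSet_ball fun x hx => SlB.nonneg hδ hΛ hD
      (hU (ball_subset_closedBall (hsub h3 (ball_subset_closedBall hx))))).trans h5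
  obtain ⟨m, hm, hlt⟩ := exists_lt_of_csInf_lt hne (lt_add_of_pos_right _ (half_pos hε))
  obtain ⟨τ₁, hτ₁, hτR, hI₁⟩ : ∃ τ, 0 < τ ∧ τ < R - ‖w₀‖ ∧
      ∀ᶠ n in (𝒰 : Filter ℕ), ∫ x in ball w₀ τ, e n x ≤ m := by rwa [hS] at hm
  refine ⟨τ₁ / 2, half_pos hτ₁, fun τ hτ hτ₂ => Ultrafilter.eventually_exists_iff.1 ?_⟩
  have hI₂ : ∀ᶠ n in (𝒰 : Filter ℕ), ¬ ∫ x in ball w₀ (τ / 2), e n x ≤ sInf S - ε / 2 :=
    Ultrafilter.eventually_not.2 fun h' => by
      have : sInf S - ε / 2 ∈ S := by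
        nth_rewrite 1 [hS]
        exact ⟨τ / 2, half_pos hτ, by linarith, h'⟩
      linarith [csInf_le hbd this]
  filter_upwards [hn, hI₁, hI₂] with n ⟨hD, hU, _⟩ hI₁ hI₂
  have h2 : ball w₀ τ₁ ⊆ ball (0 : ℂ) R := ball_subset_closedBall.trans (hsub hτR)
  have h3 : ∀ t, dist (circleMap w₀ τ t) w₀ = τ := fun t => by
    rw [dist_eq_norm, circleMap_sub_center, norm_circleMap_zero, abs_of_pos hτ]
  have h4 : ∀ t, closedBall (circleMap w₀ τ t) (τ / 2) ⊆ ball w₀ τ₁ := fun t =>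
    closedBall_subset_ball' (by rw [h3]; linarith)
  have h5 : ∀ t, closedBall (circleMap w₀ τ t) (τ / 2) ⊆ U n := fun t =>
    (h4 t).trans (h2.trans (ball_subset_closedBall.trans hU))
  have h6 : ∀ t, ∫ x in ball (circleMap w₀ τ t) (τ / 2), e n x ≤ ε := fun t => by
    have a1 := ball_subset_closedBall.trans (h4 t)
    have a2 : ball w₀ (τ / 2) ⊆ ball w₀ τ₁ := ball_subset_ball (by linarith)
    have a3 := SlB.mono hδ hΛ hD hU measurableSet_ball (union_subset a1 a2) h2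
    rw [setIntegral_union (ball_disjoint_ball (by rw [h3]; linarith)) measurableSet_ball
      (SlB.intOn hD hU (a1.trans h2)) (SlB.intOn hD hU (a2.trans h2))] at a3
    linarith [not_le.1 hI₂]
  obtain ⟨j, h7, h8⟩ := hD.cover _ (h5 0 (mem_closedBall_self (half_pos hτ).le))
  have h9 := SlB.chain hθ' hτ (by linarith [min_le_right θ δ]) h7 h8 fun t a1 a2 =>
    hE ι K _ _ _ _ hD _ _ (half_pos hτ) (h5 t) (h6 t) j _
      (mem_closedBall_self (by positivity)) a1 a2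
  refine ⟨j, fun w w' hw hw' => ⟨(h9 w hw).1, h8 (mem_closedBall_iff_norm.2
    ((h9 w hw).2.trans (by linarith [min_le_right θ δ]))), ?_⟩⟩
  have a1 := (h9 w hw).2
  have a2 := (h9 w' hw').2
  rw [← dist_eq_norm] at a1 a2 ⊢
  linarith [dist_triangle_right (h n j w) (h n j w') (h n j (circleMap w₀ τ 0)), min_le_left θ δ]

end Vale.Agent.P290Z.BR
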