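import Vale.Agent.P290Z.BR.SpecB
import Vale.Agent.P290Z.BR.Tame.Pos
import Vale.Agent.P290.H416.K3FL
import Vale.Agent.P290.H445.Coh

/-! P290Z, block BR, TAME: every K3 surface has a closed taming form. -/

open scoped Manifold ContDiff ComplexConjugate

set_option linter.all false

noncomputable section

namespace Vale.Agent.P290Z.BR

open Vale.Agent.P290 Vale.Agent.P267 Vale.Agent.P290.H158 Vale.Agent.P290.H445
open Vale.Agent.P267.FL (TwoF Reg0 Reg1 Reg11 dbar0 dbar1 intX)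
open Vale.Agent.P267.H469 (del11 S20 S22 cj0 cj1 cj11 cjF r0cj' reg_del11 wedge_mem intX_neg
  intX_add intX_smul)

namespace TameAux

variable (Z : All.K3)

theorem exists_20 {b : Z.X → Fin 2 → ℂ} (hb : Reg1 ∞ 1 b) (h0 : ∀ x, dbar1 1 b x = 0) :
    ∃ g : Z.X → ℂ, Reg0 ∞ 1 g ∧ dbar0 1 g = b := by
  have h1 : Reg1 ∞ (-1 + 1) (fun x i => OmI Z x • b x i) := Reg1.smul' (Reg0_OmI Z) hb
  rw [neg_add_cancel] at h1
  obtain ⟨f, hf, hf2⟩ := H416.dbar_solve h1 fun x => by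
    have h2 := dbar1_mul (HolOn_OmI Z) hb x
    rw [neg_add_cancel, h0 x, smul_zero] at h2
    exact h2
  refine ⟨fun x => Om Z x • f x, Reg0.smul' (Reg0_Om Z) hf, funext fun x => funext fun i => ?_⟩
  have h3 := dbar0_mul (HolOn_Om Z) hf x i
  rw [add_zero, hf2] at h3
  rw [h3, smul_smul, Om_mul, one_smul]

theorem om_mem {g : Z.X → ℂ} (hg : Reg0 ∞ 1 g) : (fun x => Om Z x * conj (g x)) ∈ S22 Z.X := by
  have h1 := wedge_mem (H469.toF_smooth ((⟨Om Z, Reg0_Om Z⟩, 0, 0) : H469.Om2 Z.X))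
    (H469.toF_smooth ((0, 0, ⟨cj0 g, r0cj' hg⟩) : H469.Om2 Z.X))
  refine (congrArg (· ∈ S22 Z.X) (funext fun x => ?_)).mpr h1
  simp [TwoF.wedge, H469.toF, cj0]

theorem om_ne : intX (fun x => Om Z x * conj (Om Z x)) ≠ 0 := fun h0 => by
  have hm := om_mem Z (Reg0_Om Z)
  have h1 : ∀ x, (((-1 : ℂ) • fun x => Om Z x * conj (Om Z x)) x).re =
      -Complex.normSq (Om Z x) := fun x => by
    rw [Pi.smul_apply, smul_eq_mul, neg_one_mul, Complex.neg_re, Complex.mul_conj,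
      Complex.ofReal_re]
  have h2 := intX_neg ((S22 Z.X).smul_mem (-1) hm) fun x => by
    rw [h1]
    exact neg_nonpos.2 (Complex.normSq_nonneg _)
  obtain ⟨x⟩ : Nonempty Z.X := inferInstance
  have h3 := h2.2 (by rw [intX_smul _ hm, h0, mul_zero]; exact le_rfl) x
  rw [h1, neg_eq_zero, Complex.normSq_eq_zero] at h3
  exact Om_ne_zero Z x h3

/-- the closed real form with given `(1,1)`-part, orthogonal to the holomorphic form -/
theorem exists_closed {w : Z.X → Matrix (Fin 2) (Fin 2) ℂ} (hw : Reg11 ∞ w)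
    (hr : ∀ x i j, w x j i = -conj (w x i j)) (h0 : ∀ x, dbar1 1 (del11 w) x = 0) :
    ∃ P : TwoF Z.X, SCR P ∧ P.f11 = w ∧ BlockC.pair (Kur.omF Z) P = 0 := by
  obtain ⟨g, hg, hg1⟩ := exists_20 Z (reg_del11 hw) h0
  have hO := Reg0_Om Z
  let c : ℂ := conj (-(intX (fun x => Om Z x * conj (g x)) /
    intX fun x => Om Z x * conj (Om Z x)))
  have hc : Reg0 ∞ 1 (c • Om Z) := (S20 Z.X).smul_mem c hO
  have hs : Reg0 ∞ 1 (g + c • Om Z) := (S20 Z.X).add_mem hg hc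
  let G : Z.X → ℂ := (-1 : ℂ) • (g + c • Om Z)
  have hG : Reg0 ∞ 1 G := (S20 Z.X).smul_mem _ hs
  let P : TwoF Z.X := ⟨G, w, cj0 G⟩
  have h21 : P.d21 = 0 := by
    have h1 : dbar0 1 (Om Z) = 0 := funext fun x => funext fun i => dbar_of_holOn (HolOn_Om Z) x i
    show dbar0 1 ((-1 : ℂ) • (g + c • Om Z)) + del11 w = 0
    rw [H469.dbar0_smul hs, H469.dbar0_add hg hc, H469.dbar0_smul hO, h1, hg1, smul_zero, add_zero,
      neg_one_smul, neg_add_cancel]
  have hcj : cjF P = P := by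
    have h1 : cj11 w = w := funext fun x => Matrix.ext fun i j => (hr x j i).symm
    show (⟨cj0 (cj0 G), cj11 w, cj0 G⟩ : TwoF Z.X) = _
    rw [H469.cj0_cj0, h1]
  have h12 : P.d12 = 0 := by
    rw [← hcj, H469.d12_cj, h21]
    funext x i
    exact map_zero _
  refine ⟨P, ⟨⟨hG, hw, r0cj' hG⟩, ⟨fun x j => congrFun (congrFun h21 x) j,
    fun x i => congrFun (congrFun h12 x) i⟩, fun x => ⟨(Complex.conj_conj _).symm, hr x⟩⟩, rfl, ?_⟩
  have h1 : (Kur.omF Z).wedge P = (-1 : ℂ) • ((fun x => Om Z x * conj (g x)) +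
      conj c • fun x => Om Z x * conj (Om Z x)) := by
    funext x
    simp only [TwoF.wedge, Kur.omF, P, G, cj0, Pi.smul_apply, Pi.add_apply, Pi.zero_apply,
      Matrix.zero_apply, smul_eq_mul, map_mul, map_add, map_neg, map_one]
    ring
  have m1 := om_mem Z hg
  have m2 := (S22 Z.X).smul_mem (conj c) (om_mem Z hO)
  rw [BlockC.pair, h1, intX_smul _ ((S22 Z.X).add_mem m1 m2), intX_add m1 m2,
    intX_smul _ (om_mem Z hO), Complex.conj_conj, neg_mul (_ / _), div_mul_cancel₀ _ (om_ne Z),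
    add_neg_cancel, mul_zero]

end TameAux

open TameAux

theorem tame : StTame := fun Z => by
  obtain ⟨h, hh⟩ := H416.exists_isHerm Z.X
  obtain ⟨u, hu, hne, h0⟩ := exists_gker hh
  rw [d21_uom] at h0
  obtain ⟨P, ⟨hs, hc, -⟩, h11, -⟩ := exists_closed Z (uom_reg le_rfl hh hu) (uom_real hh u) h0
  obtain ⟨v, hv, hpos, h1⟩ := exists_pos hh hu hne h0 hs hc h11
  obtain ⟨P', hP, h11', hO⟩ := exists_closed Z (uom_reg le_rfl hh hv) (uom_real hh v) h1
  have h2 : P'.f11 = fun x => Complex.I • ((v x : ℂ) • h x) :=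
    h11'.trans (funext fun x => smul_comm _ _ _)
  exact ⟨P', hP, ⟨_, isHerm_smul hh hv hpos, h2⟩, hO,
    sq_pos (isHerm_smul hh hv hpos) hP.1 hP.2.2 h2⟩

end Vale.Agent.P290Z.BR
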